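import Crest.Agent.UF.Osc

/-! Approximation of a unimodular chirp by a polynomial. -/

set_option autoImplicit false
set_option linter.unusedVariables false
open Finset

namespace Crest.Agent.UF
open intervalIntegral

/-- Dirichlet kernel -/
noncomputable def dir (m : ℕ) (t : ℝ) : ℂ := ∑ i ∈ range m, e (i * t)

lemma norm_dir_le (m : ℕ) (t : ℝ) : ‖dir m t‖ ≤ m := by
  refine (norm_sum_le _ _).trans ?_
  simp [norm_e]

lemma dir_add_int (m : ℕ) (t : ℝ) (z : ℤ) : dir m (t + z) = dir m t := by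
  unfold dir
  refine sum_congr rfl fun i _ => ?_
  rw [← e_add_int (i * t) (i * z)]; congr 1; push_cast; ring

lemma continuous_dir (m : ℕ) : Continuous (dir m) := by
  unfold dir
  exact continuous_finsetSum _ fun i _ => continuous_e.comp (by fun_prop)

lemma norm_dir_mul (m : ℕ) {t : ℝ} (ht : |t| ≤ 1 / 2) : ‖dir m t‖ * (2 * |t|) ≤ 1 := by
  have h1 : dir m t * (e t - 1) = e t ^ m - 1 := by
    unfold dir; simp only [e_nat_mul]; exact geom_sum_mul _ _
  have h2 : ‖e t ^ m - 1‖ ≤ 2 := by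
    refine (norm_sub_le _ _).trans ?_
    rw [norm_pow, norm_e]; norm_num
  have h3 : 4 * |t| ≤ ‖e t - 1‖ := by
    unfold e
    rw [mul_comm _ Complex.I, Complex.norm_exp_I_mul_ofReal_sub_one, Real.norm_eq_abs, abs_mul]
    have h4 : 2 * Real.pi * t / 2 = Real.pi * t := by ring
    have h5 := Real.mul_abs_le_abs_sin (x := Real.pi * t) (by
      rw [abs_mul, abs_of_pos Real.pi_pos]; nlinarith [Real.pi_pos])
    rw [abs_mul, abs_of_pos Real.pi_pos, ← mul_assoc, div_mul_cancel₀ _ Real.pi_ne_zero] at h5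
    rw [h4, abs_two]; linarith
  rw [← h1, norm_mul] at h2
  nlinarith [norm_nonneg (dir m t)]

/-- trapezoidal weights -/
noncomputable def vv (L K k : ℕ) : ℝ :=
  (((range L ×ˢ range K).filter (fun p => p.1 + p.2 = k)).card : ℝ) / L

lemma vv_nonneg (L K k : ℕ) : 0 ≤ vv L K k := by unfold vv; positivity

lemma vv_le_one (L K k : ℕ) : vv L K k ≤ 1 := by
  unfold vv
  refine div_le_one_of_le₀ ?_ (by positivity)
  have : ((range L ×ˢ range K).filter (fun p => p.1 + p.2 = k)).card ≤ (range L).card := by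
    refine card_le_card_of_injOn Prod.fst (fun p hp => ?_) fun p hp p' hp' h => ?_
    · simp only [coe_filter, mem_product, Set.mem_ofPred_eq] at hp; exact hp.1.1
    · simp only [coe_filter, mem_product, Set.mem_ofPred_eq] at hp hp'
      exact Prod.ext h (by omega)
  exact_mod_cast this.trans (card_range L).le

lemma vv_eq_one {L K k : ℕ} (hL : 0 < L) (h1 : L ≤ k + 1) (h2 : k < K) : vv L K k = 1 := by
  refine le_antisymm (vv_le_one _ _ _) ?_
  unfold vv
  rw [one_le_div (by positivity)]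
  have : (range L).card ≤ ((range L ×ˢ range K).filter (fun p => p.1 + p.2 = k)).card := by
    refine card_le_card_of_injOn (fun i => (i, k - i)) (fun i hi => ?_) fun p _ p' _ h => ?_
    · simp only [coe_range, Set.mem_Iio] at hi
      simp only [coe_filter, mem_product, Set.mem_ofPred_eq, mem_range]; omega
    · exact congrArg Prod.fst h
  exact_mod_cast (card_range L).ge.trans this

/-- the kernel -/
noncomputable def VV (L K : ℕ) (t : ℝ) : ℂ := dir L t * dir K t / L

lemma sum_vv {L K N : ℕ} (h : L + K ≤ N + 1) (t : ℝ) :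
    ∑ k : Fin N, (vv L K k : ℂ) * e ((k : ℕ) * t) = VV L K t := by
  rw [Fin.sum_univ_eq_sum_range (fun k => (vv L K k : ℂ) * e (k * t)) N]
  unfold VV dir vv
  rw [sum_mul_sum, ← sum_product', ← sum_fiberwise_of_maps_to (s := range L ×ˢ range K)
    (t := range N) (g := fun p => p.1 + p.2) (fun p hp => by
      simp only [mem_product, mem_range] at hp ⊢; omega), sum_div]
  refine sum_congr rfl fun k _ => ?_
  rw [sum_congr rfl (g := fun _ => e (k * t)) (fun p hp => by
    rw [← e_add, ← (mem_filter.mp hp).2]; congr 1; push_cast; ring)]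
  simp only [sum_const, nsmul_eq_mul]; push_cast; ring

lemma continuous_VV (L K : ℕ) : Continuous (VV L K) :=
  ((continuous_dir L).mul (continuous_dir K)).div_const _

lemma VV_add_int (L K : ℕ) (t : ℝ) (z : ℤ) : VV L K (t + z) = VV L K t := by
  unfold VV; rw [dir_add_int, dir_add_int]

lemma norm_VV_le {L : ℕ} (hL : 0 < L) (K : ℕ) (t : ℝ) : ‖VV L K t‖ ≤ K := by
  unfold VV
  rw [norm_div, norm_mul, Complex.norm_natCast, div_le_iff₀ (by positivity), mul_comm (K : ℝ)]
  exact mul_le_mul (norm_dir_le _ _) (norm_dir_le _ _) (norm_nonneg _) (by positivity)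

lemma norm_VV_mul {L : ℕ} (hL : 0 < L) (K : ℕ) {t : ℝ} (ht : |t| ≤ 1 / 2) :
    ‖VV L K t‖ * (4 * L * |t| ^ 2) ≤ 1 := by
  unfold VV
  rw [norm_div, norm_mul, Complex.norm_natCast]
  have : ‖dir L t‖ * ‖dir K t‖ / L * (4 * L * |t| ^ 2) =
      (‖dir L t‖ * (2 * |t|)) * (‖dir K t‖ * (2 * |t|)) := by field_simp; ring
  rw [this]
  exact mul_le_one₀ (norm_dir_mul L ht) (by positivity) (norm_dir_mul K ht)

lemma poly_eq {L K N : ℕ} (h : L + K ≤ N + 1) {ψ : ℝ → ℝ}
    (hψ : ContinuousOn ψ (Set.Icc 0 (1 / 2))) (θ : ℝ) :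
    ∑ k : Fin N, ((vv L K k * (2 * (∫ y in (0 : ℝ)..(1 / 2), e (ψ y - (k : ℕ) * y)).re) : ℝ) : ℂ) *
      e ((k : ℕ) * θ) =
    ∫ y in (0 : ℝ)..(1 / 2), (e (ψ y) * VV L K (θ - y) + e (-ψ y) * VV L K (θ + y)) := by
  have h1 : ∀ k : ℕ, IntervalIntegrable (fun y => e (ψ y - k * y)) MeasureTheory.volume 0 (1 / 2) :=
    fun k => ii_e (by norm_num) (hψ.sub (by fun_prop))
  have h2 : ∀ k : ℕ, IntervalIntegrable (fun y => e (-(ψ y - k * y))) MeasureTheory.volume 0
    (1 / 2) := fun k => ii_e (by norm_num) (hψ.sub (by fun_prop)).neg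
  have h3 : ∀ k : Fin N,
      ((vv L K k * (2 * (∫ y in (0 : ℝ)..(1 / 2), e (ψ y - (k : ℕ) * y)).re) : ℝ) : ℂ) *
      e ((k : ℕ) * θ) = ∫ y in (0 : ℝ)..(1 / 2), (vv L K k : ℂ) * e ((k : ℕ) * θ) *
        (e (ψ y - (k : ℕ) * y) + e (-(ψ y - (k : ℕ) * y))) := by
    intro k
    rw [integral_const_mul, integral_add (h1 k) (h2 k), integral_e_neg, Complex.add_conj]
    push_cast; ring
  simp only [h3]
  rw [← integral_finsetSum fun (k : Fin N) _ => ((h1 k).add (h2 k)).const_mul _]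
  refine integral_congr fun y _ => ?_
  simp only [← sum_vv h, mul_sum, ← sum_add_distrib]
  refine sum_congr rfl fun k _ => ?_
  have h4 : e ((k : ℕ) * θ) * e (ψ y - (k : ℕ) * y) = e (ψ y) * e ((k : ℕ) * (θ - y)) := by
    rw [← e_add, ← e_add]; congr 1; ring
  have h5 : e ((k : ℕ) * θ) * e (-(ψ y - (k : ℕ) * y)) = e (-ψ y) * e ((k : ℕ) * (θ + y)) := by
    rw [← e_add, ← e_add]; congr 1; ring
  linear_combination (vv L K k : ℂ) * h4 + (vv L K k : ℂ) * h5

lemma re_integral_e (n k : ℕ) :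
    2 * (∫ y in (0 : ℝ)..(1 / 2), e (n * y - k * y)).re = if k = n then 1 else 0 := by
  split_ifs with h
  · subst h; simp [e_zero]
  · have hj : ((n : ℝ) - k) ≠ 0 := sub_ne_zero.mpr (by exact_mod_cast Ne.symm h)
    have hd : ∀ y ∈ Set.uIcc (0 : ℝ) (1 / 2), HasDerivAt (fun y : ℝ => e (n * y - k * y))
        (((n : ℝ) - k : ℝ) * (2 * Real.pi * Complex.I) * e (n * y - k * y)) y := by
      intro y _
      have h0 : HasDerivAt (fun y : ℝ => n * y - k * y) ((n : ℝ) - k) y :=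
        (((hasDerivAt_id y).const_mul _).sub ((hasDerivAt_id y).const_mul _)).congr_deriv (by simp)
      refine ((hasDerivAt_e _).scomp y h0).congr_deriv ?_
      rw [Complex.real_smul]; ring
    have h1 := integral_eq_sub_of_hasDerivAt hd
      ((ii_e (by norm_num) (by fun_prop)).const_mul _)
    rw [integral_const_mul] at h1
    have h2 : (e (n * (1 / 2) - k * (1 / 2))).im = 0 := by
      unfold e
      rw [Complex.exp_ofReal_mul_I_im]
      have := Real.sin_int_mul_pi ((n : ℤ) - k)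
      rw [← this]; congr 1; push_cast; ring
    have h3 := congrArg Complex.im h1
    simp only [mul_zero, sub_zero, e_zero, Complex.sub_im, h2, Complex.one_im] at h3
    simp only [Complex.mul_im, Complex.mul_re, Complex.ofReal_re, Complex.ofReal_im, Complex.I_re,
      Complex.I_im, Complex.re_ofNat, Complex.im_ofNat, mul_zero, zero_mul, sub_zero, add_zero,
      mul_one, zero_add] at h3
    rcases mul_eq_zero.mp h3 with h4 | h4
    · exact absurd h4 (mul_ne_zero hj (by positivity))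
    · rw [h4, mul_zero]

lemma repro {L K N n : ℕ} (h : L + K ≤ N + 1) (hn : n < N) (hv : vv L K n = 1) (θ : ℝ) :
    e (n * θ) =
      ∫ y in (0 : ℝ)..(1 / 2), (e (n * y) * VV L K (θ - y) + e (-(n * y)) * VV L K (θ + y)) := by
  rw [← poly_eq h (ψ := fun y => n * y) (by fun_prop) θ, sum_eq_single (⟨n, hn⟩ : Fin N)]
  · simp only [re_integral_e, hv]; simp
  · intro k _ hk
    rw [re_integral_e, if_neg fun h => hk (Fin.ext h)]; simp
  · simp

lemma key_pt {D V C' N L η t : ℝ} (hη : 0 < η) (hC : 0 < C') (hL : 0 < L) (hNL : η * N ≤ 2 * L)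
    (ht : 0 ≤ t) (hD0 : 0 ≤ D) (hD2 : D ≤ 2) (hD : D ≤ C' * (N * t + 1) * t) (hV0 : 0 ≤ V)
    (hVN : V ≤ N) (hV : V * (4 * L * t ^ 2) ≤ 1) :
    D * V ≤ 2 * (C' * (1 + 1 / η)) / (1 + 2 * L * (C' * (1 + 1 / η)) * t ^ 2) := by
  set Kc := C' * (1 + 1 / η) with hK
  have hK0 : 0 < Kc := by positivity
  have hN0 : 0 ≤ N := hV0.trans hVN
  have h1 : N * (V * t ^ 2) ≤ 1 / (2 * η) := by
    rw [le_div_iff₀ (by positivity)]
    have : 0 ≤ V * t ^ 2 := by positivity
    nlinarith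
  have h2 : t * V ≤ 1 + 1 / (2 * η) := by
    have : (t * V) ^ 2 ≤ N * (V * t ^ 2) := by
      have : 0 ≤ V * t ^ 2 := by positivity
      nlinarith
    nlinarith [sq_nonneg (t * V - 1), mul_nonneg ht hV0]
  have h3 : D * V ≤ Kc := by
    refine (mul_le_mul_of_nonneg_right hD hV0).trans ?_
    have : C' * (N * t + 1) * t * V = C' * (N * (V * t ^ 2) + t * V) := by ring
    rw [this, hK]
    refine mul_le_mul_of_nonneg_left ?_ hC.le
    have : 1 / η = 1 / (2 * η) + 1 / (2 * η) := by field_simp; ring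
    linarith
  have h4 : D * V * (2 * L * Kc * t ^ 2) ≤ Kc := by
    have : D * V * (2 * L * Kc * t ^ 2) = Kc * (D / 2 * (V * (4 * L * t ^ 2))) := by ring
    rw [this]
    exact mul_le_of_le_one_right hK0.le (mul_le_one₀ (by linarith) (by positivity) hV)
  rw [le_div_iff₀ (by positivity)]
  linarith

lemma integral_bump {lam : ℝ} (hl : 0 < lam) (A c a b : ℝ) (hA : 0 ≤ A) :
    ∫ y in a..b, A / (1 + lam ^ 2 * (y - c) ^ 2) ≤ A * Real.pi / lam := by
  have h1 := integral_eq_sub_of_hasDerivAt (a := a) (b := b)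
    (f := fun y => A / lam * Real.arctan (lam * (y - c)))
    (f' := fun y => A / (1 + lam ^ 2 * (y - c) ^ 2)) (fun y _ => by
      have h0 : HasDerivAt (fun y => lam * (y - c)) lam y :=
        (((hasDerivAt_id y).sub_const c).const_mul lam).congr_deriv (by simp)
      refine (h0.arctan.const_mul _).congr_deriv ?_
      field_simp)
    (Continuous.intervalIntegrable (continuous_const.div (by fun_prop) fun y => by positivity) _ _)
  rw [h1, ← mul_sub, mul_div_right_comm]
  refine mul_le_mul_of_nonneg_left ?_ (by positivity)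
  linarith [Real.arctan_lt_pi_div_two (lam * (b - c)), Real.neg_pi_div_two_lt_arctan (lam * (a - c))]

lemma norm_poly_red {N : ℕ} (c : Fin N → ℝ) (θ : ℝ) :
    ‖∑ k : Fin N, (c k : ℂ) * e ((k : ℕ) * θ)‖ =
      ‖∑ k : Fin N, (c k : ℂ) * e ((k : ℕ) * |θ - round θ|)‖ := by
  have h1 : ∑ k : Fin N, (c k : ℂ) * e ((k : ℕ) * θ) =
      ∑ k : Fin N, (c k : ℂ) * e ((k : ℕ) * (θ - round θ)) := by
    refine sum_congr rfl fun k _ => ?_
    rw [← e_add_int ((k : ℕ) * (θ - round θ)) ((k : ℕ) * round θ)]; congr 2; push_cast; ring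
  rw [h1]
  rcases abs_cases (θ - round θ) with h | h
  · rw [h.1]
  · rw [h.1, ← Complex.norm_conj, map_sum]
    congr 1
    refine sum_congr rfl fun k _ => ?_
    rw [map_mul, Complex.conj_ofReal, ← e_neg, mul_neg]

lemma norm_e_sub_e_le_two (x y : ℝ) : ‖e x - e y‖ ≤ 2 := by
  refine (norm_sub_le _ _).trans ?_
  rw [norm_e, norm_e]; norm_num

/-- (A) a unimodular chirp is a polynomial of degree `< N` up to `ε`. -/
theorem approx_poly (η C ε : ℝ) (hη : 0 < η) (hC : 0 < C) (hε : 0 < ε) :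
    ∃ N₀ : ℕ, ∀ N : ℕ, N₀ ≤ N → ∀ ψ : ℝ → ℝ, ContinuousOn ψ (Set.Icc 0 (1 / 2)) → ψ 0 = 0 →
      (∃ n : ℤ, 2 * ψ (1 / 2) = n) →
      (∀ θ ∈ Set.Icc (0 : ℝ) (1 / 2), ∃ n : ℤ, η * N ≤ n ∧ (n : ℝ) ≤ (1 - η) * N ∧
        ∀ y ∈ Set.Icc (0 : ℝ) (1 / 2), ∀ y' ∈ Set.Icc (0 : ℝ) (1 / 2),
          |ψ y - ψ y' - n * (y - y')| ≤ C * (N * max |y - θ| |y' - θ| + 1) * |y - y'|) →
      ∃ v : Fin N → ℝ, (∀ k, 0 ≤ v k ∧ v k ≤ 1) ∧ ∀ θ : ℝ,
        |‖∑ k : Fin N, ((v k * (2 * (∫ y in (0 : ℝ)..(1 / 2), e (ψ y - (k : ℕ) * y)).re) : ℝ) : ℂ) *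
            e ((k : ℕ) * θ)‖ - 1| ≤ ε := by
  have hπ := Real.pi_pos
  obtain ⟨C', hC'⟩ : ∃ C', C' = 2 * Real.pi * C := ⟨_, rfl⟩
  have hC'0 : 0 < C' := by rw [hC']; positivity
  obtain ⟨Kc, hKc⟩ : ∃ Kc, Kc = C' * (1 + 1 / η) := ⟨_, rfl⟩
  have hK0 : 0 < Kc := by rw [hKc]; positivity
  obtain ⟨N₀, hN₀⟩ := exists_nat_ge (1 / η + (6 * Kc * Real.pi / ε) ^ 2 / (η * Kc))
  refine ⟨N₀, fun N hN ψ hψ hψ0 ⟨z, hz⟩ hch => ?_⟩
  have hNR : 1 / η + (6 * Kc * Real.pi / ε) ^ 2 / (η * Kc) ≤ N := hN₀.trans (by exact_mod_cast hN)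
  have hN1 : 1 ≤ η * N := by
    have : 1 / η ≤ N := le_trans (le_add_of_nonneg_right (by positivity)) hNR
    rw [div_le_iff₀ hη] at this; linarith
  have hN2 : (6 * Kc * Real.pi / ε) ^ 2 ≤ η * N * Kc := by
    have : (6 * Kc * Real.pi / ε) ^ 2 / (η * Kc) ≤ N :=
      le_trans (le_add_of_nonneg_left (by positivity)) hNR
    rw [div_le_iff₀ (by positivity)] at this; linarith
  set L := ⌊η * N⌋₊ with hLdef
  have hL1 : (L : ℝ) ≤ η * N := Nat.floor_le (by linarith)
  have hL : 0 < L := Nat.floor_pos.mpr hN1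
  have hLR : (1 : ℝ) ≤ L := by exact_mod_cast hL
  have hL2 : η * N ≤ 2 * L := by have := Nat.lt_floor_add_one (η * N); linarith
  have hLN : L ≤ N := by
    obtain ⟨n, h1, h2, _⟩ := hch 0 ⟨le_rfl, by norm_num⟩
    have : (L : ℝ) ≤ N := by nlinarith
    exact_mod_cast this
  set K := N - L + 1 with hK
  have hLK : L + K ≤ N + 1 := by omega
  have hKN : (K : ℝ) ≤ N := by exact_mod_cast (by omega : K ≤ N)
  obtain ⟨lam, hlam⟩ : ∃ lam, lam = Real.sqrt (2 * L * Kc) := ⟨_, rfl⟩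
  have hlam2 : lam ^ 2 = 2 * L * Kc := by rw [hlam]; exact Real.sq_sqrt (by positivity)
  have hlam0 : 0 < lam := by rw [hlam]; exact Real.sqrt_pos.mpr (by positivity)
  have hlam1 : 6 * Kc * Real.pi / ε ≤ lam := by
    rw [hlam]; exact Real.le_sqrt_of_sq_le (by nlinarith)
  refine ⟨fun k => vv L K k, fun k => ⟨vv_nonneg _ _ _, vv_le_one _ _ _⟩, fun θ₀ => ?_⟩
  rw [norm_poly_red]
  have hθ : |θ₀ - round θ₀| ∈ Set.Icc (0 : ℝ) (1 / 2) := ⟨abs_nonneg _, abs_sub_round θ₀⟩
  generalize |θ₀ - round θ₀| = θ at hθ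
  obtain ⟨n', h1, h2, h3⟩ := hch θ hθ
  obtain ⟨n, rfl⟩ : ∃ n : ℕ, n' = n := Int.eq_ofNat_of_zero_le (by
    have : (0 : ℝ) ≤ n' := by linarith
    exact_mod_cast this)
  push_cast at h1 h2 h3
  have hn1 : L ≤ n := by exact_mod_cast (by linarith : (L : ℝ) ≤ n)
  have hn2 : n + L ≤ N := by exact_mod_cast (by linarith : (n : ℝ) + L ≤ N)
  have hrep := repro hLK (by omega : n < N) (vv_eq_one hL (by omega) (by omega)) θ
  rw [poly_eq hLK hψ]
  have hnn : ∀ P : ℂ, |‖P‖ - 1| ≤ ‖P - e (ψ θ)‖ := fun P => by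
    have := abs_norm_sub_norm_le P (e (ψ θ)); rwa [norm_e] at this
  refine (hnn _).trans ?_
  have hcV1 : Continuous fun y => VV L K (θ - y) := (continuous_VV L K).comp (by fun_prop)
  have hcV2 : Continuous fun y => VV L K (θ + y) := (continuous_VV L K).comp (by fun_prop)
  have hI : ∀ φ : ℝ → ℝ, ContinuousOn φ (Set.Icc 0 (1 / 2)) → IntervalIntegrable
      (fun y => e (φ y) * VV L K (θ - y) + e (-φ y) * VV L K (θ + y)) MeasureTheory.volume 0
      (1 / 2) := fun φ hφ => ContinuousOn.intervalIntegrable_of_Icc (by norm_num)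
    (((continuous_e.comp_continuousOn hφ).mul hcV1.continuousOn).add
      ((continuous_e.comp_continuousOn hφ.neg).mul hcV2.continuousOn))
  have hU : e (ψ θ) = e (ψ θ - n * θ) * e (n * θ) := by rw [← e_add]; congr 1; ring
  rw [hU, hrep, ← integral_const_mul, ← integral_sub (hI ψ hψ)
    ((hI (fun y => n * y) (by fun_prop)).const_mul _)]
  let β : ℝ → ℝ → ℝ := fun c y => 2 * Kc / (1 + lam ^ 2 * (y - c) ^ 2)
  have hβc : ∀ c, IntervalIntegrable (β c) MeasureTheory.volume 0 (1 / 2) := fun c =>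
    Continuous.intervalIntegrable (continuous_const.div (by fun_prop) fun y => by positivity) _ _
  have hβ0 : ∀ c y, 0 ≤ β c y := fun c y => by positivity
  have hkey : ∀ (x x' t c y : ℝ), |t| ≤ 1 / 2 → |x - x'| ≤ C * (N * |t| + 1) * |t| →
      t ^ 2 = (y - c) ^ 2 → ‖(e x - e x') * VV L K t‖ ≤ β c y := by
    intro x x' t c y ht hx htc
    rw [norm_mul]
    have := key_pt hη hC'0 (by linarith) hL2 (abs_nonneg t) (norm_nonneg _)
      (norm_e_sub_e_le_two x x') ((norm_e_sub_e_le x x').trans (by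
        rw [hC', mul_assoc (2 * Real.pi), mul_assoc (2 * Real.pi)]
        exact mul_le_mul_of_nonneg_left hx (by positivity))) (norm_nonneg _)
      ((norm_VV_le hL K t).trans hKN) (norm_VV_mul hL K ht)
    rwa [← hKc, ← hlam2, sq_abs, htc] at this
  refine (norm_integral_le_of_norm_le (g := fun y => β θ y + (β (-θ) y + β (1 - θ) y))
    (by norm_num) (Filter.Eventually.of_forall fun y hy => ?_)
    ((hβc _).add ((hβc _).add (hβc _)))).trans ?_
  · have hy' : y ∈ Set.Icc (0 : ℝ) (1 / 2) := ⟨hy.1.le, hy.2⟩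
    have h4 : e (ψ y) * VV L K (θ - y) + e (-ψ y) * VV L K (θ + y) - e (ψ θ - n * θ) *
        (e (n * y) * VV L K (θ - y) + e (-(n * y)) * VV L K (θ + y)) =
        (e (ψ y) - e (ψ θ - n * θ + n * y)) * VV L K (θ - y) +
        (e (-ψ y) - e (ψ θ - n * θ + -(n * y))) * VV L K (θ + y) := by
      rw [e_add, e_add]; ring
    rw [h4]
    refine (norm_add_le _ _).trans (add_le_add ?_ ?_)
    · refine hkey _ _ _ _ _ (abs_le.mpr ⟨by linarith [hθ.1, hy.2], by linarith [hθ.2, hy.1]⟩) ?_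
        (by ring)
      have h5 := h3 y hy' θ hθ
      rw [sub_self, abs_zero, max_eq_left (abs_nonneg _), abs_sub_comm y θ] at h5
      refine le_of_eq_of_le ?_ h5
      congr 1; ring
    · have hsum : ∀ w ∈ Set.Icc (0 : ℝ) (1 / 2), ∀ t : ℝ, |y - w| + |θ - w| = t →
          |ψ y + ψ θ - 2 * ψ w - n * (y + θ - 2 * w)| ≤ C * (N * t + 1) * t := by
        intro w hw t ht
        have h5 := h3 y hy' w hw
        have h6 := h3 θ hθ w hw
        have ha := abs_nonneg (y - w)
        have hb := abs_nonneg (θ - w)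
        have h7 : max |y - θ| |w - θ| ≤ t := max_le (by
          have := abs_sub_le y w θ; rw [abs_sub_comm w θ] at this; linarith)
          (by rw [abs_sub_comm]; linarith)
        have h8 : max |θ - θ| |w - θ| ≤ t := max_le (by rw [sub_self, abs_zero]; linarith)
          (by rw [abs_sub_comm]; linarith)
        have h9 := h5.trans (mul_le_mul_of_nonneg_right (mul_le_mul_of_nonneg_left
          (add_le_add_left (mul_le_mul_of_nonneg_left h7 (Nat.cast_nonneg N)) 1) hC.le) ha)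
        have h10 := h6.trans (mul_le_mul_of_nonneg_right (mul_le_mul_of_nonneg_left
          (add_le_add_left (mul_le_mul_of_nonneg_left h8 (Nat.cast_nonneg N)) 1) hC.le) hb)
        have h11 : ψ y + ψ θ - 2 * ψ w - n * (y + θ - 2 * w) =
            (ψ y - ψ w - n * (y - w)) + (ψ θ - ψ w - n * (θ - w)) := by ring
        rw [h11]
        refine (abs_add_le _ _).trans ((add_le_add h9 h10).trans_eq ?_)
        rw [← mul_add, ht]
      by_cases hc : θ + y ≤ 1 / 2
      · have ht : |θ + y| = θ + y := abs_of_nonneg (by linarith [hθ.1, hy.1])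
        refine le_trans (hkey _ _ _ (-θ) y (by rwa [ht]) ?_ (by ring))
          (le_add_of_nonneg_right (hβ0 _ _))
        have h5 := hsum 0 ⟨le_rfl, by norm_num⟩ |θ + y| (by
          rw [ht, sub_zero, sub_zero, abs_of_nonneg hθ.1, abs_of_nonneg hy'.1]; ring)
        refine le_of_eq_of_le ?_ h5
        rw [← abs_neg, hψ0]; congr 1; ring
      · have ht : |θ + y + (-1 : ℤ)| = 1 - θ - y := by
          rw [abs_of_nonpos (by push_cast; linarith [hθ.2, hy.2])]; push_cast; ring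
        rw [← VV_add_int L K (θ + y) (-1), ← e_add_int (-ψ y) (z - n)]
        refine le_trans (hkey _ _ _ (1 - θ) y (by rw [ht]; linarith) ?_ (by push_cast; ring))
          (le_add_of_nonneg_left (hβ0 _ _))
        have h5 := hsum (1 / 2) ⟨by norm_num, le_rfl⟩ |θ + y + (-1 : ℤ)| (by
          rw [ht, abs_of_nonpos (by linarith [hy.2]), abs_of_nonpos (by linarith [hθ.2])]; ring)
        refine le_of_eq_of_le ?_ h5
        rw [← abs_neg, hz]; congr 1; push_cast; ring
  · rw [integral_add (hβc _) ((hβc _).add (hβc _)), integral_add (hβc _) (hβc _)]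
    have hb := fun c => integral_bump hlam0 (2 * Kc) c 0 (1 / 2) (by positivity)
    have h4 : 2 * Kc * Real.pi / lam ≤ ε / 3 := by
      rw [div_le_iff₀ hε] at hlam1
      rw [div_le_iff₀ hlam0]; linarith
    have := hb θ; have := hb (-θ); have := hb (1 - θ)
    simp only [β]; linarith

end Crest.Agent.UF
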