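import Crest.Agent.UF.Fejer

set_option autoImplicit false
open Finset

namespace Crest.Agent.UF

lemma norm_sqc_sq (r : ℤ) :
    ‖sqc r‖ ^ 2 = if Odd r then 4 / (Real.pi ^ 2 * (r : ℝ) ^ 2) else 0 := by
  unfold sqc
  split_ifs
  · simp only [norm_div, norm_mul, Complex.norm_real, Complex.norm_I, Complex.norm_intCast,
      Complex.norm_ofNat, Real.norm_eq_abs, div_pow, mul_pow, sq_abs]
    norm_num
  · simp

lemma hasSum_congr' {ι : Type} {f g : ι → ℝ} {a b : ℝ} (h : HasSum f a) (h1 : ∀ i, g i = f i)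
    (h2 : b = a) : HasSum g b := by
  obtain rfl : g = f := funext h1
  subst h2; exact h

lemma hasSum_odd_inv_sq :
    HasSum (fun n : ℕ => if Odd n then (1 : ℝ) / (n : ℝ) ^ 2 else 0) (Real.pi ^ 2 / 8) := by
  have h1 : HasSum (fun n : ℕ => if Odd n then (0:ℝ) else (1 : ℝ) / (n : ℝ) ^ 2)
      (Real.pi ^ 2 / 24) := by
    have hinj : Function.Injective (fun n : ℕ => 2 * n) := fun a b h => by simpa using h
    rw [← hinj.hasSum_iff]
    · have := hasSum_zeta_two.mul_left (1 / 4)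
      refine hasSum_congr' this (fun n => ?_) ?_
      · simp only [Function.comp]
        rw [if_neg (by simp)]
        push_cast; ring
      · ring
    · intro x hx
      rw [if_pos]
      rcases Nat.even_or_odd x with ⟨k, hk⟩ | h
      · exact absurd ⟨k, by simp [hk, two_mul]⟩ hx
      · exact h
  have := hasSum_zeta_two.sub h1
  refine hasSum_congr' this (fun n => ?_) ?_
  · split_ifs <;> simp
  · ring

lemma hasSum_sqc : HasSum (fun r : ℤ => ‖sqc r‖ ^ 2) 1 := by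
  have h := hasSum_odd_inv_sq.mul_left (4 / Real.pi ^ 2)
  have hpi := Real.pi_pos
  have h1 : HasSum (fun n : ℕ => ‖sqc n‖ ^ 2) (1 / 2) := by
    refine hasSum_congr' h (fun n => ?_) ?_
    · rw [norm_sqc_sq]
      simp only [Int.odd_coe_nat]
      split_ifs
      · push_cast; field_simp
      · simp
    · field_simp; norm_num
  have h2 : HasSum (fun n : ℕ => ‖sqc (-n)‖ ^ 2) (1 / 2) := by
    refine hasSum_congr' h1 (fun n => ?_) rfl
    rw [norm_sqc_sq, norm_sqc_sq]; simp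
  have := HasSum.of_nat_of_neg (f := fun r : ℤ => ‖sqc r‖ ^ 2) h1 h2
  refine hasSum_congr' this (fun _ => rfl) ?_
  simp [sqc]; norm_num

lemma fw_nonneg (L : ℕ) (r : ℤ) : 0 ≤ fw L r := le_max_left _ _

lemma fw_le_one (L : ℕ) (r : ℤ) : fw L r ≤ 1 :=
  max_le zero_le_one (by have : 0 ≤ |(r : ℝ)| / L := by positivity
                         linarith)

/-- one-variable coefficient -/
noncomputable def bc (L : ℕ) (r : ℤ) : ℂ := (fw L r : ℂ) * sqc r

lemma bc_neg (L : ℕ) (r : ℤ) : bc L (-r) = (starRingEnd ℂ) (bc L r) := by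
  unfold bc fw sqc
  simp only [Int.cast_neg, abs_neg, odd_neg, map_mul, Complex.conj_ofReal]
  split_ifs
  · simp only [map_div₀, map_mul, Complex.conj_ofReal, Complex.conj_I, map_intCast, map_ofNat]
    congr 2; ring
  · simp

lemma norm_bc_sq (L : ℕ) (r : ℤ) : ‖bc L r‖ ^ 2 = fw L r ^ 2 * ‖sqc r‖ ^ 2 := by
  unfold bc; rw [norm_mul, mul_pow, Complex.norm_real, Real.norm_eq_abs, sq_abs]

lemma norm_bc_sq_le (L : ℕ) (r : ℤ) : ‖bc L r‖ ^ 2 ≤ ‖sqc r‖ ^ 2 := by
  rw [norm_bc_sq]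
  refine mul_le_of_le_one_left (by positivity) ?_
  exact pow_le_one₀ (fw_nonneg _ _) (fw_le_one _ _)

lemma sum_bc_le (L : ℕ) (s : Finset ℤ) : ∑ r ∈ s, ‖bc L r‖ ^ 2 ≤ 1 :=
  (sum_le_sum fun r _ => norm_bc_sq_le L r).trans
    (sum_le_hasSum s (fun _ _ => by positivity) hasSum_sqc)

lemma sum_bc_le_half (L : ℕ) (s : Finset ℤ) :
    ∑ r ∈ s.filter (fun r => r.natAbs ≠ 1), ‖bc L r‖ ^ 2 ≤ 1 / 2 := by
  refine (sum_le_sum fun r _ => norm_bc_sq_le L r).trans ?_
  have h := sum_le_hasSum (insert 1 (insert (-1) (s.filter (fun r => r.natAbs ≠ 1))))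
    (fun _ _ => by positivity) hasSum_sqc
  rw [sum_insert (by simp), sum_insert (by simp), norm_sqc_sq, norm_sqc_sq] at h
  simp only [odd_one, odd_neg, if_true] at h
  have h4 := Real.pi_le_four
  have h0 := Real.pi_pos
  have : (1:ℝ) / 4 ≤ 4 / Real.pi ^ 2 := by
    rw [div_le_div_iff₀ (by norm_num) (by positivity)]; nlinarith
  push_cast at h
  norm_num at h ⊢
  linarith

lemma exists_bc_mass (δ : ℝ) (hδ : 0 < δ) :
    ∃ L : ℕ, 0 < L ∧ 1 - δ ≤ ∑ r ∈ Icc (-(L : ℤ)) L, ‖bc L r‖ ^ 2 := by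
  have h := hasSum_sqc
  obtain ⟨s, hs⟩ : ∃ s : Finset ℤ, 1 - δ / 2 < ∑ r ∈ s, ‖sqc r‖ ^ 2 := by
    have := (h.eventually (lt_mem_nhds (show 1 - δ / 2 < (1:ℝ) by linarith))).exists
    exact this
  set R : ℕ := s.sup Int.natAbs with hR
  obtain ⟨M, hM⟩ := exists_nat_gt (4 / δ)
  have hM0 : (0 : ℝ) < M := lt_trans (by positivity) hM
  have hM1 : 1 ≤ M := by exact_mod_cast hM0
  refine ⟨(R + 1) * M, by positivity, ?_⟩
  have hsub : s ⊆ Icc (-(((R + 1) * M : ℕ) : ℤ)) (((R + 1) * M : ℕ) : ℤ) := by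
    intro r hr
    have h1 : r.natAbs ≤ R := le_sup (f := Int.natAbs) hr
    have h2 : R ≤ (R + 1) * M := by nlinarith
    rw [mem_Icc]; omega
  refine le_trans ?_ (sum_le_sum_of_subset_of_nonneg hsub fun _ _ _ => by positivity)
  have h3 : ∀ r ∈ s, (1 - δ / 2) * ‖sqc r‖ ^ 2 ≤ ‖bc ((R + 1) * M) r‖ ^ 2 := by
    intro r hr
    rw [norm_bc_sq]
    refine mul_le_mul_of_nonneg_right ?_ (by positivity)
    have h1 : r.natAbs ≤ R := le_sup (f := Int.natAbs) hr
    have h2 : |(r : ℝ)| ≤ R := by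
      rw [← Int.cast_abs, Int.abs_eq_natAbs]; exact_mod_cast h1
    have h4 : |(r : ℝ)| / (((R + 1) * M : ℕ) : ℝ) ≤ δ / 4 := by
      rw [div_le_iff₀ (by positivity)]
      rw [div_lt_iff₀ hδ] at hM
      push_cast
      have : (0:ℝ) ≤ R := by positivity
      nlinarith
    have h5 : 1 - δ / 4 ≤ fw ((R + 1) * M) r := le_trans (by linarith) (le_max_right _ _)
    have h6 := fw_nonneg ((R + 1) * M) r
    nlinarith [sq_nonneg (fw ((R + 1) * M) r - 1), fw_le_one ((R + 1) * M) r]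
  have h4 := sum_le_sum h3
  rw [← mul_sum] at h4
  have h5 : ∑ r ∈ s, ‖sqc r‖ ^ 2 ≤ 1 := sum_le_hasSum s (fun _ _ => by positivity) hasSum_sqc
  nlinarith

/-- gcd of a frequency vector -/
def gv {D : ℕ} (r : Fin D → ℤ) : ℕ := univ.gcd fun i => (r i).natAbs

lemma dvd_gv {D : ℕ} (r : Fin D → ℤ) (n : ℕ) : n ∣ gv r ↔ ∀ i, (n : ℤ) ∣ r i := by
  unfold gv
  rw [Finset.dvd_gcd_iff]
  simp [Int.natCast_dvd]

lemma gv_smul {D : ℕ} (r : Fin D → ℤ) (a : ℤ) : gv (fun i => a * r i) = a.natAbs * gv r := by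
  unfold gv
  simp_rw [Int.natAbs_mul]
  rw [Finset.gcd_mul_left]; simp

lemma sum_moebius_Icc (L g : ℕ) (hg : 0 < g) (hL : g ≤ L) :
    ∑ n ∈ Icc 1 L, (if n ∣ g then ((ArithmeticFunction.moebius n : ℤ) : ℂ) else 0) =
      if g = 1 then 1 else 0 := by
  have h := congrArg (fun f : ArithmeticFunction ℤ => f g)
    ArithmeticFunction.moebius_mul_coe_zeta
  simp only [ArithmeticFunction.coe_mul_zeta_apply, ArithmeticFunction.one_apply] at h
  rw [← sum_filter]
  have : (Icc 1 L).filter (· ∣ g) = g.divisors := by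
    ext n
    simp only [mem_filter, mem_Icc, Nat.mem_divisors]
    constructor
    · exact fun h => ⟨h.2, hg.ne'⟩
    · exact fun h => ⟨⟨Nat.pos_of_dvd_of_pos h.1 hg, (Nat.le_of_dvd hg h.1).trans hL⟩, h.1⟩
  rw [this, ← Int.cast_sum, h]
  split_ifs <;> simp

/-- primitive frequencies in the box -/
noncomputable def prim (D L : ℕ) : Finset (Fin D → ℤ) :=
  (Fintype.piFinset fun _ : Fin D => Icc (-(L : ℤ)) L).filter fun r => gv r = 1

lemma prim_sup (D L : ℕ) (hL : 0 < L) (x : Fin (D + 2) → ℝ) :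
    ‖∑ r ∈ prim (D + 2) L, ∏ i, (bc L (r i) * e (r i * x i))‖ ≤ 1 + (1 / 2) ^ D := by
  have h1 : ∑ r ∈ prim (D + 2) L, ∏ i, (bc L (r i) * e (r i * x i)) =
      ∑ n ∈ Icc 1 L, ((ArithmeticFunction.moebius n : ℤ) : ℂ) *
        ∏ i, ∑ r ∈ Icc (-(L : ℤ)) L, (if (n : ℤ) ∣ r then bc L r * e (r * x i) else 0) := by
    simp_rw [prod_univ_sum, mul_sum]
    rw [sum_comm, prim, sum_filter]
    refine sum_congr rfl fun r hr => ?_
    have h2 : ∀ n : ℕ, ((ArithmeticFunction.moebius n : ℤ) : ℂ) *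
        ∏ i, (if (n : ℤ) ∣ r i then bc L (r i) * e (r i * x i) else 0) =
        (if n ∣ gv r then ((ArithmeticFunction.moebius n : ℤ) : ℂ) else 0) *
          ∏ i, (bc L (r i) * e (r i * x i)) := by
      intro n
      rw [Fintype.prod_ite_zero]
      simp only [dvd_gv]
      split_ifs <;> simp
    simp_rw [h2, ← sum_mul]
    by_cases h0 : r 0 = 0
    · have : ∏ i, (bc L (r i) * e (r i * x i)) = 0 :=
        prod_eq_zero (mem_univ 0) (by simp [h0, bc, sqc])
      simp [this]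
    · have hd : gv r ∣ (r 0).natAbs := Finset.gcd_dvd (mem_univ 0)
      have hp : 0 < (r 0).natAbs := Int.natAbs_pos.2 h0
      have hle : (r 0).natAbs ≤ L := by
        have := mem_Icc.1 (Fintype.mem_piFinset.1 hr 0); omega
      rw [sum_moebius_Icc L _ (Nat.pos_of_dvd_of_pos hd hp) ((Nat.le_of_dvd hp hd).trans hle)]
      split_ifs <;> simp
  rw [h1]
  refine (norm_sum_le _ _).trans ?_
  have h2 : ∀ n ∈ Icc 1 L, ‖((ArithmeticFunction.moebius n : ℤ) : ℂ) *
      ∏ i, ∑ r ∈ Icc (-(L : ℤ)) L, (if (n : ℤ) ∣ r then bc L r * e (r * x i) else 0)‖ ≤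
      (1 / (n : ℝ)) ^ (D + 2) := by
    intro n hn
    rw [norm_mul, norm_prod]
    have h3 : ‖((ArithmeticFunction.moebius n : ℤ) : ℂ)‖ ≤ 1 := by
      rw [Complex.norm_intCast]; exact_mod_cast ArithmeticFunction.abs_moebius_le_one
    refine (mul_le_of_le_one_left (by positivity) h3).trans ?_
    have h4 : (1 / (n : ℝ)) ^ (D + 2) = ∏ _i : Fin (D + 2), (1 / (n : ℝ)) := by simp
    rw [h4]
    exact prod_le_prod (fun _ _ => norm_nonneg _) fun i _ =>
      (fw_PD L hL).proj_bound n (mem_Icc.1 hn).1 (x i)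
  refine (sum_le_sum h2).trans ?_
  have h5 : Icc 1 L = insert 1 (Ioc 1 L) := by
    ext n; simp only [mem_Icc, mem_insert, mem_Ioc]; omega
  rw [h5, sum_insert (by simp)]
  simp only [Nat.cast_one, ne_eq, one_ne_zero, not_false_eq_true, div_self, one_pow,
    add_le_add_iff_left]
  have h6 : ∀ n ∈ Ioc 1 L, (1 / (n : ℝ)) ^ (D + 2) ≤ (1 / 2) ^ D * ((n : ℝ) ^ 2)⁻¹ := by
    intro n hn
    have : (2 : ℝ) ≤ n := by exact_mod_cast (mem_Ioc.1 hn).1
    rw [pow_add, one_div (n : ℝ), inv_pow _ 2]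
    refine mul_le_mul_of_nonneg_right ?_ (by positivity)
    refine pow_le_pow_left₀ (by positivity) ?_ _
    rw [one_div]; exact inv_anti₀ (by norm_num) this
  refine (sum_le_sum h6).trans ?_
  rw [← mul_sum]
  refine mul_le_of_le_one_right (by positivity) ?_
  have := sum_Ioc_inv_sq_le_sub (α := ℝ) (k := 1) (n := L) one_ne_zero hL
  have h7 : (0:ℝ) ≤ (L : ℝ)⁻¹ := by positivity
  simp only [Nat.cast_one, inv_one] at this
  linarith

lemma prim_mass (D L : ℕ) :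
    (∑ r ∈ Icc (-(L : ℤ)) L, ‖bc L r‖ ^ 2) ^ D - (1 / 2) ^ D ≤
      ∑ r ∈ prim D L, ‖∏ i, bc L (r i)‖ ^ 2 ∧ ∑ r ∈ prim D L, ‖∏ i, bc L (r i)‖ ^ 2 ≤ 1 := by
  have hp : ∀ s : Finset ℤ, (∑ r ∈ s, ‖bc L r‖ ^ 2) ^ D =
      ∑ r ∈ Fintype.piFinset (fun _ : Fin D => s), ‖∏ i, bc L (r i)‖ ^ 2 := by
    intro s
    have : (∑ r ∈ s, ‖bc L r‖ ^ 2) ^ D = ∏ _i : Fin D, ∑ r ∈ s, ‖bc L r‖ ^ 2 := by simp
    rw [this, prod_univ_sum]
    simp_rw [norm_prod, prod_pow]
  constructor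
  · have h1 := sum_bc_le_half L (Icc (-(L : ℤ)) L)
    have h2 := pow_le_pow_left₀ (sum_nonneg fun _ _ => by positivity) h1 D
    rw [hp] at h2 ⊢
    rw [← sum_filter_add_sum_filter_not _ (fun r => gv r = 1)]
    have h3 : ∑ r ∈ (Fintype.piFinset fun _ : Fin D => Icc (-(L : ℤ)) L).filter
        (fun r => ¬ gv r = 1), ‖∏ i, bc L (r i)‖ ^ 2 ≤
        ∑ r ∈ Fintype.piFinset (fun _ : Fin D => (Icc (-(L : ℤ)) L).filter
          (fun r => r.natAbs ≠ 1)), ‖∏ i, bc L (r i)‖ ^ 2 := by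
      refine sum_le_sum_of_subset_of_nonneg ?_ fun _ _ _ => by positivity
      intro r hr
      obtain ⟨h4, h5⟩ := mem_filter.1 hr
      rw [Fintype.mem_piFinset] at h4 ⊢
      intro i
      refine mem_filter.2 ⟨h4 i, fun h => h5 ?_⟩
      have : gv r ∣ (r i).natAbs := Finset.gcd_dvd (mem_univ i)
      rw [h] at this
      exact Nat.dvd_one.1 this
    unfold prim
    linarith
  · have h1 := pow_le_one₀ (n := D) (sum_nonneg fun _ _ => by positivity)
      (sum_bc_le L (Icc (-(L : ℤ)) L))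
    rw [hp] at h1
    exact le_trans (sum_le_sum_of_subset_of_nonneg (filter_subset _ _)
      fun _ _ _ => by positivity) h1

lemma exists_nonorth {D : ℕ} (V : Finset (Fin D → ℤ)) :
    ∃ g : Fin D → ℤ, ∀ v ∈ V, v ≠ 0 → ∑ i, v i * g i ≠ 0 := by
  classical
  let P : (Fin D → ℤ) → MvPolynomial (Fin D) ℤ := fun v => ∑ i, MvPolynomial.C (v i) * MvPolynomial.X i
  have hP : ∀ v g, MvPolynomial.eval g (P v) = ∑ i, v i * g i := by
    intro v g; simp [P]
  have hP0 : ∀ v, v ≠ 0 → P v ≠ 0 := by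
    intro v hv h
    apply hv
    funext i
    have := hP v (Pi.single i 1)
    rw [h, map_zero, sum_eq_single i] at this
    · simpa using this.symm
    · intro j _ hj; simp [hj]
    · simp
  have h1 : ∏ v ∈ V.filter (· ≠ 0), P v ≠ 0 :=
    prod_ne_zero_iff.2 fun v hv => hP0 v (mem_filter.1 hv).2
  by_contra hcon
  push Not at hcon
  apply h1
  apply MvPolynomial.funext
  intro g
  obtain ⟨v, hv, hv0, h⟩ := hcon g
  rw [map_zero, map_prod]
  exact prod_eq_zero (mem_filter.2 ⟨hv, hv0⟩) (by rw [hP, h])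

theorem exists_f (ε : ℝ) (hε : 0 < ε) :
    ∃ (J : ℕ) (c : Fin J → ℕ) (d : Fin J → ℤ) (a : Fin J → ℂ),
      (∀ i, 0 < c i) ∧ (∀ i j, i ≠ j → (c i : ℤ) * d j ≠ c j * d i) ∧ (∀ i, a i ≠ 0) ∧
      (∀ x y : ℝ, |2 * (∑ i, a i * e (c i * x + d i * y)).re| ≤ 1) ∧
      1 - ε ≤ 2 * ∑ i, ‖a i‖ ^ 2 ∧ 2 * ∑ i, ‖a i‖ ^ 2 ≤ 1 := by
  classical
  obtain ⟨D, hD⟩ := exists_pow_lt_of_lt_one (show 0 < ε / 10 by positivity)
    (show (1 / 2 : ℝ) < 1 by norm_num)
  obtain ⟨L, hL, hW⟩ := exists_bc_mass (min 1 (ε / (4 * (D + 2)))) (by positivity)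
  set τ : ℝ := (1 / 2) ^ D with hτ
  have hτ0 : 0 < τ := by positivity
  have hτ1 : τ ≤ 1 := pow_le_one₀ (by norm_num) (by norm_num)
  set A : (Fin (D + 2) → ℤ) → ℂ := fun r => ∏ i, bc L (r i) with hA
  set T := (prim (D + 2) L).filter (fun r => A r ≠ 0) with hT
  have hAneg : ∀ r, A (-r) = (starRingEnd ℂ) (A r) := by
    intro r; simp only [hA, map_prod, Pi.neg_apply, bc_neg]
  have hTneg : ∀ r ∈ T, -r ∈ T := by
    intro r hr
    simp only [hT, prim, mem_filter, Fintype.mem_piFinset, mem_Icc] at hr ⊢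
    refine ⟨⟨fun i => ?_, ?_⟩, ?_⟩
    · have := hr.1.1 i; simp only [Pi.neg_apply]; omega
    · rw [← hr.1.2]; unfold gv; simp
    · rw [hAneg]; simpa using hr.2
  have hTg : ∀ r ∈ T, gv r = 1 := fun r hr => (mem_filter.1 (mem_filter.1 hr).1).2
  have hT0 : ∀ r ∈ T, r ≠ 0 := by
    intro r hr h
    have := hTg r hr
    have h2 : 0 ∣ gv r := (dvd_gv r 0).2 fun i => by simp [h]
    rw [this] at h2
    simp at h2
  obtain ⟨g1, hg1⟩ := exists_nonorth T
  set cc : (Fin (D + 2) → ℤ) → ℤ := fun r => ∑ i, r i * g1 i with hcc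
  obtain ⟨g2, hg2⟩ := exists_nonorth ((T ×ˢ T).image fun p i => cc p.1 * p.2 i - cc p.2 * p.1 i)
  set dd : (Fin (D + 2) → ℤ) → ℤ := fun r => ∑ i, r i * g2 i with hdd
  have hccneg : ∀ r, cc (-r) = -cc r := by intro r; simp [hcc]
  set Tp := T.filter (fun r => 0 < cc r) with hTp
  have hsplit : ∀ {M : Type} [AddCommMonoid M] (f : (Fin (D + 2) → ℤ) → M),
      ∑ r ∈ T, f r = ∑ r ∈ Tp, (f r + f (-r)) := by
    intro M _ f
    rw [← sum_filter_add_sum_filter_not T (fun r => 0 < cc r), sum_add_distrib]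
    congr 1
    refine sum_nbij' (fun r => -r) (fun r => -r) ?_ ?_ (by simp) (by simp) (by simp)
    · intro r hr
      obtain ⟨h1, h2⟩ := mem_filter.1 hr
      refine mem_filter.2 ⟨hTneg r h1, ?_⟩
      have : cc r ≠ 0 := hg1 r h1 (hT0 r h1)
      rw [hccneg]; omega
    · intro r hr
      obtain ⟨h1, h2⟩ := mem_filter.1 hr
      refine mem_filter.2 ⟨hTneg r h1, ?_⟩
      rw [hccneg]; omega
  let E : Fin Tp.card ≃ Tp := Tp.equivFin.symm
  have hE : ∀ i, (E i).1 ∈ T ∧ 0 < cc (E i).1 := fun i => mem_filter.1 (E i).2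
  have hsum : ∀ {M : Type} [AddCommMonoid M] (f : (Fin (D + 2) → ℤ) → M),
      ∑ i, f (E i).1 = ∑ r ∈ Tp, f r := by
    intro M _ f
    rw [Equiv.sum_comp E (fun r => f r.1), sum_coe_sort Tp f]
  have hcast : ∀ i, (((cc (E i).1).toNat : ℕ) : ℤ) = cc (E i).1 := fun i =>
    Int.toNat_of_nonneg (hE i).2.le
  have hcastR : ∀ i, (((cc (E i).1).toNat : ℕ) : ℝ) = cc (E i).1 := fun i => by
    exact_mod_cast hcast i
  have hmass : 2 * ∑ i, ‖A (E i).1 / ((1 + τ : ℝ) : ℂ)‖ ^ 2 =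
      (∑ r ∈ prim (D + 2) L, ‖A r‖ ^ 2) / (1 + τ) ^ 2 := by
    have h1 : ∑ r ∈ prim (D + 2) L, ‖A r‖ ^ 2 = ∑ r ∈ T, ‖A r‖ ^ 2 := by
      rw [hT, sum_filter_of_ne]
      intro r _ h h0; apply h; simp [h0]
    rw [h1, hsplit, hsum (fun r => ‖A r / ((1 + τ : ℝ) : ℂ)‖ ^ 2), mul_sum, sum_div]
    refine sum_congr rfl fun r _ => ?_
    rw [hAneg, norm_div, Complex.norm_real, Real.norm_eq_abs, div_pow, sq_abs, Complex.norm_conj]
    ring
  obtain ⟨hm1, hm2⟩ := prim_mass (D + 2) L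
  refine ⟨Tp.card, fun i => (cc (E i).1).toNat, fun i => dd (E i).1,
    fun i => A (E i).1 / ((1 + τ : ℝ) : ℂ), fun i => ?_, fun i j hij h => ?_, fun i => ?_,
    fun x y => ?_, ?_, ?_⟩
  · have := (hE i).2
    change 0 < (cc (E i).1).toNat
    omega
  · rw [hcast, hcast] at h
    refine hg2 (fun l => cc (E i).1 * (E j).1 l - cc (E j).1 * (E i).1 l)
      (mem_image.2 ⟨((E i).1, (E j).1), mem_product.2 ⟨(hE i).1, (hE j).1⟩, rfl⟩) ?_ ?_
    · intro h0
      have h1 : (fun l => cc (E i).1 * (E j).1 l) = fun l => cc (E j).1 * (E i).1 l := by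
        funext l; have := congrFun h0 l; simp only [Pi.zero_apply] at this; linarith
      have h2 := congrArg gv h1
      rw [gv_smul, gv_smul, hTg _ (hE i).1, hTg _ (hE j).1] at h2
      have h3 : cc (E i).1 = cc (E j).1 := by
        have := (hE i).2; have := (hE j).2; omega
      apply hij
      apply E.injective
      apply Subtype.ext
      funext l
      have := congrFun h1 l
      simp only [h3] at this
      exact (mul_left_cancel₀ (hE j).2.ne' this).symm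
    · simp only [hdd, mul_sum] at h
      simp only [sub_mul, sum_sub_distrib, mul_assoc]
      rw [h, sub_self]
  · refine div_ne_zero (mem_filter.1 (hE i).1).2 ?_
    exact_mod_cast (by positivity : (1 + τ : ℝ) ≠ 0)
  · have h1 := prim_sup D L hL (fun i => g1 i * x + g2 i * y)
    have h2 : ∀ r : Fin (D + 2) → ℤ, ∏ i, (bc L (r i) * e (r i * (g1 i * x + g2 i * y))) =
        A r * e (cc r * x + dd r * y) := by
      intro r
      rw [prod_mul_distrib]
      congr 1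
      unfold e
      rw [← Complex.exp_sum]
      congr 1
      simp only [hcc, hdd]
      push_cast
      simp only [sum_mul, ← sum_add_distrib, mul_sum]
      exact sum_congr rfl fun i _ => by ring
    simp_rw [h2] at h1
    have h3 : ∑ r ∈ prim (D + 2) L, A r * e (cc r * x + dd r * y) =
        ∑ r ∈ T, A r * e (cc r * x + dd r * y) := by
      rw [hT, sum_filter_of_ne]
      intro r _ h h0; apply h; simp [h0]
    have h4 : ∀ r, A r * e (cc r * x + dd r * y) + A (-r) * e (cc (-r) * x + dd (-r) * y) =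
        ((2 * (A r * e (cc r * x + dd r * y)).re : ℝ) : ℂ) := by
      intro r
      have : dd (-r) = -dd r := by simp [hdd]
      rw [← Complex.add_conj, hAneg, map_mul, ← e_neg, hccneg, this]
      congr 3; push_cast; ring
    rw [h3, hsplit] at h1
    simp_rw [h4] at h1
    rw [← Complex.ofReal_sum, Complex.norm_real, Real.norm_eq_abs, ← mul_sum, ← Complex.re_sum]
      at h1
    simp_rw [hcastR]
    rw [hsum (fun r => A r / ((1 + τ : ℝ) : ℂ) * e (cc r * x + dd r * y))]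
    have h5 : ∑ r ∈ Tp, A r / ((1 + τ : ℝ) : ℂ) * e (cc r * x + dd r * y) =
        (∑ r ∈ Tp, A r * e (cc r * x + dd r * y)) / ((1 + τ : ℝ) : ℂ) := by
      rw [sum_div]; exact sum_congr rfl fun r _ => by ring
    rw [h5, Complex.div_ofReal_re, ← mul_div_assoc, abs_div, abs_of_pos (by positivity : 0 < 1 + τ),
      div_le_one (by positivity)]
    exact h1
  · rw [hmass, le_div_iff₀ (by positivity)]
    have h1 : 1 - ε / 4 ≤ (∑ r ∈ Icc (-(L : ℤ)) L, ‖bc L r‖ ^ 2) ^ (D + 2) := by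
      set δ := min 1 (ε / (4 * (D + 2))) with hδ
      have h2 : δ ≤ 1 := min_le_left _ _
      have h3 : δ ≤ ε / (4 * (D + 2)) := min_le_right _ _
      have h4 := one_add_mul_le_pow (a := -δ) (by linarith) (D + 2)
      have h5 := pow_le_pow_left₀ (by linarith) hW (D + 2)
      rw [le_div_iff₀ (by positivity)] at h3
      push_cast at h4
      rw [← sub_eq_add_neg] at h4
      nlinarith
    have h2 : (1 / 2 : ℝ) ^ (D + 2) ≤ τ := by
      rw [pow_add]; nlinarith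
    have h3 : (1 - ε) * (1 + τ) ^ 2 ≤ 1 - ε + 3 * τ := by nlinarith [mul_pos hε hτ0]
    simp only [hA]
    linarith
  · rw [hmass, div_le_one (by positivity)]
    simp only [hA]
    nlinarith

end Crest.Agent.UF
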