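import Crest.Agent.UF.Pack3

set_option autoImplicit false
open Finset

namespace Crest.Agent.UF

lemma exists_rank {S β : Type} [Fintype S] [DecidableEq β] (f : S → β) (h : ℕ)
    (hf : ∀ b, (univ.filter fun s => f s = b).card ≤ h) :
    ∃ R : S → ℕ, (∀ s, R s < h) ∧ ∀ s s', f s = f s' → R s = R s' → s = s' := by
  classical
  let en := Fintype.equivFin S
  let R : S → ℕ := fun s => (univ.filter fun s' => f s' = f s ∧ en s' < en s).card
  have hlt : ∀ s s', f s = f s' → en s < en s' → R s < R s' := by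
    intro s s' h1 h2
    apply card_lt_card
    refine ⟨fun x hx => ?_, fun hsub => ?_⟩
    · rw [mem_filter] at hx ⊢
      exact ⟨hx.1, hx.2.1.trans h1, hx.2.2.trans h2⟩
    · have := hsub (mem_filter.2 ⟨mem_univ s, h1, h2⟩)
      exact lt_irrefl _ (mem_filter.1 this).2.2
  refine ⟨R, fun s => lt_of_lt_of_le ?_ (hf (f s)), fun s s' h1 h2 => ?_⟩
  · apply card_lt_card
    refine ⟨fun x hx => ?_, fun hsub => ?_⟩
    · rw [mem_filter] at hx ⊢
      exact ⟨hx.1, hx.2.1⟩
    · have := hsub (mem_filter.2 ⟨mem_univ s, rfl⟩)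
      exact lt_irrefl _ (mem_filter.1 this).2.2
  · rcases lt_trichotomy (en s) (en s') with h | h | h
    · exact absurd h2 (hlt s s' h1 h).ne
    · exact en.injective h
    · exact absurd h2 (hlt s' s h1.symm h).ne'

lemma radix {n m r r' u u' : ℤ} (h0 : 0 ≤ r) (h1 : r < n) (h0' : 0 ≤ r') (h1' : r' < n)
    (h : r + n * u ≡ r' + n * u' [ZMOD (n * m)]) : r = r' ∧ u ≡ u' [ZMOD m] := by
  have hn : 0 < n := by linarith
  obtain ⟨h2, h3⟩ := ediv_modEq hn h
  rw [Int.add_mul_emod_self_left, Int.add_mul_emod_self_left, Int.emod_eq_of_lt h0 h1,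
    Int.emod_eq_of_lt h0' h1'] at h2
  rw [Int.add_mul_ediv_left _ _ hn.ne', Int.add_mul_ediv_left _ _ hn.ne',
    Int.ediv_eq_zero_of_lt h0 h1, Int.ediv_eq_zero_of_lt h0' h1', zero_add, zero_add] at h3
  exact ⟨h2, h3⟩

lemma exists_crt {J : ℕ} (D c : Fin J → ℕ) (hD : ∀ i j, i ≠ j → Nat.Coprime (D i) (D j))
    (hc : ∀ i, IsCoprime (D i : ℤ) (c i)) (x : Fin J → ℤ) :
    ∃ a : ℤ, ∀ i, c i * a ≡ x i [ZMOD D i] := by
  choose u v huv using hc
  obtain ⟨a, ha⟩ := Ideal.exists_forall_sub_mem_ideal (I := fun i => Ideal.span {(D i : ℤ)})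
    (fun i j hij => (Ideal.isCoprime_span_singleton_iff _ _).2 (Nat.isCoprime_iff_coprime.2 (hD i j hij)))
    (fun i => v i * x i)
  refine ⟨a, fun i => ?_⟩
  obtain ⟨t, ht⟩ := Ideal.mem_span_singleton.1 (ha i)
  refine (Int.modEq_iff_dvd.2 ⟨u i * x i - c i * t, ?_⟩)
  linear_combination (-(c i : ℤ)) * ht - x i * huv i

/-- the moduli -/
lemma exists_moduli {J : ℕ} (t : Fin J → ℝ) (ht : ∀ i, 0 < t i) (η : ℝ) (hη : 0 < η) (M : ℕ)
    (hM : 0 < M) (X₀ : ℝ) :
    ∃ (X : ℝ) (H : Fin J → ℕ), X₀ ≤ X ∧ (∀ i, M ∣ 2 * H i) ∧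
      (∀ i j, i ≠ j → Nat.Coprime (2 * H i + 1) (2 * H j + 1)) ∧
      ∀ i, (1 - η) * (X * t i) ≤ 2 * H i ∧ 2 * H i + 1 ≤ (1 + η) * (X * t i) := by
  obtain ⟨a, ha⟩ := exists_nat_ge (1 + ∑ i, (J + 1) / (η * t i))
  have hs : 0 ≤ ∑ i, (J + 1) / (η * t i) := sum_nonneg fun i _ => by have := ht i; positivity
  have ha1 : ∀ i, (J : ℝ) + 1 ≤ η * (a * t i) := fun i => by
    have h1 : (J + 1) / (η * t i) ≤ a := le_trans (single_le_sum
      (f := fun i => (J + 1) / (η * t i)) (fun i _ => by have := ht i; positivity) (mem_univ i))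
      (by linarith)
    rw [div_le_iff₀ (by have := ht i; positivity)] at h1
    linarith
  set A : Fin J → ℕ := fun i => J * ⌊a * t i / J⌋₊ + i with hA
  have hAinj : ∀ i j, A i = A j → i = j := fun i j h => by
    have h1 : A i % J = A j % J := by rw [h]
    simp only [hA, Nat.mul_add_mod, Nat.mod_eq_of_lt i.2, Nat.mod_eq_of_lt j.2] at h1
    exact Fin.ext h1
  have hA1 : ∀ i, a * t i - J ≤ A i ∧ (A i : ℝ) ≤ a * t i + J := fun i => by
    have hJ : (0 : ℝ) < J := by exact_mod_cast i.pos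
    have h1 := Nat.floor_le (a := a * t i / J) (by have := ht i; positivity)
    have h2 := Nat.lt_floor_add_one (a * t i / J)
    rw [le_div_iff₀ hJ] at h1
    rw [div_lt_iff₀ hJ] at h2
    have h3 : ((i : ℕ) : ℝ) ≤ J := by exact_mod_cast i.2.le
    have h4 : (0 : ℝ) ≤ (i : ℕ) := Nat.cast_nonneg _
    simp only [hA]; push_cast
    constructor <;> linarith
  obtain ⟨Y₀, hY₀⟩ := exists_nat_ge X₀
  set Y' : ℕ := M * (∑ i, A i).factorial * (Y₀ + 1) with hY'
  have hY1 : Y₀ + 1 ≤ Y' := Nat.le_mul_of_pos_left _ (Nat.mul_pos hM (Nat.factorial_pos _))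
  have hY2 : (Y₀ : ℝ) + 1 ≤ Y' := by exact_mod_cast hY1
  have hY0 : (0 : ℝ) ≤ Y₀ := Nat.cast_nonneg _
  have hcop : ∀ i j, A i < A j → Nat.Coprime (2 * (A i * Y') + 1) (2 * (A j * Y') + 1) := by
    intro i j hij
    have h1 : A j - A i ∣ 2 * Y' := by
      have h2 : A j - A i ∣ (∑ i, A i).factorial := Nat.dvd_factorial (by omega)
        ((Nat.sub_le _ _).trans (single_le_sum (f := A) (fun _ _ => Nat.zero_le _) (mem_univ j)))
      exact (h2.trans ⟨M * (Y₀ + 1), by rw [hY']; ring⟩).mul_left 2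
    have := Nat.coprime_mul_succ h1
    convert this using 2 <;> ring
  refine ⟨a * (2 * Y'), fun i => A i * Y', by nlinarith, fun i => ?_, fun i j hij => ?_, fun i => ?_⟩
  · exact ⟨2 * A i * (∑ i, A i).factorial * (Y₀ + 1), by rw [hY']; ring⟩
  · rcases lt_trichotomy (A i) (A j) with h | h | h
    · exact hcop i j h
    · exact absurd (hAinj i j h) hij
    · exact (hcop j i h).symm
  · have h1 := hA1 i
    have h2 := ha1 i
    push_cast
    constructor <;> nlinarith [h1.1, h1.2]

set_option maxHeartbeats 1600000 in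
/-- (K) -/
theorem packing (J : ℕ) (c : Fin J → ℕ) (d : Fin J → ℤ) (hc : ∀ i, 0 < c i)
    (hdet : ∀ i j, i ≠ j → (c i : ℤ) * d j ≠ c j * d i) (w : Fin J → ℝ) (hw : ∀ i, 0 < w i)
    (hsum : 2 * ∑ i, w i ≤ 1) (ε : ℝ) (hε : 0 < ε) :
    ∃ (D B : Fin J → ℕ) (Q T : ℕ) (ν : Fin T → ℤ × ℤ),
      0 < T ∧ 0 < Q ∧ Even Q ∧ (∀ i, Odd (D i)) ∧
      (∀ i j, i ≠ j → Nat.Coprime (D i) (D j)) ∧
      (∀ i j k, j ≠ k → IsCoprime (D i : ℤ) ((c j : ℤ) * d k - c k * d j)) ∧
      (∀ i, Q = B i * ∏ j ∈ univ.erase i, D j) ∧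
      (∀ i, |(c i : ℝ) * (∏ j ∈ univ.erase i, D j : ℕ) * T / Q - w i| ≤ ε * w i) ∧
      (∀ (t t' : Fin T) (i i' : Fin J) (b b' o o' : ℕ),
        b < ∏ j ∈ univ.erase i, D j → b' < ∏ j ∈ univ.erase i', D j → o < c i → o' < c i' →
        ((c i : ℤ) * (ν t).1 + d i * (ν t).2 + B i * b + o ≡
            (c i' : ℤ) * (ν t').1 + d i' * (ν t').2 + B i' * b' + o' [ZMOD Q] →
          t = t' ∧ i = i' ∧ b = b' ∧ o = o') ∧
        ¬ ((c i : ℤ) * (ν t).1 + d i * (ν t).2 + B i * b + o ≡
            -1 - ((c i' : ℤ) * (ν t').1 + d i' * (ν t').2 + B i' * b' + o') [ZMOD Q])) := by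
  classical
  set η : ℝ := min (ε / 6) (1 / 10) with hη
  have hη0 : 0 < η := lt_min (by positivity) (by norm_num)
  have hη1 : η ≤ 1 / 10 := min_le_right _ _
  have hη2 : 6 * η ≤ ε := by have := min_le_left (ε / 6) (1 / 10); linarith
  obtain ⟨E, L, α, hα, pos, hE, hL1, hL2, hcore⟩ := core c d hc hdet w hw hsum η hη0 (by linarith)
  obtain ⟨n, hn0, hcn, hne⟩ : ∃ n : ℕ, 0 < n ∧ (∀ i, c i ∣ n) ∧ Even n :=
    ⟨2 * ∏ i, c i, Nat.mul_pos two_pos (prod_pos fun i _ => hc i),
      fun i => (dvd_prod_of_mem c (mem_univ i)).mul_left 2, even_two_mul _⟩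
  set M : ℕ := (∏ i, c i) * ∏ jk : Fin J × Fin J,
    (if jk.1 = jk.2 then 1 else ((c jk.1 : ℤ) * d jk.2 - c jk.2 * d jk.1).natAbs) with hM
  have hM0 : 0 < M := Nat.mul_pos (prod_pos fun i _ => hc i) (prod_pos fun jk _ => by
    split_ifs with h
    · exact one_pos
    · exact Int.natAbs_pos.2 (sub_ne_zero.2 (hdet _ _ h)))
  obtain ⟨X, H, hX, hH1, hH2, hH3⟩ := exists_moduli (fun i => c i / w i)
    (fun i => div_pos (by exact_mod_cast hc i) (hw i)) η hη0 M hM0 ((Fintype.card α + 1) / η)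
  have hER : (1 : ℝ) ≤ E := by exact_mod_cast hE
  have hnR : (1 : ℝ) ≤ n := by exact_mod_cast hn0
  have hX1 : (Fintype.card α : ℝ) + 1 ≤ η * X := by rwa [div_le_iff₀' hη0] at hX
  have hα0 : (0 : ℝ) ≤ Fintype.card α := Nat.cast_nonneg _
  have hX0 : 0 < X := by by_contra h; push Not at h; nlinarith
  set D : Fin J → ℕ := fun i => 2 * H i + 1 with hD
  have hcopM : ∀ i (m : ℤ), m.natAbs ∣ M → IsCoprime (D i : ℤ) m := by
    intro i m hm
    obtain ⟨t, ht⟩ := Int.natAbs_dvd.1 (Int.natCast_dvd_natCast.2 (hm.trans (hH1 i)))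
    refine ⟨1, -t, ?_⟩
    simp only [hD]; push_cast at ht ⊢; linarith
  set κ : Fin n → Fin J → ℤ := fun j i => ((c i * j / n : ℕ) : ℤ) with hκ
  choose ω hω0 hω1 hω2 hω3 using fun j => hcore (κ j)
  set K : ℝ := (1 - η) ^ 2 * X * E with hK
  have hK0 : 0 ≤ K := by positivity
  let S := Σ ja : Fin n × α, Fin ⌊K * ω ja.1 ja.2⌋₊
  set T : ℕ := ⌊(1 - 4 * η) * (n * E * X)⌋₊ with hT
  have hnEX : X ≤ n * E * X := le_mul_of_one_le_left hX0.le (by nlinarith)
  have hT1 : (T : ℝ) ≤ (1 - 4 * η) * (n * E * X) := Nat.floor_le (mul_nonneg (by linarith) (by positivity))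
  have hT2 : (1 - 5 * η) * (n * E * X) ≤ T := by
    have := Nat.lt_floor_add_one ((1 - 4 * η) * (n * E * X))
    nlinarith
  have hTS : T ≤ Fintype.card S := by
    have h1 : (Fintype.card S : ℝ) = ∑ j, ∑ a, (⌊K * ω j a⌋₊ : ℝ) := by
      simp only [S, Fintype.card_sigma, Fintype.card_fin]
      push_cast
      rw [Fintype.sum_prod_type]
    have h2 : ∀ j, (1 - 4 * η) * (E * X) ≤ ∑ a, (⌊K * ω j a⌋₊ : ℝ) := by
      intro j
      have h3 : ∑ a, (K * ω j a - 1) ≤ ∑ a, (⌊K * ω j a⌋₊ : ℝ) :=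
        sum_le_sum fun a _ => by linarith [Nat.lt_floor_add_one (K * ω j a)]
      rw [sum_sub_distrib, ← mul_sum, sum_const, card_univ, nsmul_eq_mul, mul_one] at h3
      have h4 := mul_le_mul_of_nonneg_left (hω2 j) hK0
      have h5 := bern η (by linarith) 3
      have h6 : η * X ≤ η * (E * X) :=
        mul_le_mul_of_nonneg_left (le_mul_of_one_le_left hX0.le hER) hη0.le
      have h7 := mul_le_mul_of_nonneg_right h5 (by positivity : 0 ≤ E * X)
      have h8 : K * (1 - η) = (1 - η) ^ 3 * (E * X) := by rw [hK]; ring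
      push_cast at h7
      linarith
    have h3 : (T : ℝ) ≤ Fintype.card S := by
      rw [h1]
      refine hT1.trans (le_trans (le_of_eq ?_) (sum_le_sum fun j _ => h2 j))
      rw [sum_const, card_univ, Fintype.card_fin, nsmul_eq_mul]; ring
    exact_mod_cast h3
  obtain ⟨emb⟩ : Nonempty (Fin T ↪ S) := Function.Embedding.nonempty_of_card_le (by simpa using hTS)
  let y : Fin J → S → ℤ := fun i s => fz c d (κ s.1.1) i (pos s.1.2)
  let key : Fin J → S → ℕ × ℤ := fun i s => (c i * s.1.1 % n, y i s % E)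
  have hfib : ∀ i b, (univ.filter fun s => key i s = b).card ≤ H i := by
    intro i b
    have hwi := hw i
    have hci : (0 : ℝ) < c i := by exact_mod_cast hc i
    have h1 : ((univ.filter fun s => key i s = b).card : ℝ) ≤
        ∑ j ∈ univ.filter (fun j : Fin n => c i * j % n = b.1),
          ∑ a ∈ univ.filter (fun a => fz c d (κ j) i (pos a) ≡ b.2 [ZMOD E]), K * ω j a := by
      rw [card_filter, Fintype.sum_sigma, sum_filter]
      push_cast
      rw [Fintype.sum_prod_type]
      refine sum_le_sum fun j _ => ?_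
      split_ifs with hj
      · rw [sum_filter]
        refine sum_le_sum fun a _ => ?_
        split_ifs with ha
        · refine (sum_le_sum (g := fun _ => (1 : ℝ)) fun x _ => by split_ifs <;> norm_num).trans ?_
          rw [sum_const, card_univ, Fintype.card_fin, nsmul_eq_mul, mul_one]
          exact Nat.floor_le (mul_nonneg hK0 (hω0 j a))
        · refine le_of_eq (sum_eq_zero fun x _ => if_neg fun h => ha ?_)
          have := congrArg Prod.snd h
          simp only [key, y] at this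
          rw [← this]; exact (Int.mod_modEq _ _).symm
      · refine le_of_eq (sum_eq_zero fun a _ => sum_eq_zero fun x _ => if_neg fun h => hj ?_)
        exact congrArg Prod.fst h
    have h2 : (univ.filter (fun j : Fin n => c i * j % n = b.1)).card ≤ c i := by
      refine le_trans (card_le_card_of_injOn (t := range (c i)) (fun j => c i * j / n)
        (fun j _ => ?_) (fun j hj j' hj' h => ?_)) (card_range _).le
      · rw [coe_range, Set.mem_Iio]
        exact Nat.div_lt_of_lt_mul (by rw [mul_comm n]; exact Nat.mul_lt_mul_of_pos_left j.2 (hc i))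
      · have e1 := (mem_filter.1 (mem_coe.1 hj)).2
        have e2 := (mem_filter.1 (mem_coe.1 hj')).2
        have e3 := Nat.mod_add_div (c i * j) n
        have e4 := Nat.mod_add_div (c i * j') n
        simp only at h
        rw [e1, h] at e3
        rw [e2] at e4
        exact Fin.ext (Nat.eq_of_mul_eq_mul_left (hc i) (e3.symm.trans e4))
    have h3 : ∀ j, ∑ a ∈ univ.filter (fun a => fz c d (κ j) i (pos a) ≡ b.2 [ZMOD E]), K * ω j a ≤
        (1 - η) * X / (2 * w i) := fun j => by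
      rw [← mul_sum]
      refine (mul_le_mul_of_nonneg_left (hω3 j i b.2) hK0).trans (le_of_eq ?_)
      have : 1 - η ≠ 0 := by linarith
      rw [hK]; field_simp
    have h4 := h1.trans (sum_le_sum fun j _ => h3 j)
    rw [sum_const, nsmul_eq_mul] at h4
    have h5 : ((univ.filter (fun j : Fin n => c i * j % n = b.1)).card : ℝ) ≤ c i := by
      exact_mod_cast h2
    have h6 := h4.trans (mul_le_mul_of_nonneg_right h5
      (div_nonneg (mul_nonneg (by linarith) hX0.le) (by positivity)))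
    have h7 := (hH3 i).1
    have h8 : (c i : ℝ) * ((1 - η) * X / (2 * w i)) = (1 - η) * (X * (c i / w i)) / 2 := by
      field_simp
    have : ((univ.filter fun s => key i s = b).card : ℝ) ≤ H i := by linarith
    exact_mod_cast this
  choose R hR1 hR2 using fun i => exists_rank (key i) (H i) (hfib i)
  choose a ha using fun s : S => exists_crt D c hH2
    (fun i => hcopM i _ (by rw [Int.natAbs_natCast]; exact (dvd_prod_of_mem c (mem_univ i)).mul_right _))
    (fun i => R i s - y i s / E)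
  have hDpos : ∀ i, 0 < D i := fun i => Nat.succ_pos _
  have hDq : ∀ i, D i * ∏ j ∈ univ.erase i, D j = ∏ j, D j := fun i =>
    mul_prod_erase univ D (mem_univ i)
  have hlab : ∀ i s, L (y i s) = some i := fun i s => hω1 _ _ (fun h0 => by
    have h1 : 0 < ⌊K * ω s.1.1 s.1.2⌋₊ := s.2.pos
    rw [h0, mul_zero, Nat.floor_zero] at h1
    exact lt_irrefl _ h1) i
  refine ⟨D, fun i => n * E * D i, n * E * ∏ j, D j, T,
    fun t => ((emb t).1.1 + n * (pos (emb t).1.2).1 + n * E * a (emb t), n * (pos (emb t).1.2).2),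
    ?_, Nat.mul_pos (Nat.mul_pos hn0 hE) (prod_pos fun i _ => hDpos i),
    (hne.mul_right _).mul_right _, fun i => ⟨H i, rfl⟩, hH2, fun i j k hjk => ?_,
    fun i => by rw [mul_assoc _ (D i), hDq], fun i => ?_, ?_⟩
  · have : (0 : ℝ) < T := lt_of_lt_of_le (mul_pos (by linarith) (by positivity)) hT2
    exact_mod_cast this
  · apply hcopM
    refine Dvd.dvd.mul_left ?_ _
    have := dvd_prod_of_mem (fun jk : Fin J × Fin J => if jk.1 = jk.2 then 1 else
      ((c jk.1 : ℤ) * d jk.2 - c jk.2 * d jk.1).natAbs) (mem_univ (j, k))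
    simpa only [if_neg hjk] using this
  · have hwi := hw i
    have hci : (0 : ℝ) < c i := by exact_mod_cast hc i
    have hq : (0 : ℝ) < (∏ j ∈ univ.erase i, D j : ℕ) := by
      exact_mod_cast prod_pos fun j _ => hDpos j
    have hDi : (0 : ℝ) < D i := by exact_mod_cast hDpos i
    have e1 : (c i : ℝ) * (∏ j ∈ univ.erase i, D j : ℕ) * T / (n * E * ∏ j, D j : ℕ) =
        c i * T / (n * E * D i) := by
      rw [← hDq i, Nat.cast_mul, Nat.cast_mul, Nat.cast_mul]; field_simp
    rw [e1]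
    have h1 := hH3 i
    have hDe : (D i : ℝ) = 2 * H i + 1 := by simp [hD]
    have e2 : w i * (X * (c i / w i)) = X * c i := by field_simp
    have h2 : (1 - η) * (X * c i) ≤ w i * D i := by
      rw [← e2, hDe]; nlinarith [mul_le_mul_of_nonneg_left h1.1 hwi.le]
    have h3 : w i * D i ≤ (1 + η) * (X * c i) := by
      rw [← e2, hDe]; nlinarith [mul_le_mul_of_nonneg_left h1.2 hwi.le]
    have hnE : (0 : ℝ) < n * E := by positivity
    have hP : 0 < n * E * (X * c i) := by positivity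
    have h4 := mul_le_mul_of_nonneg_left h2 hnE.le
    have h5 := mul_le_mul_of_nonneg_left h3 hnE.le
    have h6 := mul_le_mul_of_nonneg_left hT1 hci.le
    have h7 := mul_le_mul_of_nonneg_left hT2 hci.le
    have h8 : 0 < n * E * (w i * D i) := by positivity
    rw [abs_le]
    constructor
    · rw [le_sub_iff_add_le, le_div_iff₀ (by positivity)]
      have h9 : (1 - 6 * η) * (n * E * (w i * D i)) ≤ (1 - 6 * η) * (n * E * ((1 + η) * (X * c i))) :=
        mul_le_mul_of_nonneg_left h5 (by linarith)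
      have h10 : (1 - 6 * η) * (n * E * ((1 + η) * (X * c i))) ≤ (1 - 5 * η) * (n * E * (X * c i)) := by
        nlinarith [mul_pos hP (mul_pos hη0 hη0)]
      nlinarith [mul_le_mul_of_nonneg_right hη2 h8.le]
    · rw [sub_le_iff_le_add, div_le_iff₀ (by positivity)]
      nlinarith [mul_pos hε h8, mul_pos hη0 hP]
  · intro t t' i i' b b' o o' hb hb' ho ho'
    have hE0 : (0 : ℤ) < E := by exact_mod_cast hE
    have hdec : ∀ (s : S) (i : Fin J) (b o : ℕ), o < c i →
        ((c i : ℤ) * (s.1.1 + n * (pos s.1.2).1 + n * E * a s) + d i * (n * (pos s.1.2).2) +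
          (n * E * D i : ℕ) * b + o = ((c i * s.1.1 % n + o : ℕ) : ℤ) + n * (y i s % E + E *
            (y i s / E + c i * a s + D i * b))) ∧ c i * s.1.1 % n + o < n := by
      intro s i b o ho
      constructor
      · have e1 := Int.emod_add_mul_ediv (y i s) E
        have e2 : ((c i * s.1.1 % n + n * (c i * s.1.1 / n) : ℕ) : ℤ) = (c i * s.1.1 : ℕ) := by
          rw [Nat.mod_add_div]
        have e3 : y i s = c i * (pos s.1.2).1 + d i * (pos s.1.2).2 + ((c i * s.1.1 / n : ℕ) : ℤ) := rfl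
        rw [Nat.cast_add, Nat.cast_mul, Nat.cast_mul] at e2
        rw [Nat.cast_add, Nat.cast_mul, Nat.cast_mul]
        linear_combination -e2 - (n : ℤ) * e1 - (n : ℤ) * e3
      · obtain ⟨m, hm⟩ := hcn i
        have h1 : c i * s.1.1 % n = c i * (s.1.1 % m) := by
          rw [← Nat.mul_mod_mul_left, ← hm]
        have hm0 : 0 < m := Nat.pos_of_mul_pos_left (hm ▸ hn0)
        have h2 : (s.1.1 : ℕ) % m + 1 ≤ m := Nat.mod_lt _ hm0
        have h3 := Nat.mul_le_mul_left (c i) h2
        rw [mul_add, ← hm, ← h1] at h3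
        omega
    obtain ⟨e1, l1⟩ := hdec (emb t) i b o ho
    obtain ⟨e2, l2⟩ := hdec (emb t') i' b' o' ho'
    have hmod : ((n * E * ∏ j, D j : ℕ) : ℤ) = n * (E * (∏ j, D j : ℕ)) := by push_cast; ring
    have htop : ∀ (s : S) (i : Fin J) (b : ℕ),
        y i s / E + c i * a s + D i * b ≡ R i s [ZMOD D i] := by
      intro s i b
      obtain ⟨u, hu⟩ := (ha s i).dvd
      exact Int.modEq_iff_dvd.2 ⟨u - b, by linear_combination hu⟩
    have hDd : ∀ i, (D i : ℤ) ∣ (∏ j, D j : ℕ) := fun i =>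
      Int.natCast_dvd_natCast.2 (dvd_prod_of_mem D (mem_univ i))
    simp only
    rw [e1, e2, hmod]
    constructor
    · intro h
      obtain ⟨h1, h2⟩ := radix (by positivity) (by exact_mod_cast l1) (by positivity)
        (by exact_mod_cast l2) h
      obtain ⟨h3, h4⟩ := radix (Int.emod_nonneg _ hE0.ne') (Int.emod_lt_of_pos _ hE0)
        (Int.emod_nonneg _ hE0.ne') (Int.emod_lt_of_pos _ hE0) h2
      have hii : i = i' := by
        have := hL1 _ _ h3
        rw [hlab, hlab] at this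
        exact Option.some.inj this
      subst hii
      have h5 : (R i (emb t) : ℤ) ≡ R i (emb t') [ZMOD D i] :=
        (htop _ i b).symm.trans ((h4.of_dvd (hDd i)).trans (htop _ i b'))
      have h6 : R i (emb t) = R i (emb t') := by
        have g1 := hR1 i (emb t)
        have g2 := hR1 i (emb t')
        exact Nat.ModEq.eq_of_lt_of_lt (Int.natCast_modEq_iff.1 h5) (by simp only [hD]; omega)
          (by simp only [hD]; omega)
      have h7 : c i * (emb t).1.1 % n + o = c i * (emb t').1.1 % n + o' := by exact_mod_cast h1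
      have h8 : o = o' := by
        have g1 : c i ∣ c i * (emb t).1.1 % n := (Nat.dvd_mod_iff (hcn i)).2 (dvd_mul_right _ _)
        have g2 : c i ∣ c i * (emb t').1.1 % n := (Nat.dvd_mod_iff (hcn i)).2 (dvd_mul_right _ _)
        obtain ⟨u, hu⟩ := g1
        obtain ⟨u', hu'⟩ := g2
        have g3 := congrArg (· % c i) h7
        simp only [hu, hu', Nat.mul_add_mod, Nat.mod_eq_of_lt ho, Nat.mod_eq_of_lt ho'] at g3
        exact g3
      have h9 : emb t = emb t' := hR2 i _ _ (Prod.ext (by simp only [key]; omega) h3) h6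
      have h10 : t = t' := emb.injective h9
      subst h10
      refine ⟨rfl, rfl, ?_, h8⟩
      have h11 := Int.ModEq.add_left_cancel' _ h4
      rw [← hDq i, Nat.cast_mul] at h11
      have h12 := Int.ModEq.mul_left_cancel' (by exact_mod_cast (hDpos i).ne') h11
      exact Nat.ModEq.eq_of_lt_of_lt (Int.natCast_modEq_iff.1 h12) hb hb'
    · intro h
      have e3 : ∀ r u v : ℤ, -1 - (r + n * (u + E * v)) =
          (n - 1 - r) + n * ((E - 1 - u) + E * (-1 - v)) := fun r u v => by ring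
      rw [e3] at h
      have l2' : (((c i' * (emb t').1.1 % n + o' : ℕ)) : ℤ) < n := by exact_mod_cast l2
      obtain ⟨h1, h2⟩ := radix (by positivity) (by exact_mod_cast l1) (by linarith)
        (by have : (0 : ℤ) ≤ ((c i' * (emb t').1.1 % n + o' : ℕ) : ℤ) := by positivity
            linarith) h
      have g1 := Int.emod_nonneg (y i' (emb t')) hE0.ne'
      have g2 := Int.emod_lt_of_pos (y i' (emb t')) hE0
      obtain ⟨h3, h4⟩ := radix (Int.emod_nonneg _ hE0.ne') (Int.emod_lt_of_pos _ hE0)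
        (by linarith) (by linarith) h2
      have hii : i = i' := by
        have h5 : y i (emb t) ≡ -1 - y i' (emb t') [ZMOD E] := by
          refine (Int.mod_modEq _ _).symm.trans ?_
          rw [h3]
          refine Int.modEq_iff_dvd.2 ⟨-1 - y i' (emb t') / E, ?_⟩
          linear_combination Int.emod_add_mul_ediv (y i' (emb t')) E
        have := hL1 _ _ h5
        rw [hL2, hlab, hlab] at this
        exact Option.some.inj this
      subst hii
      have h5 : (R i (emb t) : ℤ) ≡ -1 - R i (emb t') [ZMOD D i] :=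
        (htop _ i b).symm.trans ((h4.of_dvd (hDd i)).trans ((Int.ModEq.refl _).sub (htop _ i b')))
      have g3 := hR1 i (emb t)
      have g4 := hR1 i (emb t')
      have h6 := Int.le_of_dvd (by omega) ((Int.dvd_neg).2 h5.dvd)
      simp only [hD] at h6
      push_cast at h6
      omega

end Crest.Agent.UF
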