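import Crest.Agent.UF.Gauss
import Crest.Agent.UF.Fexist
import Crest.Agent.UF.Pack

set_option autoImplicit false
open Finset

namespace Crest.Agent.UF

/-- the numerators of `c_i α₁ + d_i α₂` -/
lemma design_num {J : ℕ} (c : Fin J → ℕ) (d : Fin J → ℤ) (D : Fin J → ℕ) (hD : ∀ i, Odd (D i))
    (hco : ∀ i j, i ≠ j → Nat.Coprime (D i) (D j))
    (hdet : ∀ i j k, j ≠ k → IsCoprime (D i : ℤ) ((c j : ℤ) * d k - c k * d j)) (i : Fin J) :
    ∃ u : ℤ, IsCoprime ((∏ j ∈ univ.erase i, D j : ℕ) : ℤ) u ∧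
      (c i : ℝ) * (∑ j, -(d j : ℝ) / D j) + d i * (∑ j, (c j : ℝ) / D j) =
        u / (∏ j ∈ univ.erase i, D j : ℕ) := by
  have hD0 : ∀ j, (D j : ℝ) ≠ 0 := fun j => by
    have := (hD j).pos; positivity
  refine ⟨∑ j ∈ univ.erase i, ((c j : ℤ) * d i - c i * d j) *
    ∏ l ∈ (univ.erase i).erase j, (D l : ℤ), ?_, ?_⟩
  · push_cast
    refine IsCoprime.prod_left fun j hj => ?_
    rw [← add_sum_erase _ _ hj]
    have hdiv : (D j : ℤ) ∣ ∑ x ∈ (univ.erase i).erase j, ((c x : ℤ) * d i - c i * d x) *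
        ∏ l ∈ (univ.erase i).erase x, (D l : ℤ) := by
      refine dvd_sum fun x hx => Dvd.dvd.mul_left ?_ _
      refine dvd_prod_of_mem _ ?_
      simp only [mem_erase] at hx hj ⊢
      exact ⟨fun h => hx.1 h.symm, hj⟩
    obtain ⟨m, hm⟩ := hdiv
    rw [hm]
    refine IsCoprime.add_mul_left_right ?_ m
    refine IsCoprime.mul_right (hdet j j i (mem_erase.1 hj).1) ?_
    refine IsCoprime.prod_right fun l hl => ?_
    exact Nat.isCoprime_iff_coprime.2 (hco j l fun h => (mem_erase.1 hl).1 h.symm)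
  · rw [mul_sum, mul_sum, ← sum_add_distrib, ← add_sum_erase _ _ (mem_univ i)]
    have h0 : (c i : ℝ) * (-(d i : ℝ) / D i) + d i * ((c i : ℝ) / D i) = 0 := by ring
    rw [h0, zero_add]
    push_cast
    rw [sum_div]
    refine sum_congr rfl fun j hj => ?_
    rw [← mul_prod_erase _ _ hj]
    have : ∏ l ∈ (univ.erase i).erase j, (D l : ℝ) ≠ 0 := prod_ne_zero_iff.2 fun l _ => hD0 l
    have := hD0 j
    field_simp
    ring

theorem design (ε : ℝ) (hε : 0 < ε) :
    ∃ (Q T A : ℕ) (len : Fin A → ℕ) (st : Fin T → Fin A → ℤ) (γ : Fin A → ℂ),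
      0 < T ∧ 0 < Q ∧ Even Q ∧ (∀ a, 0 < len a) ∧
      (∀ a, ‖γ a‖ ^ 2 = (len a : ℝ) * T / Q) ∧
      (∀ (t : Fin T) (k : ℤ) (H : ℝ),
        |2 * (∑ a, γ a * e (-(k * st t a / Q) + len a * H)).re| ≤ 1 + ε) ∧
      (1 - ε) * Q ≤ 2 * T * ∑ a, (len a : ℝ) ∧
      (∀ (t t' : Fin T) (a a' : Fin A) (o o' : ℕ), o < len a → o' < len a' →
        (st t a + o ≡ st t' a' + o' [ZMOD Q] → t = t' ∧ a = a' ∧ o = o') ∧
        ¬ (st t a + o ≡ -1 - (st t' a' + o') [ZMOD Q])) := by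
  obtain ⟨J, c, d, a, hc, hdet, ha0, hsup, hm1, hm2⟩ := exists_f (ε / 2) (by positivity)
  set η : ℝ := ε / (2 * J + 2) with hη
  have hη0 : 0 < η := by positivity
  have hηJ : 2 * J * η ≤ ε := by
    rw [hη, mul_div_assoc', div_le_iff₀ (by positivity)]; nlinarith
  have hη2 : η ≤ ε / 2 := by
    rw [hη]; apply div_le_div_of_nonneg_left hε.le (by norm_num)
    have : (0:ℝ) ≤ J := by positivity
    linarith
  have hapos : ∀ i, 0 < ‖a i‖ := fun i => norm_pos_iff.2 (ha0 i)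
  obtain ⟨D, B, Q, T, ν, hT, hQ, hQe, hD, hco, hdc, hQB, hw, hdisj⟩ :=
    packing J c d hc hdet (fun i => ‖a i‖ ^ 2) (fun i => by have := hapos i; positivity) hm2 η hη0
  set q : Fin J → ℕ := fun i => ∏ j ∈ univ.erase i, D j with hqdef
  have hqodd : ∀ i, Odd (q i) := fun i =>
    Finset.prod_induction _ Odd (fun _ _ => Odd.mul) odd_one fun j _ => hD j
  have : ∀ i, NeZero (q i) := fun i => ⟨(hqodd i).pos.ne'⟩
  choose u hu hueq using design_num c d D hD hco hdc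
  choose g hg hgexp using fun i => gauss_expand (q i) (hqodd i) (u i) (hu i)
  have hQ0 : (0 : ℝ) < Q := by exact_mod_cast hQ
  have hq0 : ∀ i, (0 : ℝ) < q i := fun i => by exact_mod_cast (hqodd i).pos
  set W : Fin J → ℝ := fun i => (c i : ℝ) * q i * T / Q with hW
  have hW0 : ∀ i, 0 ≤ W i := fun i => by simp only [hW]; positivity
  set a' : Fin J → ℂ := fun i => a i * ((Real.sqrt (W i) / ‖a i‖ : ℝ) : ℂ) with ha'
  have hna' : ∀ i, ‖a' i‖ = Real.sqrt (W i) := fun i => by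
    simp only [ha', norm_mul, Complex.norm_real, Real.norm_eq_abs]
    rw [abs_of_nonneg (by positivity)]
    have := hapos i
    field_simp
  have hale : ∀ i, ‖a i‖ ≤ 1 := fun i => by
    have h1 : ‖a i‖ ^ 2 ≤ ∑ i, ‖a i‖ ^ 2 :=
      single_le_sum (f := fun i => ‖a i‖ ^ 2) (fun _ _ => by positivity) (mem_univ i)
    nlinarith [hapos i]
  have hdiff : ∀ i, ‖a' i - a i‖ ≤ η := fun i => by
    have h1 : a' i - a i = a i * ((Real.sqrt (W i) / ‖a i‖ - 1 : ℝ) : ℂ) := by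
      simp only [ha']; push_cast; ring
    have hp := hapos i
    rw [h1, norm_mul, Complex.norm_real, Real.norm_eq_abs]
    have h2 : ‖a i‖ * |Real.sqrt (W i) / ‖a i‖ - 1| = |Real.sqrt (W i) - ‖a i‖| := by
      rw [← abs_of_pos hp, ← abs_mul, abs_of_pos hp]; congr 1; field_simp
    rw [h2]
    have h3 := hw i
    have h4 : Real.sqrt (W i) ^ 2 = W i := Real.sq_sqrt (hW0 i)
    have h5 : 0 ≤ Real.sqrt (W i) := Real.sqrt_nonneg _
    have h6 : |Real.sqrt (W i) - ‖a i‖| * ‖a i‖ ≤ η * ‖a i‖ ^ 2 := by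
      refine le_trans ?_ h3
      change _ ≤ |W i - ‖a i‖ ^ 2|
      have : W i - ‖a i‖ ^ 2 = (Real.sqrt (W i) - ‖a i‖) * (Real.sqrt (W i) + ‖a i‖) := by
        rw [← h4]; rw [Real.sqrt_sq h5]; ring
      rw [this, abs_mul, abs_of_pos (by positivity : 0 < Real.sqrt (W i) + ‖a i‖)]
      exact mul_le_mul_of_nonneg_left (by linarith) (abs_nonneg _)
    have h7 : |Real.sqrt (W i) - ‖a i‖| ≤ η * ‖a i‖ := by
      have : |Real.sqrt (W i) - ‖a i‖| * ‖a i‖ ≤ (η * ‖a i‖) * ‖a i‖ := by nlinarith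
      exact le_of_mul_le_mul_right this hp
    nlinarith [hale i]
  let I := Σ i : Fin J, ZMod (q i)
  let E : Fin (Fintype.card I) ≃ I := (Fintype.equivFin I).symm
  refine ⟨Q, T, Fintype.card I, fun x => c (E x).1,
    fun t x => (c (E x).1 : ℤ) * (ν t).1 + d (E x).1 * (ν t).2 + B (E x).1 * ((E x).2.val : ℕ),
    fun x => a' (E x).1 * g (E x).1 (E x).2, hT, hQ, hQe, fun x => hc _, fun x => ?_,
    fun t k H => ?_, ?_, fun t t' x x' o o' ho ho' => ?_⟩
  · rw [norm_mul, mul_pow, hna', hg, Real.sq_sqrt (hW0 _)]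
    have := hq0 (E x).1
    simp only [hW]; field_simp
  · rw [Equiv.sum_comp E (fun p : I => a' p.1 * g p.1 p.2 *
      e (-(k * (((c p.1 : ℤ) * (ν t).1 + d p.1 * (ν t).2 + B p.1 * (p.2.val : ℕ) : ℤ) : ℝ) / Q) +
        (c p.1 : ℝ) * H))]
    set x : ℝ := H - k * (ν t).1 / Q + k ^ 2 * (∑ j, -(d j : ℝ) / D j) with hx
    set y : ℝ := -(k * (ν t).2 / Q) + k ^ 2 * (∑ j, (c j : ℝ) / D j) with hy
    have hmain : ∑ p : I, a' p.1 * g p.1 p.2 *
      e (-(k * (((c p.1 : ℤ) * (ν t).1 + d p.1 * (ν t).2 + B p.1 * (p.2.val : ℕ) : ℤ) : ℝ) / Q) +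
        (c p.1 : ℝ) * H) = ∑ i, a' i * e (c i * x + d i * y) := by
      rw [Fintype.sum_sigma]
      refine sum_congr rfl fun i _ => ?_
      have h1 : (c i : ℝ) * x + d i * y = u i * k ^ 2 / q i +
          (-(k * ((c i : ℝ) * (ν t).1 + d i * (ν t).2) / Q) + c i * H) := by
        have := hueq i
        rw [mul_comm (u i : ℝ), mul_div_assoc, ← this, hx, hy]; ring
      rw [h1, e_add, hgexp, sum_mul, mul_sum]
      refine sum_congr rfl fun b _ => ?_
      rw [mul_assoc (g i b), ← e_add, mul_assoc (a' i)]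
      dsimp only
      congr 3
      have h2 : (Q : ℝ) = B i * q i := by exact_mod_cast hQB i
      have h3 : (B i : ℝ) ≠ 0 := by
        intro h; rw [h, zero_mul] at h2; exact hQ0.ne' h2
      have h4 : (k : ℝ) * (b.val : ℝ) / q i = k * (B i * (b.val : ℝ)) / Q := by
        rw [h2]; have := hq0 i; field_simp
      rw [h4]; push_cast; ring
    rw [hmain]
    have h5 : ∑ i, a' i * e (c i * x + d i * y) = ∑ i, a i * e (c i * x + d i * y) +
        ∑ i, (a' i - a i) * e (c i * x + d i * y) := by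
      rw [← sum_add_distrib]; exact sum_congr rfl fun i _ => by ring
    have h6 : ‖∑ i, (a' i - a i) * e (c i * x + d i * y)‖ ≤ J * η := by
      refine (norm_sum_le _ _).trans ?_
      have : ∑ i : Fin J, η = J * η := by simp
      rw [← this]
      exact sum_le_sum fun i _ => by rw [norm_mul, norm_e, mul_one]; exact hdiff i
    have h7 := (Complex.abs_re_le_norm _).trans h6
    have h8 := hsup x y
    rw [h5, Complex.add_re, mul_add]
    refine (abs_add_le _ _).trans ?_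
    rw [abs_mul (2:ℝ) (∑ i, (a' i - a i) * e (c i * x + d i * y)).re, abs_two]
    linarith
  · rw [Equiv.sum_comp E (fun p : I => (c p.1 : ℝ)), Fintype.sum_sigma]
    simp only [sum_const, card_univ, ZMod.card, nsmul_eq_mul]
    have h1 : 2 * T * ∑ i, (q i : ℝ) * c i = (2 * ∑ i, W i) * Q := by
      rw [mul_sum, mul_sum, sum_mul]
      refine sum_congr rfl fun i _ => ?_
      simp only [hW]; field_simp
    rw [h1]
    refine mul_le_mul_of_nonneg_right ?_ hQ0.le
    have h2 : ∑ i, (1 - η) * ‖a i‖ ^ 2 ≤ ∑ i, W i := sum_le_sum fun i _ => by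
      have := (abs_le.1 (hw i)).1
      change _ ≤ W i - _ at this
      linarith
    rw [← mul_sum] at h2
    nlinarith
  · obtain ⟨h1, h2⟩ := hdisj t t' (E x).1 (E x').1 (E x).2.val (E x').2.val o o'
      (ZMod.val_lt _) (ZMod.val_lt _) ho ho'
    refine ⟨fun h => ?_, h2⟩
    obtain ⟨h3, h4, h5, h6⟩ := h1 h
    refine ⟨h3, E.injective ?_, h6⟩
    revert h4 h5
    generalize E x = p
    generalize E x' = p'
    obtain ⟨i, b⟩ := p
    obtain ⟨i', b'⟩ := p'
    intro h4 h5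
    dsimp only at h4 h5
    subst h4
    rw [ZMod.val_injective _ h5]

end Crest.Agent.UF
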