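import Crest.Agent.UF.Arcs
import Crest.Agent.UF.Design

set_option autoImplicit false
open Finset

namespace Crest.Agent.UF

lemma free_bound {ι : Type} [Fintype ι] (idx : ι → ℕ) (hidx : Function.Injective idx)
    (ω l γ τ₀ N k : ℝ) (c : ι → ℝ) (hω : 0 < ω) (hl : 0 < l) (hγ : 0 < γ) (hγ2 : γ ≤ 1 / 2)
    (hN : 0 < N) :
    ‖∑ x, (Real.sqrt N : ℂ) * ((l : ℂ) * (e (c x) * ∫ v in γ..(1 - γ),
      e (N * l * ((τ₀ + idx x * ω + ω / 3) * v + ω / 6 * v ^ 2) - k * l * v)))‖ ≤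
      4 * Real.sqrt (3 * l / ω) + Fintype.card ι * (6 / (Real.sqrt N * ω)) := by
  classical
  have hs : 0 < Real.sqrt N := Real.sqrt_pos.2 hN
  set X : ι → ℂ := fun x => (Real.sqrt N : ℂ) * ((l : ℂ) * (e (c x) * ∫ v in γ..(1 - γ),
      e (N * l * ((τ₀ + idx x * ω + ω / 3) * v + ω / 6 * v ^ 2) - k * l * v))) with hX
  have hn : ∀ x, ‖X x‖ = Real.sqrt N * (l * ‖∫ v in γ..(1 - γ),
      e (N * l * ((τ₀ + idx x * ω + ω / 3) * v + ω / 6 * v ^ 2) - k * l * v)‖) := fun x => by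
    simp only [hX]
    rw [norm_mul, norm_mul, norm_mul, norm_e, one_mul, Complex.norm_real, Complex.norm_real,
      Real.norm_eq_abs, Real.norm_eq_abs, abs_of_nonneg hs.le, abs_of_pos hl]
  have hd1 : ∀ (x : ι) (v : ℝ), HasDerivAt
      (fun v => N * l * ((τ₀ + idx x * ω + ω / 3) * v + ω / 6 * v ^ 2) - k * l * v)
      (N * l * (τ₀ + idx x * ω + ω / 3 + ω / 3 * v - k / N)) v := fun x v => by
    have := (((((hasDerivAt_id v).const_mul (τ₀ + idx x * ω + ω / 3)).add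
      (((hasDerivAt_id v).pow 2).const_mul (ω / 6))).const_mul (N * l)).sub
      ((hasDerivAt_id v).const_mul (k * l)))
    refine this.congr_deriv ?_
    simp; field_simp; ring
  have hd2 : ∀ (x : ι) (v : ℝ), HasDerivAt
      (fun v => N * l * (τ₀ + idx x * ω + ω / 3 + ω / 3 * v - k / N)) (N * l * (ω / 3)) v :=
    fun x v => by
      have := ((((hasDerivAt_id v).const_mul (ω / 3)).const_add (τ₀ + idx x * ω + ω / 3)).sub_const
        (k / N)).const_mul (N * l)
      exact this.congr_deriv (by simp)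
  have hnear : ∀ x, ‖X x‖ ≤ 4 * Real.sqrt (3 * l / ω) := by
    intro x
    have h := second_deriv_test _ _ (fun _ => N * l * (ω / 3)) γ (1 - γ) (N * l * (ω / 3))
      (by linarith) (by positivity) (fun v _ => hd1 x v) (fun v _ => hd2 x v) continuousOn_const
      (Or.inl fun _ _ => le_rfl)
    rw [hn]
    refine (mul_le_mul_of_nonneg_left (mul_le_mul_of_nonneg_left h hl.le) hs.le).trans (le_of_eq ?_)
    have h1 : 0 < Real.sqrt (N * l * (ω / 3)) := Real.sqrt_pos.2 (by positivity)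
    have h2 : Real.sqrt (3 * l / ω) * Real.sqrt (N * l * (ω / 3)) = Real.sqrt N * l := by
      rw [← Real.sqrt_mul (by positivity)]
      have : 3 * l / ω * (N * l * (ω / 3)) = N * l ^ 2 := by field_simp
      rw [this, Real.sqrt_mul hN.le, Real.sqrt_sq hl.le]
    rw [mul_div_assoc', mul_div_assoc', div_eq_iff h1.ne', mul_assoc, h2]; ring
  have hfar : ∀ x, (∀ v ∈ Set.Icc (0 : ℝ) 1, ω / 6 ≤ |τ₀ + idx x * ω + ω / 3 + ω / 3 * v - k / N|) →
      ‖X x‖ ≤ 6 / (Real.sqrt N * ω) := by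
    intro x hx
    have h := first_deriv_test _ _ (fun _ => N * l * (ω / 3)) γ (1 - γ) (N * l * (ω / 6))
      (by linarith) (by positivity) (fun v _ => hd1 x v) (fun v _ => hd2 x v) continuousOn_const
      (Or.inl fun _ _ => by positivity) (fun v hv => by
        rw [abs_mul, abs_of_pos (by positivity : 0 < N * l)]
        exact mul_le_mul_of_nonneg_left (hx v ⟨by linarith [hv.1], by linarith [hv.2]⟩)
          (by positivity))
    rw [hn]
    refine (mul_le_mul_of_nonneg_left (mul_le_mul_of_nonneg_left h hl.le) hs.le).trans (le_of_eq ?_)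
    field_simp
    rw [Real.sq_sqrt hN.le]
  refine (norm_sum_le _ _).trans ?_
  have hP : 0 ≤ 4 * Real.sqrt (3 * l / ω) := by positivity
  have hP' : 0 ≤ 6 / (Real.sqrt N * ω) := by positivity
  by_cases hex : ∃ x, ∃ v ∈ Set.Icc (0 : ℝ) 1, |τ₀ + idx x * ω + ω / 3 + ω / 3 * v - k / N| < ω / 6
  · obtain ⟨x₀, v₀, hv₀, h₀⟩ := hex
    have : ∀ x ∈ (univ : Finset ι), ‖X x‖ ≤
        (if x = x₀ then 4 * Real.sqrt (3 * l / ω) else 0) + 6 / (Real.sqrt N * ω) := by
      intro x _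
      split_ifs with hx
      · have := hnear x; linarith
      · rw [zero_add]
        apply hfar
        intro v hv
        by_contra hc
        push Not at hc
        apply hx; apply hidx
        rw [abs_lt] at hc h₀
        have h3 : ((idx x : ℕ) : ℝ) < idx x₀ + 1 := by nlinarith [hv.1, hv.2, hv₀.1, hv₀.2]
        have h4 : ((idx x₀ : ℕ) : ℝ) < idx x + 1 := by nlinarith [hv.1, hv.2, hv₀.1, hv₀.2]
        have h5 : idx x < idx x₀ + 1 := by exact_mod_cast h3
        have h6 : idx x₀ < idx x + 1 := by exact_mod_cast h4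
        omega
    refine (sum_le_sum this).trans (le_of_eq ?_)
    rw [sum_add_distrib, sum_ite_eq']
    simp
  · push Not at hex
    refine (sum_le_sum fun x _ => hfar x (hex x)).trans ?_
    rw [sum_const, card_univ, nsmul_eq_mul]
    linarith

/-- Cells occupied by the arcs. -/
lemma arc_cells (Q' T A : ℕ) (hQ' : 0 < Q') (len : Fin A → ℕ) (st : Fin T → Fin A → ℤ)
    (hdis : ∀ (t t' : Fin T) (a a' : Fin A) (o o' : ℕ), o < len a → o' < len a' →
        (st t a + o ≡ st t' a' + o' [ZMOD (2 * Q' : ℕ)] → t = t' ∧ a = a' ∧ o = o') ∧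
        ¬ (st t a + o ≡ -1 - (st t' a' + o') [ZMOD (2 * Q' : ℕ)])) :
    ∃ lo : Fin T × Fin A → ℕ, (∀ i, lo i + len i.2 ≤ Q') ∧
      (∀ i j, i ≠ j → Disjoint (Ico (lo i) (lo i + len i.2)) (Ico (lo j) (lo j + len j.2))) ∧
      ∀ i, (∃ n : ℤ, (lo i : ℤ) = st i.1 i.2 + n * (2 * Q')) ∨
        (∃ n : ℤ, (lo i : ℤ) + len i.2 = -st i.1 i.2 + n * (2 * Q')) := by
  have hQ : (0 : ℤ) < 2 * Q' := by positivity
  have hs : ∀ i : Fin T × Fin A, ∃ s : ℕ, ∃ n : ℤ, (s : ℤ) = st i.1 i.2 + n * (2 * Q') ∧ s < 2 * Q' := by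
    intro i
    refine ⟨(st i.1 i.2 % (2 * Q')).toNat, -(st i.1 i.2 / (2 * Q')), ?_, ?_⟩
    · rw [Int.toNat_of_nonneg (Int.emod_nonneg _ hQ.ne'), Int.emod_def]; ring
    · have := Int.emod_lt_of_pos (st i.1 i.2) hQ
      have := Int.emod_nonneg (st i.1 i.2) hQ.ne'
      omega
  choose s n hs1 hs2 using hs
  have h1 : ∀ i, s i < Q' → s i + len i.2 ≤ Q' := by
    intro i hi
    by_contra hc
    apply (hdis i.1 i.1 i.2 i.2 (Q' - 1 - s i) (Q' - s i) (by omega) (by omega)).2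
    rw [Int.modEq_iff_dvd]
    refine ⟨2 * n i - 1, ?_⟩
    have := hs1 i
    rw [Nat.cast_sub (by omega), Nat.cast_sub (by omega), Nat.cast_sub (by omega)]
    push_cast
    linarith
  have h2 : ∀ i, s i + len i.2 ≤ 2 * Q' := by
    intro i
    by_contra hc
    have := hs2 i
    apply (hdis i.1 i.1 i.2 i.2 (2 * Q' - 1 - s i) (2 * Q' - s i) (by omega) (by omega)).2
    rw [Int.modEq_iff_dvd]
    refine ⟨2 * n i - 2, ?_⟩
    have := hs1 i
    rw [Nat.cast_sub (by omega), Nat.cast_sub (by omega), Nat.cast_sub (by omega)]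
    push_cast
    linarith
  set lo : Fin T × Fin A → ℕ := fun i => if s i < Q' then s i else 2 * Q' - s i - len i.2 with hlo
  have hmem : ∀ i, ∀ x ∈ Ico (lo i) (lo i + len i.2), ∃ o < len i.2,
      st i.1 i.2 + o ≡ x [ZMOD (2 * Q' : ℕ)] ∨ st i.1 i.2 + o ≡ -1 - x [ZMOD (2 * Q' : ℕ)] := by
    intro i x hx
    rw [mem_Ico] at hx
    have e1 := hs1 i
    have e2 := h2 i
    by_cases hi : s i < Q'
    · simp only [hlo, if_pos hi] at hx
      refine ⟨x - s i, by omega, Or.inl ?_⟩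
      rw [Int.modEq_iff_dvd]
      refine ⟨n i, ?_⟩
      rw [Nat.cast_sub hx.1]; push_cast; linarith
    · simp only [hlo, if_neg hi] at hx
      refine ⟨2 * Q' - 1 - s i - x, by omega, Or.inr ?_⟩
      rw [Int.modEq_iff_dvd]
      refine ⟨n i - 1, ?_⟩
      rw [Nat.cast_sub (by omega), Nat.cast_sub (by omega), Nat.cast_sub (by omega)]
      push_cast; linarith
  refine ⟨lo, fun i => ?_, fun i j hij => ?_, fun i => ?_⟩
  · by_cases hi : s i < Q'
    · simp only [hlo, if_pos hi]; exact h1 i hi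
    · simp only [hlo, if_neg hi]; have := h2 i; omega
  · rw [disjoint_left]
    intro x hx hx'
    obtain ⟨o, ho, h⟩ := hmem i x hx
    obtain ⟨o', ho', h'⟩ := hmem j x hx'
    have hd := hdis i.1 j.1 i.2 j.2 o o' ho ho'
    have hne : ¬ (i.1 = j.1 ∧ i.2 = j.2 ∧ o = o') := fun h => hij (Prod.ext h.1 h.2.1)
    rcases h with h | h <;> rcases h' with h' | h'
    · exact hne (hd.1 (h.trans h'.symm))
    · apply hd.2
      have := (Int.ModEq.refl (-1)).sub h'
      refine h.trans (Int.ModEq.symm ?_)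
      simpa using this
    · apply hd.2
      exact h.trans ((Int.ModEq.refl (-1)).sub h').symm
    · exact hne (hd.1 (h.trans h'.symm))
  · by_cases hi : s i < Q'
    · exact Or.inl ⟨n i, by simp only [hlo, if_pos hi]; exact hs1 i⟩
    · refine Or.inr ⟨1 - n i, ?_⟩
      simp only [hlo, if_neg hi]
      have := h2 i
      have := hs1 i
      rw [Nat.cast_sub (by omega), Nat.cast_sub (by omega)]
      push_cast; linarith

lemma re_mirror (l : ℝ) (x : ℝ) (f : ℝ → ℝ) (a b : ℝ) :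
    ((l : ℂ) * (e (-x) * ∫ v in a..b, e (-f v))).re = ((l : ℂ) * (e x * ∫ v in a..b, e (f v))).re := by
  have h : (∫ v in a..b, e (-f v)) = (starRingEnd ℂ) (∫ v in a..b, e (f v)) := by
    simp only [intervalIntegral, e_neg, integral_conj, map_sub]
  rw [h, e_neg, ← map_mul, Complex.re_ofReal_mul, Complex.re_ofReal_mul, Complex.conj_re]

lemma num1 {η T m : ℝ} (hη : 0 < η) (hη1 : η ≤ 1 / 8) (h6 : T * m = (1 - 2 * η) / (1 + η)) :
    (1 + η) / Real.sqrt (T * m) ≤ (1 + η) * (1 + 2 * η) := by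
  have h7 : 1 / (1 + 2 * η) ≤ Real.sqrt (T * m) := by
    apply Real.le_sqrt_of_sq_le
    rw [h6, div_pow, div_le_div_iff₀ (by positivity) (by positivity)]
    nlinarith [mul_pos hη hη, mul_pos hη (mul_pos hη hη)]
  rw [div_le_iff₀ (lt_of_lt_of_le (by positivity) h7), mul_assoc]
  apply le_mul_of_one_le_right (by linarith)
  rwa [div_le_iff₀' (by positivity)] at h7

lemma num2 {x u c : ℝ} (hx : 0 ≤ x) (hu : 0 < u) (hc : 0 < c) : c * x * (u / (c * (x + 1))) ≤ u := by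
  rw [mul_div_assoc', div_le_iff₀ (by positivity)]; nlinarith [mul_pos hc hu]

lemma num3 {N N' η : ℝ} (hη : 0 < η) (hN'0 : 0 < N') (h1 : N - 2 / η ≤ N') (h2 : 4 / η ^ 2 ≤ N') :
    Real.sqrt N ≤ (1 + η) * Real.sqrt N' := by
  rw [← Real.sqrt_sq (by linarith : 0 ≤ 1 + η), ← Real.sqrt_mul (by positivity)]
  apply Real.sqrt_le_sqrt
  have h1 : 2 / η ≤ η * N' := by
    have h4 : η * (4 / η ^ 2) = 2 * (2 / η) := by field_simp; ring
    have h3 : η * (4 / η ^ 2) ≤ η * N' := mul_le_mul_of_nonneg_left h2 hη.le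
    have : 0 < 2 / η := by positivity
    linarith
  nlinarith [mul_pos hη hN'0]

lemma num4 {η t T ω x : ℝ} (h1 : 0 ≤ x ∧ x ≤ ω) (h2 : t + 1 ≤ T) (h3 : T * ω = 1 - 2 * η)
    (ht : 0 ≤ t) : 2 * (η / 2) ≤ (η + t * ω) + x ∧ (η + t * ω) + x ≤ 1 - 2 * (η / 2) := by
  have := h1.1.trans h1.2
  constructor <;> nlinarith [h1.1, h1.2]

set_option maxHeartbeats 2000000 in
theorem exists_chirp_aux (η u : ℝ) (hη : 0 < η) (hη1 : η ≤ 1 / 8) (hu : 0 < u) :
    ∃ C : ℝ, 0 < C ∧ ∃ N₀ : ℕ, ∀ N : ℕ, N₀ ≤ N → ∃ ψ : ℝ → ℝ, IsChirp (η / 4) C N ψ ∧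
      ∀ k : ℕ, Real.sqrt N * |2 * (∫ y in (0 : ℝ)..(1 / 2), e (ψ y - k * y)).re| ≤
        (1 + η) * ((1 + η) * (1 + 2 * η) + 8 * Real.sqrt (2 * η) + 4 * u) := by
  classical
  obtain ⟨Q, T, A, len, st, Γ, hT, hQ, ⟨Q', hQ'⟩, hlen, hΓ, hf, hcov, hdis⟩ := design η hη
  have hQ2 : Q = 2 * Q' := by omega
  subst hQ2
  have hQ'0 : 0 < Q' := by omega
  have hQ'R : (0 : ℝ) < Q' := by exact_mod_cast hQ'0
  have hTR : (0 : ℝ) < T := by exact_mod_cast hT
  obtain ⟨lo, hlo1, hlo2, hlo3⟩ := arc_cells Q' T A hQ'0 len st hdis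
  set U : Finset ℕ := univ.biUnion fun i : Fin T × Fin A => Ico (lo i) (lo i + len i.2) with hU
  set Free : Finset ℕ := range Q' \ U with hFree
  have hUsub : U ⊆ range Q' := by
    intro x hx
    simp only [hU, mem_biUnion, mem_Ico] at hx
    obtain ⟨i, _, hi⟩ := hx
    have := hlo1 i
    rw [mem_range]; omega
  have hUcard : (U.card : ℝ) = T * ∑ a, (len a : ℝ) := by
    rw [hU, card_biUnion (fun i _ j _ hij => hlo2 i j hij)]
    simp only [Nat.card_Ico, Nat.add_sub_cancel_left]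
    rw [Fintype.sum_prod_type]
    simp
  have hFcard : (Free.card : ℝ) ≤ η * Q' := by
    have h1 : Free.card + U.card = Q' := by
      rw [hFree, card_sdiff_add_card_eq_card hUsub, card_range]
    have h2 : (Free.card : ℝ) + U.card = Q' := by exact_mod_cast h1
    push_cast at hcov
    linarith
  -- constants
  set ω : ℝ := (1 - 2 * η) / T with hω
  have hω0 : 0 < ω := div_pos (by linarith) hTR
  set m : ℝ := ω / (1 + η) with hm
  have hm0 : 0 < m := by positivity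
  set Λ : ℝ := (16 * (T * A + 1) / u) ^ 2 / m with hΛ
  have hΛ0 : 0 < Λ := by positivity
  obtain ⟨g, r, r₁, δ, hδ0, hδ1, hg, hr, hr₁, hr0, hr1, hlow, hend⟩ := exists_taper m Λ η hm0 hΛ0 hη
  have hr1' : r 1 ≤ ω := by
    refine hr1.trans (le_of_eq ?_); rw [hm]; field_simp
  set ωf : ℝ := (1 - 2 * η) / (η * Q') with hωf
  have hωf0 : 0 < ωf := div_pos (by linarith) (by positivity)
  let ι := (Fin T × Fin A) ⊕ {x // x ∈ Free}
  set n : ℝ := (Fintype.card ι : ℝ) with hn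
  have hn0 : 0 ≤ n := Nat.cast_nonneg _
  set γ : ℝ := min (δ / 3) (η / 2 * (u / (16 * (n + 1))) ^ 2) with hγ
  have hγ0 : 0 < γ := lt_min (by positivity) (by positivity)
  have hγδ : 3 * γ ≤ δ := by have := min_le_left (δ / 3) (η / 2 * (u / (16 * (n + 1))) ^ 2); linarith
  have hγ2 : γ ≤ 1 / 2 := by linarith
  set idx : {x // x ∈ Free} → ℕ := fun x => (Free.equivFin x : ℕ) with hidx
  have hidxinj : Function.Injective idx := fun x y h => Free.equivFin.injective (Fin.ext h)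
  have hidxlt : ∀ x, (idx x : ℝ) + 1 ≤ η * Q' := fun x => by
    have h1 : idx x + 1 ≤ Free.card := (Free.equivFin x).2
    have h2 : (idx x : ℝ) + 1 ≤ Free.card := by exact_mod_cast h1
    linarith
  let dir : Fin T × Fin A → Prop := fun i => ∃ n : ℤ, (lo i : ℤ) = st i.1 i.2 + n * (2 * Q')
  let lo' : ι → ℕ := Sum.elim lo (fun x => x.1)
  let ln' : ι → ℕ := Sum.elim (fun i => len i.2) (fun _ => 1)
  let y₀ : ι → ℝ := Sum.elim (fun i => if dir i then (lo i : ℝ) / (2 * Q') else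
    ((lo i : ℝ) + len i.2) / (2 * Q')) (fun x => (x.1 : ℝ) / (2 * Q'))
  let l : ι → ℝ := Sum.elim (fun i => if dir i then (len i.2 : ℝ) / (2 * Q') else
    -((len i.2 : ℝ) / (2 * Q'))) (fun _ => ((1 : ℕ) : ℝ) / (2 * Q'))
  let G : ι → ℝ → ℝ := Sum.elim (fun i v => (η + (i.1 : ℕ) * ω) * v + g v)
    (fun x v => (η + idx x * ωf + ωf / 3) * v + ωf / 6 * v ^ 2)
  let R : ι → ℝ → ℝ := Sum.elim (fun i v => (η + (i.1 : ℕ) * ω) + r v)
    (fun x v => (η + idx x * ωf + ωf / 3) + ωf / 3 * v)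
  let R₁ : ι → ℝ → ℝ := Sum.elim (fun _ => r₁) (fun _ _ => ωf / 3)
  obtain ⟨habs, hl0, hl1, hdisj, hends, htile⟩ := tile_of_cells (ι := ι) Q' hQ'0 lo' ln'
    (by rintro (i | x); exacts [hlen i.2, Nat.one_pos])
    (by
      rintro (i | x)
      · exact hlo1 i
      · have := (mem_sdiff.1 x.2).1
        exact mem_range.1 this)
    (by
      have hfu : ∀ (i : Fin T × Fin A) (x : {x // x ∈ Free}),
          Disjoint (Ico (lo i) (lo i + len i.2)) (Ico x.1 (x.1 + 1)) := by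
        intro i x
        rw [Nat.Ico_succ_singleton, disjoint_singleton_right]
        intro h
        exact (mem_sdiff.1 x.2).2 (mem_biUnion.2 ⟨i, mem_univ _, h⟩)
      rintro (i | x) (j | y) hij
      · exact hlo2 i j (fun h => hij (by rw [h]))
      · exact hfu i y
      · exact (hfu j x).symm
      · show Disjoint (Ico x.1 (x.1 + 1)) (Ico y.1 (y.1 + 1))
        rw [Nat.Ico_succ_singleton, Nat.Ico_succ_singleton, disjoint_singleton]
        exact fun h => hij (by rw [Subtype.ext h]))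
    (by
      intro x hx
      by_cases h : x ∈ U
      · obtain ⟨i, _, hi⟩ := mem_biUnion.1 h
        exact ⟨Sum.inl i, hi⟩
      · exact ⟨Sum.inr ⟨x, mem_sdiff.2 ⟨mem_range.2 hx, h⟩⟩, by
          show x ∈ Ico x (x + 1); simp⟩)
    y₀ l
    (by
      rintro (i | x)
      · by_cases h : dir i
        · left; simp [y₀, l, lo', ln', h]
        · right; simp [y₀, l, lo', ln', h]
      · left; simp [y₀, l, lo', ln'])
  have hrmono : ∀ v ∈ Set.Icc (0 : ℝ) 1, 0 ≤ r v ∧ r v ≤ ω := fun v hv => by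
    have h1 := slope_le r r₁ m hr hlow (x := 0) (y := v) hv.1
    have h2 := slope_le r r₁ m hr hlow (x := v) (y := 1) hv.2
    have h3 := mul_nonneg hm0.le (sub_nonneg.2 hv.1)
    have h4 := mul_nonneg hm0.le (sub_nonneg.2 hv.2)
    constructor <;> linarith
  obtain ⟨C, hC, hmain⟩ := blocks_chirp y₀ l R R₁ G γ (η / 2) hγ0 hγ2 (by positivity) (by linarith)
    hl0 hl1
    (by
      rintro (i | x) v
      · have := ((hasDerivAt_id v).const_mul (η + (i.1 : ℕ) * ω)).add (hg v)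
        exact this.congr_deriv (by simp [R])
      · have := ((hasDerivAt_id v).const_mul (η + idx x * ωf + ωf / 3)).add
          (((hasDerivAt_id v).pow 2).const_mul (ωf / 6))
        exact this.congr_deriv (by simp [R]; ring))
    (by
      rintro (i | x) v
      · exact (hr v).const_add _
      · have := ((hasDerivAt_id v).const_mul (ωf / 3)).const_add (η + idx x * ωf + ωf / 3)
        exact this.congr_deriv (by simp [R₁]))
    (by rintro (i | x); exacts [hr₁, continuous_const])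
    (by
      rintro (i | x) v hv
      · have h1 := hrmono v hv
        have h2 : ((i.1 : ℕ) : ℝ) + 1 ≤ T := by exact_mod_cast i.1.2
        have h3 : T * ω = 1 - 2 * η := by rw [hω]; field_simp
        exact num4 h1 h2 h3 (Nat.cast_nonneg _)
      · have h2 := hidxlt x
        have h3 : η * Q' * ωf = 1 - 2 * η := by rw [hωf]; field_simp
        have h4 := mul_nonneg hωf0.le hv.1
        have h5 := mul_le_mul_of_nonneg_left hv.2 hωf0.le
        have := num4 (x := ωf / 3 + ωf / 3 * v) (ω := ωf) ⟨by linarith, by linarith⟩ h2 h3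
          (Nat.cast_nonneg _)
        rw [← add_assoc] at this
        exact this)
    hdisj hends htile
  obtain ⟨N₁, hN₁, harc⟩ := arcs_bound (2 * Q') T A len st Γ η hT hQ hlen
    (fun a => by have := hlo1 (⟨0, hT⟩, a); simp only at this; omega) hΓ hf g r r₁ m Λ δ γ ω u hm0 hΛ0
    hγ0 hγδ hδ1 hu hg hr hr₁ hlow hend hr0 hr1' η
  set B : ℝ := 12 * (n + 1) / (u * ωf) with hB
  obtain ⟨N₀, hN₀⟩ := exists_nat_ge (N₁ + B ^ 2 + 6 / η + 4 / η ^ 2)
  refine ⟨C, hC, N₀, fun N hN => ?_⟩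
  have hNR : N₁ + B ^ 2 + 6 / η + 4 / η ^ 2 ≤ N := hN₀.trans (by exact_mod_cast hN)
  have hp1 : 0 < 6 / η := by positivity
  have hp2 : 0 < 4 / η ^ 2 := by positivity
  have hB2 : 0 ≤ B ^ 2 := by positivity
  obtain ⟨N', hN'1, hN'2, hψ⟩ := hmain N (by
    have : 3 / (η / 2) = 6 / η := by field_simp; ring
    rw [this]; linarith)
  have e2 : 1 / (η / 2) = 2 / η := by field_simp
  have e3 : 6 / η = 3 * (2 / η) := by ring
  rw [e2] at hN'1
  have hN'3 : N₁ + B ^ 2 + 4 / η ^ 2 ≤ N' := by linarith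
  have hN'0 : 0 < N' := by linarith
  let c : ι → ℝ := Sum.elim (fun i => if dir i then Complex.arg (Γ i.2) / (2 * Real.pi) - 1 / 8 else
    -(Complex.arg (Γ i.2) / (2 * Real.pi) - 1 / 8)) (fun _ => 0)
  obtain ⟨ψ, hch, hint⟩ := hψ c
  refine ⟨ψ, by convert hch using 1; ring, fun k => ?_⟩
  have hsN' : 0 < Real.sqrt N' := Real.sqrt_pos.2 hN'0
  have hsq : Real.sqrt N ≤ (1 + η) * Real.sqrt N' := num3 hη hN'0 hN'1 (by linarith)
  refine (mul_le_mul_of_nonneg_right hsq (abs_nonneg _)).trans ?_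
  rw [mul_assoc]
  apply mul_le_mul_of_nonneg_left _ (by linarith)
  set I : ℂ := ∫ y in (0 : ℝ)..(1 / 2), e (ψ y - k * y) with hI
  set Y : ι → ℂ := fun i => ((|l i| : ℝ) : ℂ) * (e (c i - k * y₀ i) *
          ∫ v in γ..(1 - γ), e (N' * l i * G i v - k * l i * v)) with hY
  have h1 : ‖I - ∑ i, Y i‖ ≤ n * (8 * Real.sqrt (γ / (η / 2 * N'))) := hint k
  have h2 : Real.sqrt N' * |2 * (I - ∑ i, Y i).re| ≤ u := by
    refine (mul_le_mul_of_nonneg_left ((two_re_le _).trans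
      (mul_le_mul_of_nonneg_left h1 zero_le_two)) hsN'.le).trans ?_
    have h3 : Real.sqrt N' * Real.sqrt (γ / (η / 2 * N')) ≤ u / (16 * (n + 1)) := by
      rw [← Real.sqrt_mul hN'0.le]
      apply Real.sqrt_le_iff.2 ⟨by positivity, ?_⟩
      have h4 : N' * (γ / (η / 2 * N')) = γ / (η / 2) := by field_simp
      rw [h4, div_le_iff₀' (by positivity)]
      exact min_le_right _ _
    have h4 : 16 * n * (u / (16 * (n + 1))) ≤ u := num2 hn0 hu (by norm_num)
    have h5 := mul_le_mul_of_nonneg_left h3 hn0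
    linarith
  have h3 := harc N' (by linarith) k
  have h4 := free_bound idx hidxinj ωf (((1 : ℕ) : ℝ) / (2 * Q')) γ η N' k
    (fun x => 0 - k * ((x.1 : ℝ) / (2 * Q'))) hωf0 (by positivity) hγ0 hγ2 hN'0
  have hsum : Real.sqrt N' * (∑ i, Y i).re =
      (∑ t : Fin T, ∑ a : Fin A, (Real.sqrt N' : ℂ) * ((((len a : ℝ) / (2 * Q' : ℕ) : ℝ) : ℂ) *
        (e (Complex.arg (Γ a) / (2 * Real.pi) - 1 / 8 - (k : ℤ) * st t a / (2 * Q' : ℕ)) *
          ∫ v in γ..(1 - γ), e (N' * ((len a : ℝ) / (2 * Q' : ℕ)) *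
            (g v - ((k : ℤ) / N' - (η + (t : ℕ) * ω)) * v))))).re +
      (∑ x : {x // x ∈ Free}, (Real.sqrt N' : ℂ) * (((((1 : ℕ) : ℝ) / (2 * Q') : ℝ) : ℂ) *
        (e (0 - k * ((x.1 : ℝ) / (2 * Q'))) * ∫ v in γ..(1 - γ),
      e (N' * (((1 : ℕ) : ℝ) / (2 * Q')) * ((η + idx x * ωf + ωf / 3) * v + ωf / 6 * v ^ 2) -
        k * (((1 : ℕ) : ℝ) / (2 * Q')) * v)))).re := by
    rw [Fintype.sum_sum_type, Complex.add_re, mul_add, ← Fintype.sum_prod_type', Complex.re_sum,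
      Complex.re_sum, Complex.re_sum, Complex.re_sum, mul_sum, mul_sum]
    congr 1
    · refine sum_congr rfl fun i _ => ?_
      refine (congrArg _ ?_).trans (Complex.re_ofReal_mul _ _).symm
      have hph : ∀ v, N' * ((len i.2 : ℝ) / (2 * Q' : ℕ)) *
            (g v - ((k : ℤ) / N' - (η + (i.1 : ℕ) * ω)) * v) =
          N' * ((len i.2 : ℝ) / (2 * Q')) * ((η + (i.1 : ℕ) * ω) * v + g v) -
            k * ((len i.2 : ℝ) / (2 * Q')) * v := fun v => by
        push_cast; field_simp; ring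
      simp only [hph, hY]
      rw [habs]
      by_cases h : dir i
      · obtain ⟨z, hz⟩ := id h
        have hz' : (lo i : ℝ) = st i.1 i.2 + z * (2 * Q') := by exact_mod_cast hz
        have he : e (c (Sum.inl i) - k * y₀ (Sum.inl i)) =
            e (Complex.arg (Γ i.2) / (2 * Real.pi) - 1 / 8 - (k : ℤ) * st i.1 i.2 / (2 * Q' : ℕ)) := by
          rw [← e_add_int _ (k * z)]
          congr 1
          simp only [c, y₀, Sum.elim_inl, if_pos h, hz']
          push_cast; field_simp; ring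
        rw [he]
        simp only [l, G, ln', Sum.elim_inl, if_pos h]
        push_cast; rfl
      · obtain ⟨z, hz⟩ := (hlo3 i).resolve_left h
        have hz' : (lo i : ℝ) + len i.2 = -st i.1 i.2 + z * (2 * Q') := by exact_mod_cast hz
        have he : e (c (Sum.inl i) - k * y₀ (Sum.inl i)) =
            e (-(Complex.arg (Γ i.2) / (2 * Real.pi) - 1 / 8 - (k : ℤ) * st i.1 i.2 / (2 * Q' : ℕ))) := by
          rw [← e_add_int _ (k * z)]
          congr 1
          simp only [c, y₀, Sum.elim_inl, if_neg h, hz']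
          push_cast; field_simp; ring
        rw [he]
        refine Eq.trans ?_ (re_mirror _ _ _ _ _)
        simp only [l, G, ln', Sum.elim_inl, if_neg h]
        have hph2 : ∀ v, N' * -((len i.2 : ℝ) / (2 * Q')) * ((η + (i.1 : ℕ) * ω) * v + g v) -
            k * -((len i.2 : ℝ) / (2 * Q')) * v = -(N' * ((len i.2 : ℝ) / (2 * Q')) *
              ((η + (i.1 : ℕ) * ω) * v + g v) - k * ((len i.2 : ℝ) / (2 * Q')) * v) := fun v => by
          ring
        simp only [hph2]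
        push_cast; rfl
    · refine sum_congr rfl fun x _ => ?_
      refine (congrArg _ ?_).trans (Complex.re_ofReal_mul _ _).symm
      simp only [hY]
      rw [habs]
      rfl
  have h5 := (two_re_le _).trans (mul_le_mul_of_nonneg_left h4 zero_le_two)
  have e4 : Real.sqrt N' * |2 * I.re| =
      |Real.sqrt N' * (2 * (I - ∑ i, Y i).re) + 2 * (Real.sqrt N' * (∑ i, Y i).re)| := by
    rw [← abs_of_pos hsN', ← abs_mul, abs_of_pos hsN', Complex.sub_re]; congr 1; ring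
  rw [e4, hsum, mul_add]
  refine (abs_add_le _ _).trans ((add_le_add_right (abs_add_le _ _) _).trans ?_)
  rw [abs_mul, abs_of_pos hsN']
  -- numerical estimates
  have n1 : (1 + η) / Real.sqrt (T * m) ≤ (1 + η) * (1 + 2 * η) := by
    have h6 : T * m = (1 - 2 * η) / (1 + η) := by rw [hm, hω]; field_simp
    exact num1 hη hη1 h6
  have n2 : (T : ℝ) * A * (16 / Real.sqrt (m * Λ)) ≤ u := by
    have h6 : Real.sqrt (m * Λ) = 16 * (T * A + 1) / u := by
      rw [hΛ, mul_div_cancel₀ _ hm0.ne', Real.sqrt_sq (by positivity)]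
    have h7 := num2 (x := (T : ℝ) * A) (c := 16) (by positivity) hu (by norm_num)
    rw [h6]
    refine le_trans (le_of_eq ?_) h7
    field_simp
  have n3 : Real.sqrt (3 * (((1 : ℕ) : ℝ) / (2 * Q')) / ωf) ≤ Real.sqrt (2 * η) := by
    apply Real.sqrt_le_sqrt
    rw [div_le_iff₀ hωf0, hωf]
    have : 2 * η * ((1 - 2 * η) / (η * Q')) = 4 * (1 - 2 * η) * (((1 : ℕ) : ℝ) / (2 * Q')) := by
      push_cast; field_simp; ring
    rw [this]
    apply mul_le_mul_of_nonneg_right (by linarith) (by positivity)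
  have n4 : 2 * ((Fintype.card {x // x ∈ Free} : ℝ) * (6 / (Real.sqrt N' * ωf))) ≤ u := by
    have h6 : (Fintype.card {x // x ∈ Free} : ℝ) ≤ n := by
      rw [hn]; exact_mod_cast Fintype.card_le_of_injective (Sum.inr : _ → ι) Sum.inr_injective
    have h7 : B ≤ Real.sqrt N' := Real.le_sqrt_of_sq_le (by linarith)
    have hB0 : 0 < B := by positivity
    have h8 : 6 / (Real.sqrt N' * ωf) ≤ 6 / (B * ωf) := by gcongr
    have h9 : 6 / (B * ωf) = u / (2 * (n + 1)) := by rw [hB]; field_simp; ring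
    have h10 : 2 * (n * (u / (2 * (n + 1)))) ≤ u := by
      rw [← mul_assoc]; exact num2 hn0 hu two_pos
    refine le_trans ?_ h10
    rw [← h9]
    gcongr
  linarith

/-- (B) the chirp -/
theorem exists_chirp (ε : ℝ) (hε : 0 < ε) :
    ∃ η C : ℝ, 0 < η ∧ 0 < C ∧ ∃ N₀ : ℕ, ∀ N : ℕ, N₀ ≤ N → ∃ ψ : ℝ → ℝ,
      ContinuousOn ψ (Set.Icc 0 (1 / 2)) ∧ ψ 0 = 0 ∧ (∃ n : ℤ, 2 * ψ (1 / 2) = n) ∧
      (∀ θ ∈ Set.Icc (0 : ℝ) (1 / 2), ∃ n : ℤ, η * N ≤ n ∧ (n : ℝ) ≤ (1 - η) * N ∧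
        ∀ y ∈ Set.Icc (0 : ℝ) (1 / 2), ∀ y' ∈ Set.Icc (0 : ℝ) (1 / 2),
          |ψ y - ψ y' - n * (y - y')| ≤ C * (N * max |y - θ| |y' - θ| + 1) * |y - y'|) ∧
      ∀ k : ℕ, Real.sqrt N * |2 * (∫ y in (0 : ℝ)..(1 / 2), e (ψ y - k * y)).re| ≤ 1 + ε := by
  set u : ℝ := min ε 1 / 100 with hu
  have hu0 : 0 < u := by have := lt_min hε one_pos; positivity
  have hu1 : u ≤ 1 / 100 := by have := min_le_right ε 1; linarith
  have hu2 : 100 * u ≤ ε := by have := min_le_left ε 1; linarith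
  obtain ⟨C, hC, N₀, h⟩ := exists_chirp_aux (u ^ 2) u (by positivity) (by nlinarith) hu0
  refine ⟨u ^ 2 / 4, C, by positivity, hC, N₀, fun N hN => ?_⟩
  obtain ⟨ψ, ⟨h1, h2, h3, h4⟩, h5⟩ := h N hN
  refine ⟨ψ, h1, h2, h3, h4, fun k => (h5 k).trans ?_⟩
  have h6 : Real.sqrt (2 * u ^ 2) ≤ 2 * u := Real.sqrt_le_iff.2 ⟨by positivity, by nlinarith⟩
  have h7 : u ^ 2 ≤ u / 100 := by nlinarith
  have h8 : (1 + u ^ 2) * (1 + 2 * u ^ 2) ≤ 1 + u := by nlinarith
  have h9 : (1 + u ^ 2) * (1 + 2 * u ^ 2) + 8 * Real.sqrt (2 * u ^ 2) + 4 * u ≤ 1 + 21 * u := by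
    linarith
  calc _ ≤ (1 + u) * (1 + 21 * u) := mul_le_mul (by nlinarith) h9 (by positivity) (by positivity)
    _ ≤ 1 + ε := by nlinarith

end Crest.Agent.UF
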