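import Mathlib

/-! Spencer-type partial colouring and rounding to signs. -/

set_option autoImplicit false
open Finset

namespace Crest.Agent.UF

/-- sign of a Boolean -/
def sg (b : Bool) : ℝ := if b then 1 else -1

lemma sum_zpow_le (T : Finset ℤ) {s : ℝ} (h0 : 0 ≤ s) (h1 : s ≤ 1 / 3) :
    ∑ m ∈ T, s ^ m.natAbs ≤ 1 + 3 * s := by
  have hs : s < 1 := by linarith
  have g := hasSum_geometric_of_lt_one h0 hs
  have g1 : HasSum (fun n : ℕ => s ^ ((n : ℤ)).natAbs) (1 - s)⁻¹ := by simpa using g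
  have g2 : HasSum (fun n : ℕ => s ^ (-((n : ℤ) + 1)).natAbs) (s * (1 - s)⁻¹) := by
    have e : (fun n : ℕ => s ^ (-((n : ℤ) + 1)).natAbs) = fun n => s * s ^ n := by
      funext n; rw [← pow_succ']; congr 1
    rw [e]; exact g.mul_left s
  have := HasSum.of_nat_of_neg_add_one (f := fun m : ℤ => s ^ m.natAbs) g1 g2
  refine (sum_le_hasSum T (fun _ _ => by positivity) this).trans ?_
  have : 0 < 1 - s := by linarith
  rw [← one_add_mul, ← div_eq_mul_inv, div_le_iff₀ this]
  nlinarith

variable {ι : Type} [Fintype ι] [DecidableEq ι]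

lemma sum_exp_le (a : ι → ℝ) (ha : ∀ k, |a k| ≤ 1) (u : ℝ) :
    ∑ x : ι → Bool, Real.exp (u * ∑ k, a k * sg (x k))
      ≤ 2 ^ Fintype.card ι * Real.exp (u ^ 2 * Fintype.card ι / 2) := by
  simp only [mul_sum, Real.exp_sum]
  rw [← Fintype.piFinset_univ, ← prod_univ_sum (fun _ => univ)
    fun k (b : Bool) => Real.exp (u * (a k * sg b))]
  calc _ ≤ ∏ _k : ι, 2 * Real.exp (u ^ 2 / 2) := by
        refine prod_le_prod (fun k _ => by positivity) fun k _ => ?_
        have h1 := Real.cosh_le_exp_half_sq (u * a k)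
        have h2 : (u * a k) ^ 2 / 2 ≤ u ^ 2 / 2 := by
          have : a k ^ 2 ≤ 1 := (sq_le_one_iff_abs_le_one _).mpr (ha k)
          nlinarith [sq_nonneg u]
        have h3 := Real.exp_le_exp.mpr h2
        rw [Real.cosh_eq] at h1
        simp only [Fintype.sum_bool, sg, if_true, Bool.false_eq_true, if_false, mul_one, mul_neg]
        linarith
    _ = _ := by
        rw [prod_const, mul_pow, ← Real.exp_nat_mul, card_univ]; congr 2; ring

lemma sum_pow_eight_le (a : ι → ℝ) (ha : ∀ k, |a k| ≤ 1) (hn : 0 < Fintype.card ι) :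
    ∑ x : ι → Bool, (∑ k, a k * sg (x k)) ^ 8
      ≤ 2 ^ Fintype.card ι * (161280 * (Fintype.card ι : ℝ) ^ 4) := by
  set n : ℝ := (Fintype.card ι : ℝ) with hn'
  have hn0 : 0 < n := by rw [hn']; exact_mod_cast hn
  set u : ℝ := 1 / Real.sqrt n with hu
  have hu2 : u ^ 2 * n = 1 := by rw [hu, div_pow, Real.sq_sqrt hn0.le]; field_simp
  have h1 := sum_exp_le a ha u
  have h2 := sum_exp_le a ha (-u)
  rw [neg_sq] at h2
  rw [← hn', hu2] at h1 h2
  have h3 : Real.exp (1 / 2) ≤ 2 := by
    have := Real.exp_one_lt_d9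
    have h : Real.exp (1 / 2) ^ 2 = Real.exp 1 := by rw [← Real.exp_nat_mul]; norm_num
    nlinarith [Real.exp_pos (1 / 2)]
  have h4 : ∀ y : ℝ, y ^ 8 ≤ 40320 * n ^ 4 * (Real.exp (u * y) + Real.exp (-u * y)) := by
    intro y
    have h5 := Real.pow_div_factorial_le_exp _ (abs_nonneg (u * y)) 8
    have h6 : Real.exp |u * y| ≤ Real.exp (u * y) + Real.exp (-u * y) := by
      rcases abs_cases (u * y) with h | h <;> rw [h.1]
      · linarith [Real.exp_pos (-u * y)]
      · rw [neg_mul]; linarith [Real.exp_pos (u * y)]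
    have h7 : y ^ 8 = n ^ 4 * |u * y| ^ 8 := by
      rw [Even.pow_abs (by norm_num), mul_pow, ← mul_assoc,
        show n ^ 4 * u ^ 8 = (u ^ 2 * n) ^ 4 by ring, hu2]; ring
    rw [h7]
    norm_num [Nat.factorial] at h5
    have : |u * y| ^ 8 ≤ 40320 * (Real.exp (u * y) + Real.exp (-u * y)) := by
      rw [abs_mul] at h6 ⊢; linarith
    nlinarith [pow_pos hn0 4]
  calc _ ≤ ∑ x : ι → Bool, 40320 * n ^ 4 * (Real.exp (u * ∑ k, a k * sg (x k))
        + Real.exp (-u * ∑ k, a k * sg (x k))) := sum_le_sum fun x _ => h4 _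
    _ ≤ 40320 * n ^ 4 * (2 ^ Fintype.card ι * 2 + 2 ^ Fintype.card ι * 2) := by
        rw [← mul_sum, sum_add_distrib]
        gcongr
        · exact h1.trans (by gcongr)
        · exact h2.trans (by gcongr)
    _ = _ := by ring

lemma card_ball_le (x₀ : ι → Bool) (S : Finset (ι → Bool))
    (hS : ∀ x ∈ S, 10 * (univ.filter fun k => x k ≠ x₀ k).card ≤ Fintype.card ι) :
    (S.card : ℝ) ≤ Real.exp (8 / 15 * Fintype.card ι) := by
  have h1 : ∑ x : ι → Bool, ∏ k, (if x k ≠ x₀ k then Real.exp (-2) else 1)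
      = (1 + Real.exp (-2)) ^ Fintype.card ι := by
    rw [← Fintype.piFinset_univ, ← prod_univ_sum (fun _ => univ)
      fun k (b : Bool) => if b ≠ x₀ k then Real.exp (-2) else 1, ← card_univ, ← prod_const]
    refine prod_congr rfl fun k _ => ?_
    cases x₀ k <;> simp [add_comm]
  have h2 : Real.exp (-2) ≤ 1 / 3 := by
    have := Real.add_one_le_exp 2
    rw [Real.exp_neg, one_div]
    exact inv_anti₀ (by norm_num) (by linarith)
  have h3 : (1 + Real.exp (-2)) ^ Fintype.card ι ≤ Real.exp (1 / 3 * Fintype.card ι) := by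
    rw [mul_comm, Real.exp_nat_mul]
    exact pow_le_pow_left₀ (by positivity) (by linarith [Real.add_one_le_exp (1 / 3)]) _
  have h4 : S.card * Real.exp (-(1 / 5 * Fintype.card ι))
      ≤ ∑ x ∈ S, ∏ k, (if x k ≠ x₀ k then Real.exp (-2) else 1) := by
    rw [← nsmul_eq_mul]
    refine card_nsmul_le_sum _ _ _ fun x hx => ?_
    rw [prod_ite, prod_const_one, mul_one, prod_const, ← Real.exp_nat_mul, Real.exp_le_exp]
    have : (10 * (univ.filter fun k => x k ≠ x₀ k).card : ℝ) ≤ Fintype.card ι := by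
      exact_mod_cast hS x hx
    linarith
  have h5 := (h4.trans (sum_le_sum_of_subset_of_nonneg (subset_univ _) fun x _ _ =>
    prod_nonneg fun k _ => by split_ifs <;> positivity)).trans (h1.le.trans h3)
  rw [Real.exp_neg, ← div_eq_mul_inv, div_le_iff₀ (Real.exp_pos _), ← Real.exp_add] at h5
  exact h5.trans_eq (by congr 1; ring)

lemma abs_round_le (y : ℝ) : ((round y).natAbs : ℝ) ≤ (2 * y) ^ 8 := by
  have h := abs_sub_round y
  rw [Nat.cast_natAbs, Int.cast_abs]
  by_cases h0 : round y = 0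
  · simp only [h0, Int.cast_zero, abs_zero]; positivity
  have h1 : (1 : ℝ) ≤ |(round y : ℝ)| := by exact_mod_cast Int.one_le_abs h0
  have h2 : |(round y : ℝ)| ≤ |y| + 1 / 2 := by
    have := abs_sub_abs_le_abs_sub (round y : ℝ) y
    rw [abs_sub_comm] at this
    linarith
  rw [← Even.pow_abs (by norm_num), abs_mul, abs_two]
  calc _ ≤ (2 * |y|) ^ 1 := by linarith
    _ ≤ _ := pow_le_pow_right₀ (by linarith) (by norm_num)

variable {J : Type} [Fintype J]

theorem partial_colouring (a : J → ι → ℝ) (ha : ∀ j k, |a j k| ≤ 1)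
    (hn : Fintype.card ι ≤ Fintype.card J) {w : ℝ} (hw : 0 ≤ w)
    (hw4 : 300000 * Fintype.card ι * Fintype.card J ≤ w ^ 4) :
    ∃ x x' : ι → Bool, Fintype.card ι ≤ 10 * (univ.filter fun k => x k ≠ x' k).card ∧
      ∀ j, |∑ k, a j k * sg (x k) - ∑ k, a j k * sg (x' k)| ≤ w := by
  classical
  by_contra hcon
  push Not at hcon
  rcases Nat.eq_zero_or_pos (Fintype.card ι) with h0 | h0
  · obtain ⟨j, hj⟩ := hcon (fun _ => true) (fun _ => true) (by omega)
    simp at hj; linarith
  set n : ℝ := (Fintype.card ι : ℝ) with hn'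
  set M : ℝ := (Fintype.card J : ℝ) with hM'
  have hn0 : 0 < n := by rw [hn']; exact_mod_cast h0
  have hnM : n ≤ M := by rw [hn', hM']; exact_mod_cast hn
  have hM0 : 0 < M := by linarith
  have hw0 : 0 < w := by
    refine lt_of_le_of_ne hw fun h => ?_
    rw [← h] at hw4
    have : 0 < 300000 * n * M := by positivity
    linarith [zero_pow (M₀ := ℝ) (show 4 ≠ 0 by norm_num)]
  let b : (ι → Bool) → J → ℤ := fun x j => round ((∑ k, a j k * sg (x k)) / w)
  set σ := 60 * M / n with hσ
  have hσ0 : 0 < σ := by positivity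
  set s := Real.exp (-σ) with hs
  have hs1 : s ≤ n / (60 * M) := by
    rw [hs, Real.exp_neg, ← inv_div]
    exact inv_anti₀ hσ0 (by linarith [Real.add_one_le_exp σ])
  have hs2 : n / (60 * M) ≤ 1 / 3 := by rw [div_le_iff₀ (by positivity)]; linarith
  -- upper bound
  have up : ∑ x, ∏ j, s ^ (b x j).natAbs ≤ Real.exp (8 / 15 * n) * Real.exp (n / 20) := by
    let T : Finset ℤ := univ.image fun q : (ι → Bool) × J => b q.1 q.2
    have hT : ∀ x ∈ (univ : Finset (ι → Bool)), b x ∈ Fintype.piFinset fun _ : J => T :=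
      fun x _ => Fintype.mem_piFinset.mpr fun j => mem_image.mpr ⟨(x, j), mem_univ _, rfl⟩
    rw [← sum_fiberwise_of_maps_to hT]
    calc _ ≤ ∑ c ∈ Fintype.piFinset fun _ : J => T,
          Real.exp (8 / 15 * n) * ∏ j, s ^ (c j).natAbs := by
          refine sum_le_sum fun c _ => ?_
          rw [sum_congr rfl fun x hx => by rw [(mem_filter.mp hx).2], sum_const, nsmul_eq_mul]
          refine mul_le_mul_of_nonneg_right ?_ (by positivity)
          rcases (univ.filter fun x => b x = c).eq_empty_or_nonempty with h | ⟨x₀, hx₀⟩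
          · rw [h]; simp only [card_empty, Nat.cast_zero]; positivity
          refine card_ball_le x₀ _ fun x hx => ?_
          by_contra h1
          obtain ⟨j, hj⟩ := hcon x x₀ (by omega)
          have h2 := congrFun ((mem_filter.mp hx).2.trans (mem_filter.mp hx₀).2.symm) j
          have h3 := abs_le.mp (abs_sub_round ((∑ k, a j k * sg (x k)) / w))
          have h4 := abs_le.mp (abs_sub_round ((∑ k, a j k * sg (x₀ k)) / w))
          simp only [b] at h2
          rw [h2] at h3
          refine absurd hj (not_lt.mpr ?_)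
          have h5 : |(∑ k, a j k * sg (x k)) / w - (∑ k, a j k * sg (x₀ k)) / w| ≤ 1 :=
            abs_le.mpr ⟨by linarith, by linarith⟩
          rwa [← sub_div, abs_div, abs_of_pos hw0, div_le_one hw0] at h5
      _ ≤ _ := by
          rw [← mul_sum, ← prod_univ_sum (fun _ : J => T) fun _ m => s ^ m.natAbs]
          refine mul_le_mul_of_nonneg_left ?_ (Real.exp_pos _).le
          calc _ ≤ ∏ _j : J, Real.exp (3 * (n / (60 * M))) :=
                prod_le_prod (fun _ _ => by positivity) fun _ _ =>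
                  (sum_zpow_le T (by positivity) (hs1.trans hs2)).trans
                    (by linarith [Real.add_one_le_exp (3 * (n / (60 * M)))])
            _ = _ := by
                rw [prod_const, ← Real.exp_nat_mul, card_univ, ← hM']
                congr 1; field_simp; norm_num
  -- lower bound
  have mom : ∑ x, σ * ∑ j, ((b x j).natAbs : ℝ) ≤ 2 ^ Fintype.card ι * (n / 20) := by
    rw [← mul_sum, sum_comm]
    calc _ ≤ σ * ∑ _j : J, (2 / w) ^ 8 * (2 ^ Fintype.card ι * (161280 * n ^ 4)) := by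
          refine mul_le_mul_of_nonneg_left (sum_le_sum fun j _ => ?_) hσ0.le
          refine le_trans (sum_le_sum fun x _ => abs_round_le _) ?_
          refine le_trans (le_of_eq ?_) (mul_le_mul_of_nonneg_left
            (sum_pow_eight_le (a j) (ha j) h0) (by positivity))
          rw [mul_sum]
          exact sum_congr rfl fun x _ => by ring
      _ = 2 ^ Fintype.card ι * (n / 20 * ((1200 * 256 * 161280) * (n * M) ^ 2 / w ^ 8)) := by
          rw [sum_const, card_univ, nsmul_eq_mul, ← hM', hσ]; field_simp; norm_num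
      _ ≤ _ := by
          refine mul_le_mul_of_nonneg_left (mul_le_of_le_one_right (by positivity) ?_)
            (by positivity)
          rw [div_le_one (by positivity)]
          have := pow_le_pow_left₀ (by positivity) hw4 2
          nlinarith [sq_nonneg (n * M)]
  have low : 2 ^ Fintype.card ι * Real.exp (-(n / 20)) ≤ ∑ x, ∏ j, s ^ (b x j).natAbs := by
    calc _ ≤ Real.exp (-(n / 20)) * ∑ x : ι → Bool,
          (1 + n / 20 - σ * ∑ j, ((b x j).natAbs : ℝ)) := by
          rw [mul_comm, sum_sub_distrib, sum_const, card_univ, Fintype.card_fun, nsmul_eq_mul]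
          refine mul_le_mul_of_nonneg_left ?_ (Real.exp_pos _).le
          simp only [Fintype.card_bool, Nat.cast_pow, Nat.cast_ofNat]
          linarith
      _ ≤ _ := by
          rw [mul_sum]
          refine sum_le_sum fun x _ => ?_
          have e1 : ∏ j, s ^ (b x j).natAbs = Real.exp (-(n / 20))
              * Real.exp (n / 20 - σ * ∑ j, ((b x j).natAbs : ℝ)) := by
            simp only [hs, ← Real.exp_nat_mul, ← Real.exp_sum, ← Real.exp_add]
            congr 1
            rw [← sum_mul]; ring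
          rw [e1]
          refine mul_le_mul_of_nonneg_left ?_ (Real.exp_pos _).le
          linarith [Real.add_one_le_exp (n / 20 - σ * ∑ j, ((b x j).natAbs : ℝ))]
  have fin := low.trans up
  have e2 : (2 : ℝ) ^ Fintype.card ι = Real.exp (n * Real.log 2) := by
    rw [hn', Real.exp_nat_mul, Real.exp_log (by norm_num)]
  rw [e2, ← Real.exp_add, ← Real.exp_add, Real.exp_le_exp] at fin
  nlinarith [Real.log_two_gt_d9]

omit [DecidableEq ι] in
lemma sum_dite_zero (P : ι → Prop) [DecidablePred P] (g : {k // P k} → ℝ) :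
    ∑ k, (if h : P k then g ⟨k, h⟩ else 0) = ∑ k, g k := by
  rw [← Fintype.sum_subtype_add_sum_subtype P,
    sum_eq_zero (s := (univ : Finset {k // ¬ P k})) fun k _ => dif_neg k.2, add_zero]
  exact sum_congr rfl fun k _ => dif_pos k.2

theorem full_colouring (n : ℕ) : ∀ (ι : Type) [Fintype ι] (a : J → ι → ℝ),
    Fintype.card ι = n → (∀ j k, |a j k| ≤ 1) → n ≤ Fintype.card J → ∀ w : ℝ, 0 ≤ w →
    48000000000 * n * Fintype.card J ≤ w ^ 4 →
    ∃ x : ι → Bool, ∀ j, |∑ k, a j k * sg (x k)| ≤ w := by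
  classical
  induction n using Nat.strong_induction_on with
  | _ n ih =>
  intro ι _ a hι ha hn w hw hw4
  rcases Nat.eq_zero_or_pos n with h0 | h0
  · have : IsEmpty ι := Fintype.card_eq_zero_iff.mp (by omega)
    exact ⟨fun _ => true, fun j => by simpa using hw⟩
  obtain ⟨x, x', h1, h2⟩ := partial_colouring a ha (by omega) (w := w / 20) (by positivity)
    (by rw [hι]; linarith)
  have h3 : Fintype.card {k // x k = x' k} + (univ.filter fun k => x k ≠ x' k).card = n := by
    rw [Fintype.card_subtype, ← hι, ← card_univ]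
    exact card_filter_add_card_filter_not _
  have h4 : (10 * Fintype.card {k // x k = x' k} : ℝ) ≤ 9 * n := by
    exact_mod_cast (by omega : 10 * Fintype.card {k // x k = x' k} ≤ 9 * n)
  obtain ⟨y, hy⟩ := ih _ (by omega) {k // x k = x' k} (fun j k => a j k) rfl (fun j k => ha j k)
    (by omega) (39 / 40 * w) (by positivity) (by
      have : (0 : ℝ) ≤ Fintype.card J := Nat.cast_nonneg _
      have : (0 : ℝ) ≤ n := Nat.cast_nonneg _
      nlinarith)
  refine ⟨fun k => if h : x k = x' k then y ⟨k, h⟩ else x k, fun j => ?_⟩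
  have e : ∑ k, a j k * sg (if h : x k = x' k then y ⟨k, h⟩ else x k)
      = ∑ k : {k // x k = x' k}, a j k * sg (y k)
        + (∑ k, a j k * sg (x k) - ∑ k, a j k * sg (x' k)) / 2 := by
    rw [← sum_dite_zero (fun k => x k = x' k), ← sum_sub_distrib, sum_div, ← sum_add_distrib]
    refine sum_congr rfl fun k _ => ?_
    split_ifs with h
    · rw [h]; ring
    · revert h
      cases x k <;> cases x' k <;> simp [sg]
      ring
  rw [e]
  have := abs_le.mp (hy j)
  have := abs_le.mp (h2 j)
  exact abs_le.mpr ⟨by linarith, by linarith⟩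

omit [DecidableEq ι] in
theorem dyadic (a : J → ι → ℝ) (ha : ∀ j k, |a j k| ≤ 1) (hn : Fintype.card ι ≤ Fintype.card J)
    {W Φ : ℝ} (hW : 0 ≤ W) (hW4 : 48000000000 * Φ * Fintype.card J ≤ W ^ 4) (l : ℕ) :
    ∀ m : ι → ℤ, (∀ k, 0 ≤ m k ∧ m k ≤ 2 ^ l) → ∑ k, (1 - (2 * m k / 2 ^ l - 1 : ℝ) ^ 2) ≤ Φ →
      ∃ y : ι → Bool, ∀ j, |∑ k, a j k * (sg (y k) - (2 * m k / 2 ^ l - 1))|
        ≤ 5 / 2 * W * (1 - (3 / 5) ^ l) := by
  classical
  induction l with
  | zero =>
    intro m hm _
    refine ⟨fun k => decide (m k = 1), fun j => ?_⟩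
    rw [sum_eq_zero fun k _ => ?_]
    · simp
    · obtain h | h : m k = 0 ∨ m k = 1 := by have := hm k; omega
      all_goals simp [h, sg]
      all_goals norm_num
  | succ l ih =>
    intro m hm hΦ
    have hp : (0 : ℝ) < 2 ^ l := by positivity
    have hx : ∀ k, (2 * m k / 2 ^ (l + 1) - 1 : ℝ) = m k / 2 ^ l - 1 := fun k => by
      rw [pow_succ]; field_simp
    simp only [hx] at hΦ ⊢
    have hA : (Fintype.card {k // Odd (m k)} : ℝ) ≤ Φ * 2 ^ l := by
      rw [← div_le_iff₀ hp, Fintype.card_subtype, ← sum_boole, sum_div]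
      refine le_trans (sum_le_sum fun k _ => ?_) hΦ
      have e : (1 - (m k / 2 ^ l - 1) ^ 2 : ℝ) = m k * (2 * 2 ^ l - m k) / 2 ^ l / 2 ^ l := by
        field_simp; ring
      rw [e]
      refine div_le_div_of_nonneg_right ?_ hp.le
      have h1 := hm k
      rw [pow_succ] at h1
      split_ifs with h
      · rw [le_div_iff₀ hp]
        obtain ⟨c, hc⟩ := h
        have h2 : (0 : ℤ) < 2 ^ l := by positivity
        have : (1 * 2 ^ l : ℤ) ≤ m k * (2 * 2 ^ l - m k) := by
          nlinarith [mul_nonneg (show 0 ≤ m k - 1 by omega)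
            (show 0 ≤ 2 ^ l * 2 - 1 - m k by omega)]
        exact_mod_cast this
      · have : (0 : ℤ) ≤ m k * (2 * 2 ^ l - m k) := mul_nonneg h1.1 (by omega)
        exact div_nonneg (by exact_mod_cast this) hp.le
    obtain ⟨z, hz⟩ := full_colouring _ {k // Odd (m k)} (fun j k => a j k) rfl
      (fun j k => ha j k) ((Fintype.card_subtype_le _).trans hn) (W * (6 / 5) ^ l) (by positivity)
      (by
        have h1 : (2 : ℝ) ^ l ≤ ((6 / 5) ^ l) ^ 4 := by
          rw [← pow_mul, mul_comm, pow_mul]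
          exact pow_le_pow_left₀ (by norm_num) (by norm_num) _
        have h2 : (0 : ℝ) ≤ Fintype.card J := Nat.cast_nonneg _
        calc _ ≤ 48000000000 * (Φ * 2 ^ l) * Fintype.card J := by gcongr
          _ = 48000000000 * Φ * Fintype.card J * 2 ^ l := by ring
          _ ≤ W ^ 4 * ((6 / 5) ^ l) ^ 4 := mul_le_mul hW4 h1 hp.le (by positivity)
          _ = _ := by ring)
    obtain ⟨χ, c1, c2, c3, c4⟩ : ∃ χ : ι → ℤ, (∀ k, Odd (m k) → χ k = 1 ∨ χ k = -1) ∧
        (∀ k, ¬ Odd (m k) → χ k = 0) ∧ (∀ j, |∑ k, a j k * χ k| ≤ W * (6 / 5) ^ l) ∧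
        0 ≤ ∑ k, χ k * (m k / 2 ^ l - 1 : ℝ) := by
      let χ : ι → ℤ := fun k => if h : Odd (m k) then (if z ⟨k, h⟩ then 1 else -1) else 0
      have c1 : ∀ k, Odd (m k) → χ k = 1 ∨ χ k = -1 := fun k h => by
        simp only [χ, dif_pos h]; split_ifs <;> simp
      have c2 : ∀ k, ¬ Odd (m k) → χ k = 0 := fun k h => dif_neg h
      have c3 : ∀ j, |∑ k, a j k * χ k| ≤ W * (6 / 5) ^ l := fun j => by
        refine le_trans (le_of_eq ?_) (hz j)
        rw [← sum_dite_zero fun k => Odd (m k)]
        congr 1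
        refine sum_congr rfl fun k _ => ?_
        simp only [χ, sg]
        split_ifs <;> simp
      rcases le_total 0 (∑ k, χ k * (m k / 2 ^ l - 1 : ℝ)) with h | h
      · exact ⟨χ, c1, c2, c3, h⟩
      · refine ⟨fun k => -χ k, fun k hk => by have := c1 k hk; beta_reduce; omega,
          fun k hk => by simp [c2 k hk], fun j => ?_, ?_⟩
        · simpa [abs_neg] using c3 j
        · simpa using h
    have hev : ∀ k, 2 * ((m k + χ k) / 2) = m k + χ k := fun k => by
      by_cases h : Odd (m k)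
      · have := c1 k h
        obtain ⟨c, hc⟩ := h
        omega
      · have := c2 k h
        obtain ⟨c, hc⟩ := Int.not_odd_iff_even.mp h
        omega
    have hev' : ∀ k, (2 * ((m k + χ k) / 2 : ℤ) / 2 ^ l - 1 : ℝ)
        = (m k / 2 ^ l - 1) + χ k / 2 ^ l := fun k => by
      have : (2 * ((m k + χ k) / 2 : ℤ) : ℝ) = m k + χ k := by exact_mod_cast hev k
      rw [this]; ring
    obtain ⟨y, hy⟩ := ih (fun k => (m k + χ k) / 2) (fun k => by
      have h1 := hm k
      have h2 := hev k
      rw [pow_succ] at h1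
      by_cases h : Odd (m k)
      · have := c1 k h
        obtain ⟨c, hc⟩ := h
        omega
      · have := c2 k h
        omega) (by
      simp only [hev']
      refine le_trans ?_ hΦ
      have : 0 ≤ 2 / 2 ^ l * ∑ k, χ k * (m k / 2 ^ l - 1 : ℝ) := by positivity
      refine le_trans ?_ (sub_le_self _ this)
      rw [mul_sum, ← sum_sub_distrib]
      refine sum_le_sum fun k _ => ?_
      have := sq_nonneg (χ k / 2 ^ l : ℝ)
      have e : (2 / 2 ^ l * (χ k * (m k / 2 ^ l - 1)) : ℝ)
          = 2 * (m k / 2 ^ l - 1) * (χ k / 2 ^ l) := by ring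
      rw [e]; nlinarith)
    refine ⟨y, fun j => ?_⟩
    have e : ∑ k, a j k * (sg (y k) - (m k / 2 ^ l - 1))
        = ∑ k, a j k * (sg (y k) - (2 * ((m k + χ k) / 2 : ℤ) / 2 ^ l - 1))
          + (∑ k, a j k * χ k) / 2 ^ l := by
      rw [sum_div, ← sum_add_distrib]
      exact sum_congr rfl fun k _ => by rw [hev']; ring
    have h5 : |(∑ k, a j k * χ k) / 2 ^ l| ≤ W * (3 / 5) ^ l := by
      rw [abs_div, abs_of_pos hp, div_le_iff₀ hp, mul_assoc, ← mul_pow]
      exact (c3 j).trans_eq (by norm_num)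
    rw [e]
    refine (abs_add_le _ _).trans ((add_le_add (hy j) h5).trans_eq ?_)
    ring

end Crest.Agent.UF
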