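import Crest.Agent.UF.Fejer
import Crest.Agent.UF.Spencer

set_option autoImplicit false
open Finset

namespace Crest.Agent.UF

lemma parseval_disc (M : ℕ) [NeZero M] {I : Type} [Fintype I] (f : I → ℤ)
    (hf : ∀ a b, (M : ℤ) ∣ f a - f b → a = b) (c : I → ℂ) :
    ∑ j : ZMod M, ‖∑ a, c a * e (f a * ((j.val : ℝ) / M))‖ ^ 2 = M * ∑ a, ‖c a‖ ^ 2 := by
  classical
  apply Complex.ofReal_injective
  push_cast
  simp only [← Complex.mul_conj', map_sum, map_mul, sum_mul_sum, ← e_neg]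
  rw [sum_comm, mul_sum]
  refine sum_congr rfl fun a _ => ?_
  rw [sum_comm]
  have : ∀ b, ∑ j : ZMod M, c a * e (f a * ((j.val : ℝ) / M)) *
      ((starRingEnd ℂ) (c b) * e (-(f b * ((j.val : ℝ) / M))))
      = if a = b then M * (c a * (starRingEnd ℂ) (c b)) else 0 := by
    intro b
    have h := sum_e_dvd M (f a - f b)
    calc _ = c a * (starRingEnd ℂ) (c b) * ∑ j : ZMod M,
          e (((f a - f b : ℤ) : ℝ) * ((j.val : ℝ) / M)) := by
          rw [mul_sum]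
          refine sum_congr rfl fun j _ => ?_
          rw [mul_mul_mul_comm, ← e_add]; congr 2; push_cast; ring
      _ = _ := by
          rw [h]
          by_cases hab : a = b
          · simp [hab, mul_comm]
          · rw [if_neg hab, if_neg fun h => hab (hf a b h), mul_zero]
  simp only [this, sum_ite_eq, mem_univ, if_true]

lemma fin_eq_of_dvd {N M : ℕ} (h : N ≤ M) (a b : Fin N) (hd : (M : ℤ) ∣ (a : ℕ) - (b : ℕ)) :
    a = b := by
  have := Int.eq_zero_of_abs_lt_dvd hd (by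
    have := a.2; have := b.2
    rw [abs_lt]; constructor <;> omega)
  exact Fin.ext (by omega)

/-- (S') Parseval lower bound -/
theorem parseval_lower (N : ℕ) (hN : 0 < N) (c : Fin N → ℝ) (a : ℝ) (ha : 0 ≤ a)
    (h : ∀ θ : ℝ, a ≤ ‖∑ k : Fin N, (c k : ℂ) * e ((k : ℕ) * θ)‖) :
    a ^ 2 ≤ ∑ k, c k ^ 2 := by
  have : NeZero N := ⟨hN.ne'⟩
  have h1 := parseval_disc N (fun k : Fin N => ((k : ℕ) : ℤ)) (fin_eq_of_dvd le_rfl)
    fun k => (c k : ℂ)
  simp only [Int.cast_natCast, Complex.norm_real, Real.norm_eq_abs, sq_abs] at h1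
  have h2 : ∑ _j : ZMod N, a ^ 2 ≤ N * ∑ k, c k ^ 2 :=
    h1 ▸ sum_le_sum fun j _ => pow_le_pow_left₀ ha (h _) 2
  rw [sum_const, card_univ, ZMod.card, nsmul_eq_mul] at h2
  exact le_of_mul_le_mul_left h2 (by exact_mod_cast hN)

lemma sampling (N : ℕ) [NeZero (2 * N)] (u : Fin N → ℂ) (B : ℝ)
    (h : ∀ j : ZMod (2 * N), ‖∑ k, u k * e ((k : ℕ) * ((j.val : ℝ) / (2 * N : ℕ)))‖ ≤ B) (θ : ℝ) :
    ‖∑ k, u k * e ((k : ℕ) * θ)‖ ≤ 3 / 2 * B := by
  have hN : (0 : ℝ) < N := by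
    have := NeZero.ne (2 * N)
    exact_mod_cast (by omega : 0 < N)
  have hB : 0 ≤ B := (norm_nonneg _).trans (h 0)
  let D₁ : ZMod (2 * N) → ℂ := fun j => ∑ a : Fin N,
    e (-((a : ℕ) * θ)) * e ((((a : ℕ) : ℤ) : ℝ) * ((j.val : ℝ) / (2 * N : ℕ)))
  let D₂ : ZMod (2 * N) → ℂ := fun j => ∑ b : Fin (2 * N),
    e ((b : ℕ) * θ) * e (((-(b : ℕ) : ℤ) : ℝ) * ((j.val : ℝ) / (2 * N : ℕ)))
  have p₁ : ∑ j, ‖D₁ j‖ ^ 2 = (2 * N : ℕ) * N := by
    rw [parseval_disc _ _ (fin_eq_of_dvd (by omega))]; simp [norm_e]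
  have p₂ : ∑ j, ‖D₂ j‖ ^ 2 = (2 * N : ℕ) * (2 * N : ℕ) := by
    rw [parseval_disc _ _ fun a b h => (fin_eq_of_dvd le_rfl b a (by convert h using 1; ring)).symm]
    simp [norm_e]
  have key : ∑ j : ZMod (2 * N), (∑ k, u k * e ((k : ℕ) * ((j.val : ℝ) / (2 * N : ℕ))))
      * (D₁ j * D₂ j) = (2 * N : ℕ) * N * ∑ k, u k * e ((k : ℕ) * θ) := by
    simp only [D₁, D₂, sum_mul]
    rw [sum_comm, mul_sum]
    refine sum_congr rfl fun k _ => ?_
    simp only [mul_sum]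
    rw [sum_comm]
    have : ∀ a : Fin N, ∑ j : ZMod (2 * N), ∑ b : Fin (2 * N),
        u k * e ((k : ℕ) * ((j.val : ℝ) / (2 * N : ℕ))) *
        (e (-((a : ℕ) * θ)) * e ((((a : ℕ) : ℤ) : ℝ) * ((j.val : ℝ) / (2 * N : ℕ))) *
          (e ((b : ℕ) * θ) * e (((-(b : ℕ) : ℤ) : ℝ) * ((j.val : ℝ) / (2 * N : ℕ)))))
        = (2 * N : ℕ) * (u k * e ((k : ℕ) * θ)) := by
      intro a
      have hka : (k : ℕ) + a < 2 * N := by have := k.2; have := a.2; omega
      rw [sum_comm]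
      calc _ = ∑ b : Fin (2 * N), u k * e (((b : ℕ) - (a : ℕ)) * θ) * ∑ j : ZMod (2 * N),
            e ((((((⟨_, hka⟩ : Fin (2 * N)) : ℕ) : ℤ) - (b : ℕ) : ℤ) : ℝ)
              * ((j.val : ℝ) / (2 * N : ℕ))) := by
            refine sum_congr rfl fun b _ => ?_
            rw [mul_sum]
            refine sum_congr rfl fun j _ => ?_
            simp only [mul_assoc, ← e_add]
            congr 2; push_cast; ring
        _ = _ := by
            simp only [sum_e_dvd]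
            rw [sum_eq_single ⟨_, hka⟩ (fun b _ hb => by
              rw [if_neg fun h => hb (fin_eq_of_dvd le_rfl _ _ h).symm, mul_zero]) (by simp)]
            simp [mul_comm]
    simp only [this, sum_const, card_univ, Fintype.card_fin, nsmul_eq_mul]
    ring
  have h2 : ((2 * N : ℕ) : ℝ) * N * ‖∑ k, u k * e ((k : ℕ) * θ)‖
      ≤ ∑ j, B / 2 * (‖D₁ j‖ ^ 2 + ‖D₂ j‖ ^ 2) := by
    have := congrArg norm key
    rw [norm_mul, norm_mul, Complex.norm_natCast, Complex.norm_natCast] at this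
    rw [← this]
    refine (norm_sum_le _ _).trans (sum_le_sum fun j _ => ?_)
    rw [norm_mul, norm_mul]
    calc _ ≤ B * (‖D₁ j‖ * ‖D₂ j‖) := mul_le_mul_of_nonneg_right (h j) (by positivity)
      _ ≤ _ := by nlinarith [sq_nonneg (‖D₁ j‖ - ‖D₂ j‖)]
  rw [← mul_sum, sum_add_distrib, p₁, p₂] at h2
  push_cast at h2
  refine le_of_mul_le_mul_left ?_ (show 0 < 2 * (N : ℝ) * N by positivity)
  linarith

/-- (S) Spencer-type rounding -/
theorem round_signs (ε : ℝ) (hε : 0 < ε) :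
    ∃ δ : ℝ, 0 < δ ∧ ∀ (N : ℕ) (x : Fin N → ℝ), (∀ k, |x k| ≤ 1) →
      ∑ k, (1 - x k ^ 2) ≤ δ * N →
      ∃ y : Fin N → ℤˣ, ∀ θ : ℝ,
        ‖∑ k : Fin N, ((((y k : ℤ) : ℝ) - x k : ℝ) : ℂ) * e ((k : ℕ) * θ)‖ ≤ ε * Real.sqrt N := by
  obtain ⟨c, rfl⟩ : ∃ c, ε = 9 * c := ⟨ε / 9, by ring⟩
  have hc : 0 < c := by linarith
  set δ := c ^ 4 / 384000000000 with hδ
  have hδ0 : 0 < δ := by positivity
  refine ⟨δ, hδ0, fun N x hx hΦ => ?_⟩
  rcases Nat.eq_zero_or_pos N with rfl | hN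
  · exact ⟨fun _ => 1, fun θ => by simp⟩
  have : NeZero (2 * N) := ⟨by omega⟩
  have hN1 : (1 : ℝ) ≤ N := by exact_mod_cast hN
  have hs1 : 1 ≤ Real.sqrt N := Real.one_le_sqrt.mpr hN1
  obtain ⟨l, hl⟩ := pow_unbounded_of_one_lt (4 * N / c + 4 / δ) (one_lt_two (α := ℝ))
  have hp : (0 : ℝ) < 2 ^ l := by positivity
  have l1 : N * (2 / 2 ^ l) ≤ c / 2 := by
    have : 4 * N / c ≤ 2 ^ l := by linarith [show 0 < 4 / δ by positivity]
    rw [div_le_iff₀ hc] at this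
    rw [← mul_div_assoc, div_le_iff₀ hp]; linarith
  have l2 : 4 / 2 ^ l ≤ δ := by
    have : 4 / δ ≤ 2 ^ l := by linarith [show 0 < 4 * N / c by positivity]
    rw [div_le_iff₀ hδ0] at this
    rw [div_le_iff₀ hp]; linarith
  let a : ZMod (2 * N) × Bool → Fin N → ℝ := fun j k =>
    if j.2 then (e ((k : ℕ) * ((j.1.val : ℝ) / (2 * N : ℕ)))).re
    else (e ((k : ℕ) * ((j.1.val : ℝ) / (2 * N : ℕ)))).im
  have ha : ∀ j k, |a j k| ≤ 1 := fun j k => by
    simp only [a]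
    split_ifs
    · exact (Complex.abs_re_le_norm _).trans_eq (norm_e _)
    · exact (Complex.abs_im_le_norm _).trans_eq (norm_e _)
  let m : Fin N → ℤ := fun k => ⌊(x k + 1) / 2 * 2 ^ l⌋
  have hm : ∀ k, 0 ≤ m k ∧ m k ≤ 2 ^ l := fun k => by
    have := abs_le.mp (hx k)
    refine ⟨Int.floor_nonneg.mpr (mul_nonneg (by linarith) hp.le), ?_⟩
    have h1 : (m k : ℝ) ≤ 2 ^ l := (Int.floor_le _).trans (by nlinarith)
    exact_mod_cast h1
  have hm' : ∀ k, 0 ≤ x k - (2 * m k / 2 ^ l - 1) ∧ x k - (2 * m k / 2 ^ l - 1) ≤ 2 / 2 ^ l :=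
    fun k => by
      have h1 : (m k : ℝ) ≤ _ := Int.floor_le _
      have h2 : _ < (m k : ℝ) + 1 := Int.lt_floor_add_one _
      have e : x k - (2 * m k / 2 ^ l - 1) = 2 * ((x k + 1) / 2 * 2 ^ l - m k) / 2 ^ l := by
        field_simp; ring
      rw [e]
      exact ⟨div_nonneg (by linarith) hp.le, div_le_div_of_nonneg_right (by linarith) hp.le⟩
  obtain ⟨y, hy⟩ := dyadic a ha (by simp [ZMod.card]; omega) (W := c * Real.sqrt N)
    (Φ := 2 * δ * N) (by positivity) (by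
      rw [mul_pow, show Real.sqrt N ^ 4 = (Real.sqrt N ^ 2) ^ 2 by ring,
        Real.sq_sqrt (by linarith), hδ]
      simp only [Fintype.card_prod, ZMod.card, Fintype.card_bool]
      push_cast
      exact le_of_eq (by ring)) l m hm (by
      calc _ ≤ ∑ k, ((1 - x k ^ 2) + δ) := sum_le_sum fun k _ => by
            have h1 := hm' k
            have h2 := abs_le.mp (hx k)
            have e : (4 / 2 ^ l : ℝ) = 2 * (2 / 2 ^ l) := by ring
            nlinarith [sq_nonneg (x k - (2 * m k / 2 ^ l - 1))]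
        _ ≤ _ := by
            rw [sum_add_distrib, sum_const, card_univ, Fintype.card_fin, nsmul_eq_mul]
            linarith)
  have hy' : ∀ j, |∑ k, a j k * (sg (y k) - x k)| ≤ 3 * c * Real.sqrt N := fun j => by
    have e : ∑ k, a j k * (sg (y k) - x k) = ∑ k, a j k * (sg (y k) - (2 * m k / 2 ^ l - 1))
        - ∑ k, a j k * (x k - (2 * m k / 2 ^ l - 1)) := by
      rw [← sum_sub_distrib]; exact sum_congr rfl fun k _ => by ring
    have h1 : |∑ k, a j k * (x k - (2 * m k / 2 ^ l - 1))| ≤ N * (2 / 2 ^ l) := by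
      refine (abs_sum_le_sum_abs _ _).trans ?_
      calc _ ≤ ∑ _k : Fin N, (2 / 2 ^ l : ℝ) := sum_le_sum fun k _ => by
            rw [abs_mul, abs_of_nonneg (hm' k).1]
            exact (mul_le_of_le_one_left (hm' k).1 (ha j k)).trans (hm' k).2
        _ = _ := by simp
    have h2 : 0 ≤ c * Real.sqrt N * (3 / 5) ^ l := by positivity
    rw [e]
    refine (abs_sub _ _).trans ?_
    nlinarith [hy j]
  refine ⟨fun k => if y k then 1 else -1, fun θ => ?_⟩
  have e : ∀ k, (((if y k then 1 else -1 : ℤˣ) : ℤ) : ℝ) = sg (y k) := fun k => by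
    cases y k <;> simp [sg]
  simp only [e]
  refine (sampling N _ (6 * c * Real.sqrt N) (fun j => ?_) θ).trans_eq (by ring)
  refine (Complex.norm_le_abs_re_add_abs_im _).trans ?_
  have h1 := hy' (j, true)
  have h2 := hy' (j, false)
  simp only [a, if_true, Bool.false_eq_true, if_false] at h1 h2
  simp only [Complex.re_sum, Complex.im_sum, Complex.re_ofReal_mul, Complex.im_ofReal_mul,
    mul_comm (sg _ - _)]
  linarith

end Crest.Agent.UF
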