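import Crest.Agent.UF.Tile

set_option autoImplicit false
open Finset

namespace Crest.Agent.UF

lemma slope_le (r r₁ : ℝ → ℝ) (m : ℝ) (hr : ∀ x, HasDerivAt r (r₁ x) x) (hm : ∀ x, m ≤ r₁ x)
    {x y : ℝ} (hxy : x ≤ y) : m * (y - x) ≤ r y - r x := by
  have := (convex_univ (𝕜 := ℝ) (E := ℝ)).mul_sub_le_image_sub_of_le_deriv (f := r)
    (fun z _ => (hr z).continuousAt.continuousWithinAt)
    (fun z _ => (hr z).differentiableAt.differentiableWithinAt) (C := m)
    (fun z _ => by rw [(hr z).deriv]; exact hm z) x (Set.mem_univ _) y (Set.mem_univ _) hxy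
  exact this

lemma phase_deriv (g r : ℝ → ℝ) (hg : ∀ x, HasDerivAt g (r x) x) (M κ x : ℝ) :
    HasDerivAt (fun v => M * (g v - κ * v)) (M * (r x - κ)) x := by
  have := ((hg x).sub ((hasDerivAt_id x).const_mul κ)).const_mul M
  exact this.congr_deriv (by simp)

lemma phase_deriv2 (r r₁ : ℝ → ℝ) (hr : ∀ x, HasDerivAt r (r₁ x) x) (M κ x : ℝ) :
    HasDerivAt (fun v => M * (r v - κ)) (M * r₁ x) x :=
  ((hr x).sub_const κ).const_mul M

lemma arc_far (g r r₁ : ℝ → ℝ) (m Λ δ γ M κ : ℝ) (hm : 0 < m) (hΛ : 0 < Λ) (hγ : 0 < γ)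
    (hγδ : 3 * γ ≤ δ) (hδ : δ ≤ 1 / 4) (hM : 0 < M)
    (hg : ∀ x, HasDerivAt g (r x) x) (hr : ∀ x, HasDerivAt r (r₁ x) x) (hr₁ : Continuous r₁)
    (hlow : ∀ x, m ≤ r₁ x) (hend : ∀ x ∈ Set.Icc (0 : ℝ) 1, x ≤ δ ∨ 1 - δ ≤ x → m * Λ ≤ r₁ x)
    (hκ : ∀ v ∈ Set.Icc (2 * γ) (1 - 2 * γ), r v ≠ κ) :
    ‖∫ v in γ..(1 - γ), e (M * (g v - κ * v))‖ ≤ 8 / Real.sqrt (M * (m * Λ)) + 1 / (M * (m * γ)) := by
  have hgc : Continuous g := continuous_iff_continuousAt.2 fun y => (hg y).continuousAt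
  have hrc : Continuous r := continuous_iff_continuousAt.2 fun y => (hr y).continuousAt
  set F : ℝ → ℂ := fun v => e (M * (g v - κ * v)) with hF
  have hFc : Continuous F := continuous_e.comp (by fun_prop)
  have hsplit : ∫ v in γ..(1 - γ), F v =
      (∫ v in γ..(3 * γ), F v) + (∫ v in (3 * γ)..(1 - 3 * γ), F v) +
        ∫ v in (1 - 3 * γ)..(1 - γ), F v := by
    rw [intervalIntegral.integral_add_adjacent_intervals (hFc.intervalIntegrable _ _)
      (hFc.intervalIntegrable _ _), intervalIntegral.integral_add_adjacent_intervals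
      (hFc.intervalIntegrable _ _) (hFc.intervalIntegrable _ _)]
  have hpos : 0 < M * (m * Λ) := by positivity
  have h1 : ‖∫ v in γ..(3 * γ), F v‖ ≤ 4 / Real.sqrt (M * (m * Λ)) :=
    second_deriv_test _ (fun v => M * (r v - κ)) (fun v => M * r₁ v) _ _ _ (by linarith) hpos
      (fun x _ => phase_deriv g r hg M κ x) (fun x _ => phase_deriv2 r r₁ hr M κ x) (by fun_prop)
      (Or.inl fun x hx => mul_le_mul_of_nonneg_left
        (hend x ⟨by linarith [hx.1], by linarith [hx.2]⟩ (Or.inl (by linarith [hx.2]))) hM.le)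
  have h3 : ‖∫ v in (1 - 3 * γ)..(1 - γ), F v‖ ≤ 4 / Real.sqrt (M * (m * Λ)) :=
    second_deriv_test _ (fun v => M * (r v - κ)) (fun v => M * r₁ v) _ _ _ (by linarith) hpos
      (fun x _ => phase_deriv g r hg M κ x) (fun x _ => phase_deriv2 r r₁ hr M κ x) (by fun_prop)
      (Or.inl fun x hx => mul_le_mul_of_nonneg_left
        (hend x ⟨by linarith [hx.1], by linarith [hx.2]⟩ (Or.inr (by linarith [hx.1]))) hM.le)
  have hcase : κ < r (2 * γ) ∨ r (1 - 2 * γ) < κ := by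
    by_contra hc
    push Not at hc
    obtain ⟨v, hv, hv'⟩ := intermediate_value_Icc (by linarith : 2 * γ ≤ 1 - 2 * γ)
      hrc.continuousOn ⟨hc.1, hc.2⟩
    exact hκ v hv hv'
  have h2 : ‖∫ v in (3 * γ)..(1 - 3 * γ), F v‖ ≤ 1 / (M * (m * γ)) := by
    refine first_deriv_test _ (fun v => M * (r v - κ)) (fun v => M * r₁ v) _ _ _ (by linarith)
      (by positivity) (fun x _ => phase_deriv g r hg M κ x) (fun x _ => phase_deriv2 r r₁ hr M κ x)
      (by fun_prop) (Or.inl fun x _ => mul_nonneg hM.le (hm.le.trans (hlow x))) fun x hx => ?_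
    rw [abs_mul, abs_of_pos hM]
    apply mul_le_mul_of_nonneg_left _ hM.le
    rcases hcase with h | h
    · have := slope_le r r₁ m hr hlow (x := 2 * γ) (y := x) (by linarith [hx.1])
      refine le_trans ?_ (le_abs_self _)
      nlinarith [hx.1]
    · have := slope_le r r₁ m hr hlow (x := x) (y := 1 - 2 * γ) (by linarith [hx.2])
      rw [abs_sub_comm]
      refine le_trans ?_ (le_abs_self _)
      nlinarith [hx.2]
  rw [hsplit]
  refine (norm_add_le _ _).trans ((add_le_add_left (norm_add_le _ _) _).trans ?_)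
  have : 8 / Real.sqrt (M * (m * Λ)) = 4 / Real.sqrt (M * (m * Λ)) + 4 / Real.sqrt (M * (m * Λ)) := by
    ring
  linarith

lemma two_re_le (z : ℂ) : |2 * z.re| ≤ 2 * ‖z‖ := by
  rw [abs_mul, abs_two]
  exact mul_le_mul_of_nonneg_left (Complex.abs_re_le_norm z) zero_le_two

/-- far slice: every arc contributes little -/
lemma arc_term_far (g r r₁ : ℝ → ℝ) (m Λ δ γ N l κ c : ℝ) (hm : 0 < m) (hΛ : 0 < Λ) (hγ : 0 < γ)
    (hγδ : 3 * γ ≤ δ) (hδ : δ ≤ 1 / 4) (hN : 0 < N) (hl : 0 < l) (hl1 : l ≤ 1)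
    (hg : ∀ x, HasDerivAt g (r x) x) (hr : ∀ x, HasDerivAt r (r₁ x) x) (hr₁ : Continuous r₁)
    (hlow : ∀ x, m ≤ r₁ x) (hend : ∀ x ∈ Set.Icc (0 : ℝ) 1, x ≤ δ ∨ 1 - δ ≤ x → m * Λ ≤ r₁ x)
    (hκ : ∀ v ∈ Set.Icc (2 * γ) (1 - 2 * γ), r v ≠ κ) :
    ‖(Real.sqrt N : ℂ) * ((l : ℂ) * (e c * ∫ v in γ..(1 - γ), e (N * l * (g v - κ * v))))‖ ≤
      8 / Real.sqrt (m * Λ) + 1 / (Real.sqrt N * (m * γ)) := by
  have h := arc_far g r r₁ m Λ δ γ (N * l) κ hm hΛ hγ hγδ hδ (by positivity) hg hr hr₁ hlow hend hκ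
  rw [norm_mul, norm_mul, norm_mul, norm_e, one_mul, Complex.norm_real, Complex.norm_real,
    Real.norm_eq_abs, Real.norm_eq_abs, abs_of_nonneg (Real.sqrt_nonneg _), abs_of_pos hl]
  have hs : 0 < Real.sqrt N := Real.sqrt_pos.2 hN
  have hsl : 0 < Real.sqrt l := Real.sqrt_pos.2 hl
  have hsm : 0 < Real.sqrt (m * Λ) := Real.sqrt_pos.2 (by positivity)
  have hN2 : Real.sqrt N * Real.sqrt N = N := Real.mul_self_sqrt hN.le
  have hl2 : Real.sqrt l * Real.sqrt l = l := Real.mul_self_sqrt hl.le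
  have hsl1 : Real.sqrt l ≤ 1 := Real.sqrt_le_one.2 hl1
  refine (mul_le_mul_of_nonneg_left (mul_le_mul_of_nonneg_left h hl.le) hs.le).trans ?_
  rw [Real.sqrt_mul (by positivity), Real.sqrt_mul hN.le, mul_add, mul_add]
  apply add_le_add
  · have : Real.sqrt N * (l * (8 / (Real.sqrt N * Real.sqrt l * Real.sqrt (m * Λ)))) =
        Real.sqrt l * (8 / Real.sqrt (m * Λ)) := by
      field_simp; rw [Real.sq_sqrt hl.le]
    rw [this]
    exact mul_le_of_le_one_left (by positivity) hsl1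
  · apply le_of_eq
    field_simp; rw [Real.sq_sqrt hN.le]

/-- The arcs of all slices. -/
lemma arcs_bound (Q T A : ℕ) (len : Fin A → ℕ) (st : Fin T → Fin A → ℤ) (Γ : Fin A → ℂ) (η : ℝ)
    (hT : 0 < T) (hQ : 0 < Q) (hlen : ∀ a, 0 < len a) (hlenQ : ∀ a, len a ≤ Q)
    (hΓ : ∀ a, ‖Γ a‖ ^ 2 = (len a : ℝ) * T / Q)
    (hf : ∀ (t : Fin T) (k : ℤ) (H : ℝ),
        |2 * (∑ a, Γ a * e (-(k * st t a / Q) + len a * H)).re| ≤ 1 + η)
    (g r r₁ : ℝ → ℝ) (m Λ δ γ ω u : ℝ) (hm : 0 < m) (hΛ : 0 < Λ) (hγ : 0 < γ)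
    (hγδ : 3 * γ ≤ δ) (hδ : δ ≤ 1 / 4) (hu : 0 < u)
    (hg : ∀ x, HasDerivAt g (r x) x) (hr : ∀ x, HasDerivAt r (r₁ x) x) (hr₁ : Continuous r₁)
    (hlow : ∀ x, m ≤ r₁ x) (hend : ∀ x ∈ Set.Icc (0 : ℝ) 1, x ≤ δ ∨ 1 - δ ≤ x → m * Λ ≤ r₁ x)
    (hr0 : r 0 = 0) (hr1 : r 1 ≤ ω) (τ₀ : ℝ) :
    ∃ N₁ : ℝ, 0 < N₁ ∧ ∀ N : ℝ, N₁ ≤ N → ∀ k : ℤ,
      |2 * (∑ t : Fin T, ∑ a : Fin A, (Real.sqrt N : ℂ) * ((((len a : ℝ) / Q : ℝ) : ℂ) *
        (e (Complex.arg (Γ a) / (2 * Real.pi) - 1 / 8 - k * st t a / Q) *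
          ∫ v in γ..(1 - γ), e (N * ((len a : ℝ) / Q) *
            (g v - (k / N - (τ₀ + (t : ℕ) * ω)) * v))))).re| ≤
        (1 + η) / Real.sqrt (T * m) + u + T * A * (16 / Real.sqrt (m * Λ)) := by
  classical
  have hQR : (0 : ℝ) < Q := by exact_mod_cast hQ
  have hTR : (0 : ℝ) < T := by exact_mod_cast hT
  have hη : 0 ≤ 1 + η := (abs_nonneg _).trans (hf ⟨0, hT⟩ 0 0)
  obtain ⟨M₀, hM₀⟩ := stationary_phase g r r₁ γ (1 - γ) m γ (u / (4 * (A + 1))) hm hγ
    (by positivity) hg hr hr₁ (fun x _ => hlow x)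
  set B : ℝ := 4 * (T * A + 1) / (u * (m * γ)) with hB
  have hB0 : 0 < B := by positivity
  refine ⟨max (Q * max M₀ 0) (B ^ 2), lt_of_lt_of_le (by positivity) (le_max_right _ _),
    fun N hN k => ?_⟩
  have hNB : B ^ 2 ≤ N := (le_max_right _ _).trans hN
  have hN0 : 0 < N := lt_of_lt_of_le (by positivity) hNB
  have hsN : B ≤ Real.sqrt N := Real.le_sqrt_of_sq_le hNB
  have hl : ∀ a, (0 : ℝ) < (len a : ℝ) / Q := fun a => div_pos (by exact_mod_cast hlen a) hQR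
  have hl1 : ∀ a, (len a : ℝ) / Q ≤ 1 := fun a => (div_le_one hQR).2 (by exact_mod_cast hlenQ a)
  set X : Fin T → Fin A → ℂ := fun t a => (Real.sqrt N : ℂ) * ((((len a : ℝ) / Q : ℝ) : ℂ) *
        (e (Complex.arg (Γ a) / (2 * Real.pi) - 1 / 8 - k * st t a / Q) *
          ∫ v in γ..(1 - γ), e (N * ((len a : ℝ) / Q) *
            (g v - (k / N - (τ₀ + (t : ℕ) * ω)) * v)))) with hX
  set ε₂ : ℝ := 8 / Real.sqrt (m * Λ) + 1 / (Real.sqrt N * (m * γ)) with hε₂
  have hε₂0 : 0 ≤ ε₂ := by positivity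
  have hfar : ∀ t : Fin T, (∀ v ∈ Set.Icc (2 * γ) (1 - 2 * γ), r v ≠ k / N - (τ₀ + (t : ℕ) * ω)) →
      |2 * (∑ a, X t a).re| ≤ A * (2 * ε₂) := by
    intro t ht
    refine (two_re_le _).trans ?_
    have : ‖∑ a, X t a‖ ≤ A * ε₂ := by
      refine (norm_sum_le _ _).trans ?_
      have := sum_le_sum (s := univ) (fun a _ => arc_term_far g r r₁ m Λ δ γ N _
        (k / N - (τ₀ + (t : ℕ) * ω)) (Complex.arg (Γ a) / (2 * Real.pi) - 1 / 8 - k * st t a / Q)
        hm hΛ hγ hγδ hδ hN0 (hl a) (hl1 a) hg hr hr₁ hlow hend ht)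
      refine this.trans (le_of_eq ?_)
      rw [sum_const, card_univ, Fintype.card_fin, nsmul_eq_mul]
    linarith
  have hnear : ∀ t : Fin T, ∀ s ∈ Set.Icc (2 * γ) (1 - 2 * γ), r s = k / N - (τ₀ + (t : ℕ) * ω) →
      |2 * (∑ a, X t a).re| ≤ (1 + η) / Real.sqrt (T * m) + u / 2 := by
    intro t s hs hrs
    set H : ℝ := N / Q * (g s - r s * s) with hH
    have hr1s : 0 < r₁ s := hm.trans_le (hlow s)
    have hsq : 0 < Real.sqrt (T * r₁ s) := Real.sqrt_pos.2 (by positivity)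
    have hterm : ∀ a, ‖X t a - Γ a * e (-(k * st t a / Q) + len a * H) /
        (Real.sqrt (T * r₁ s) : ℂ)‖ ≤ u / (4 * (A + 1)) := by
      intro a
      have hM : M₀ ≤ N * ((len a : ℝ) / Q) := by
        have h1 : (Q : ℝ) * max M₀ 0 ≤ N := (le_max_left _ _).trans hN
        have h2 : (1 : ℝ) ≤ len a := by exact_mod_cast hlen a
        rw [mul_div_assoc', le_div_iff₀ hQR]
        nlinarith [le_max_left M₀ 0, le_max_right M₀ 0]
      have h := hM₀ _ hM s ⟨by linarith [hs.1], by linarith [hs.2]⟩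
      set l : ℝ := (len a : ℝ) / Q with hl'
      have hΓn : ‖Γ a‖ = Real.sqrt l * Real.sqrt T := by
        rw [← Real.sqrt_mul (hl a).le, ← Real.sqrt_sq (norm_nonneg (Γ a)), hΓ a]
        congr 1; ring
      have hΓe : Γ a = (Real.sqrt l : ℂ) * (Real.sqrt T : ℂ) *
          e (Complex.arg (Γ a) / (2 * Real.pi)) := by
        have h1 := Complex.norm_mul_exp_arg_mul_I (Γ a)
        have h2 : e (Complex.arg (Γ a) / (2 * Real.pi)) = Complex.exp (Complex.arg (Γ a) * Complex.I) := by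
          unfold e; congr 3; field_simp
        rw [h2, ← Complex.ofReal_mul, ← hΓn]; exact h1.symm
      have hsT : (Real.sqrt T : ℂ) ≠ 0 := by exact_mod_cast (Real.sqrt_pos.2 hTR).ne'
      have hsr : (Real.sqrt (r₁ s) : ℂ) ≠ 0 := by exact_mod_cast (Real.sqrt_pos.2 hr1s).ne'
      have key : X t a - Γ a * e (-(k * st t a / Q) + len a * H) / (Real.sqrt (T * r₁ s) : ℂ) =
          (Real.sqrt l : ℂ) * e (Complex.arg (Γ a) / (2 * Real.pi) - 1 / 8 - k * st t a / Q) *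
          ((Real.sqrt (N * l) : ℂ) * (∫ x in γ..(1 - γ), e (N * l * (g x - r s * x))) -
            e (1 / 8) * e (N * l * (g s - r s * s)) / (Real.sqrt (r₁ s) : ℂ)) := by
        simp only [hX]
        rw [← hrs, Real.sqrt_mul hN0.le, Real.sqrt_mul hTR.le, mul_sub]
        congr 1
        · have : ((l : ℝ) : ℂ) = (Real.sqrt l : ℂ) * (Real.sqrt l : ℂ) := by
            rw [← Complex.ofReal_mul, Real.mul_self_sqrt (hl a).le]
          rw [← hl']
          push_cast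
          conv_lhs => rw [this]
          ring
        · have e1 : e (Complex.arg (Γ a) / (2 * Real.pi)) * e (-(k * st t a / Q) + len a * H) =
              e (Complex.arg (Γ a) / (2 * Real.pi) - 1 / 8 - k * st t a / Q) *
                (e (1 / 8) * e (N * l * (g s - r s * s))) := by
            rw [← e_add, ← e_add, ← e_add]; congr 1; rw [hH, hl']; ring
          conv_lhs => rw [hΓe]
          rw [mul_assoc _ (e _), e1]
          push_cast
          field_simp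
      rw [key, norm_mul, norm_mul, norm_e, mul_one, Complex.norm_real, Real.norm_eq_abs,
        abs_of_nonneg (Real.sqrt_nonneg _)]
      exact (mul_le_of_le_one_left (norm_nonneg _) (Real.sqrt_le_one.2 (hl1 a))).trans h
    have h1 : ‖∑ a, X t a - (∑ a, Γ a * e (-(k * st t a / Q) + len a * H)) /
        (Real.sqrt (T * r₁ s) : ℂ)‖ ≤ u / 4 := by
      rw [sum_div, ← sum_sub_distrib]
      refine (norm_sum_le _ _).trans ((sum_le_sum fun a _ => hterm a).trans ?_)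
      simp only [sum_const, card_univ, Fintype.card_fin, nsmul_eq_mul]
      rw [mul_div_assoc', div_le_div_iff₀ (by positivity) (by positivity)]
      nlinarith
    have h2 := two_re_le (∑ a, X t a - (∑ a, Γ a * e (-(k * st t a / Q) + len a * H)) /
        (Real.sqrt (T * r₁ s) : ℂ))
    rw [Complex.sub_re, Complex.div_ofReal_re] at h2
    have h3 : |2 * ((∑ a, Γ a * e (-(k * st t a / Q) + len a * H)).re / Real.sqrt (T * r₁ s))| ≤
        (1 + η) / Real.sqrt (T * m) := by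
      rw [mul_div_assoc', abs_div, abs_of_pos hsq]
      exact div_le_div₀ hη (hf t k H) (Real.sqrt_pos.2 (by positivity))
        (Real.sqrt_le_sqrt (mul_le_mul_of_nonneg_left (hlow s) hTR.le))
    have h4 := abs_add_le (2 * ((∑ a, X t a).re -
      (∑ a, Γ a * e (-(k * st t a / Q) + len a * H)).re / Real.sqrt (T * r₁ s)))
      (2 * ((∑ a, Γ a * e (-(k * st t a / Q) + len a * H)).re / Real.sqrt (T * r₁ s)))
    rw [← mul_add, sub_add_cancel] at h4
    linarith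
  -- at most one near slice
  have huniq : ∀ t t' : Fin T, ∀ s ∈ Set.Icc (2 * γ) (1 - 2 * γ), ∀ s' ∈ Set.Icc (2 * γ) (1 - 2 * γ),
      r s = k / N - (τ₀ + (t : ℕ) * ω) → r s' = k / N - (τ₀ + (t' : ℕ) * ω) → t = t' := by
    have hin : ∀ s ∈ Set.Icc (2 * γ) (1 - 2 * γ), 0 < r s ∧ r s < ω := by
      intro s hs
      have h1 := slope_le r r₁ m hr hlow (x := 0) (y := s) (by linarith [hs.1])
      have h2 := slope_le r r₁ m hr hlow (x := s) (y := 1) (by linarith [hs.2])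
      constructor <;> nlinarith [hs.1, hs.2, mul_pos hm hγ]
    intro t t' s hs s' hs' h h'
    have h1 := hin s hs
    have h2 := hin s' hs'
    have hω : 0 < ω := h1.1.trans h1.2
    have h3 : ((t : ℕ) : ℝ) < (t' : ℕ) + 1 := by nlinarith
    have h4 : ((t' : ℕ) : ℝ) < (t : ℕ) + 1 := by nlinarith
    have h5 : (t : ℕ) < t' + 1 := by exact_mod_cast h3
    have h6 : (t' : ℕ) < t + 1 := by exact_mod_cast h4
    exact Fin.ext (by omega)
  have htot : |2 * (∑ t, ∑ a, X t a).re| ≤ ((1 + η) / Real.sqrt (T * m) + u / 2) + T * (A * (2 * ε₂)) := by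
    rw [Complex.re_sum, mul_sum]
    refine (abs_sum_le_sum_abs _ _).trans ?_
    have hP : 0 ≤ (1 + η) / Real.sqrt (T * m) + u / 2 := by positivity
    by_cases hex : ∃ t : Fin T, ∃ s ∈ Set.Icc (2 * γ) (1 - 2 * γ), r s = k / N - (τ₀ + (t : ℕ) * ω)
    · obtain ⟨t₀, s₀, hs₀, h₀⟩ := hex
      have : ∀ t ∈ (univ : Finset (Fin T)), |2 * (∑ a, X t a).re| ≤
          (if t = t₀ then (1 + η) / Real.sqrt (T * m) + u / 2 else 0) + A * (2 * ε₂) := by
        intro t _
        split_ifs with ht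
        · subst ht
          have := hnear t s₀ hs₀ h₀
          have : (0 : ℝ) ≤ A * (2 * ε₂) := by positivity
          linarith
        · rw [zero_add]
          exact hfar t fun v hv h => ht (huniq t t₀ v hv s₀ hs₀ h h₀)
      refine (sum_le_sum this).trans (le_of_eq ?_)
      rw [sum_add_distrib, sum_ite_eq']
      simp
    · push Not at hex
      refine (sum_le_sum fun t _ => hfar t (hex t)).trans ?_
      simp only [sum_const, card_univ, Fintype.card_fin, nsmul_eq_mul]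
      linarith
  refine htot.trans ?_
  have h5 : (T : ℝ) * A * (2 * (1 / (Real.sqrt N * (m * γ)))) ≤ u / 2 := by
    have h6 : 1 / (Real.sqrt N * (m * γ)) ≤ 1 / (B * (m * γ)) :=
      one_div_le_one_div_of_le (by positivity) (mul_le_mul_of_nonneg_right hsN (by positivity))
    have h7 : 1 / (B * (m * γ)) = u / (4 * (T * A + 1)) := by rw [hB]; field_simp
    have h8 : (T : ℝ) * A * (2 * (u / (4 * (T * A + 1)))) ≤ u / 2 := by
      rw [mul_div_assoc', mul_div_assoc', div_le_div_iff₀ (by positivity) (by positivity)]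
      nlinarith
    refine le_trans ?_ h8
    rw [← h7]
    gcongr
  have : (T : ℝ) * (A * (2 * ε₂)) = T * A * (16 / Real.sqrt (m * Λ)) +
      T * A * (2 * (1 / (Real.sqrt N * (m * γ)))) := by rw [hε₂]; ring
  linarith

end Crest.Agent.UF
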