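import Crest.Agent.UF.Osc

set_option autoImplicit false
open Finset

namespace Crest.Agent.UF

/-- trapezoid: `0` outside `(0,1)`, `1` on `[γ,1-γ]`, linear in between. -/
noncomputable def trap (γ v : ℝ) : ℝ := max 0 (min 1 (min (v / γ) ((1 - v) / γ)))

/-- clamp to `[γ, 1-γ]`. -/
noncomputable def clamp (γ v : ℝ) : ℝ := max γ (min (1 - γ) v)

lemma trap_nonneg (γ v : ℝ) : 0 ≤ trap γ v := le_max_left _ _

lemma trap_le_one (γ v : ℝ) : trap γ v ≤ 1 := max_le zero_le_one (min_le_left _ _)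

lemma trap_eq_zero {γ v : ℝ} (hγ : 0 < γ) (hv : v ≤ 0 ∨ 1 ≤ v) : trap γ v = 0 := by
  unfold trap
  apply max_eq_left
  rcases hv with h | h
  · exact (min_le_right _ _).trans ((min_le_left _ _).trans (div_nonpos_of_nonpos_of_nonneg h hγ.le))
  · exact (min_le_right _ _).trans ((min_le_right _ _).trans
      (div_nonpos_of_nonpos_of_nonneg (by linarith) hγ.le))

lemma trap_left {γ v : ℝ} (hγ : 0 < γ) (hγ2 : γ ≤ 1 / 2) (h0 : 0 ≤ v) (h1 : v ≤ γ) :
    trap γ v = v / γ := by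
  unfold trap
  have h2 : v / γ ≤ 1 := (div_le_one hγ).2 h1
  have h3 : v / γ ≤ (1 - v) / γ := div_le_div_of_nonneg_right (by linarith) hγ.le
  rw [min_eq_left h3, min_eq_right h2, max_eq_right (div_nonneg h0 hγ.le)]

lemma trap_right {γ v : ℝ} (hγ : 0 < γ) (hγ2 : γ ≤ 1 / 2) (h0 : 1 - γ ≤ v) (h1 : v ≤ 1) :
    trap γ v = (1 - v) / γ := by
  unfold trap
  have h2 : (1 - v) / γ ≤ 1 := (div_le_one hγ).2 (by linarith)
  have h3 : (1 - v) / γ ≤ v / γ := div_le_div_of_nonneg_right (by linarith) hγ.le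
  rw [min_eq_right h3, min_eq_right h2, max_eq_right (div_nonneg (by linarith) hγ.le)]

lemma trap_mid {γ v : ℝ} (hγ : 0 < γ) (h0 : γ ≤ v) (h1 : v ≤ 1 - γ) : trap γ v = 1 := by
  unfold trap
  have h2 : 1 ≤ v / γ := (one_le_div hγ).2 h0
  have h3 : 1 ≤ (1 - v) / γ := (one_le_div hγ).2 (by linarith)
  rw [min_eq_left (le_min h2 h3), max_eq_right zero_le_one]

lemma trap_lip {γ : ℝ} (hγ : 0 < γ) (v w : ℝ) : |trap γ v - trap γ w| ≤ |v - w| / γ := by
  unfold trap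
  refine (abs_max_sub_max_le_max _ _ _ _).trans (max_le (by simp; positivity) ?_)
  refine (abs_min_sub_min_le_max _ _ _ _).trans (max_le (by simp; positivity) ?_)
  refine (abs_min_sub_min_le_max _ _ _ _).trans (max_le ?_ ?_)
  · rw [← sub_div, abs_div, abs_of_pos hγ]
  · rw [← sub_div, abs_div, abs_of_pos hγ]
    have : 1 - v - (1 - w) = -(v - w) := by ring
    rw [this, abs_neg]

lemma clamp_mem {γ : ℝ} (hγ : 0 < γ) (hγ2 : γ ≤ 1 / 2) (v : ℝ) : clamp γ v ∈ Set.Icc (0 : ℝ) 1 := by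
  unfold clamp
  constructor
  · exact hγ.le.trans (le_max_left _ _)
  · exact max_le (by linarith) ((min_le_left _ _).trans (by linarith))

lemma clamp_left {γ v : ℝ} (h1 : v ≤ γ) : clamp γ v = γ := by
  unfold clamp; exact max_eq_left ((min_le_right _ _).trans h1)

lemma clamp_right {γ v : ℝ} (hγ2 : γ ≤ 1 / 2) (h1 : 1 - γ ≤ v) : clamp γ v = 1 - γ := by
  unfold clamp; rw [min_eq_left h1, max_eq_right (by linarith)]

lemma clamp_mid {γ v : ℝ} (h0 : γ ≤ v) (h1 : v ≤ 1 - γ) : clamp γ v = v := by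
  unfold clamp; rw [min_eq_right h1, max_eq_right h0]

lemma clamp_lip (γ v w : ℝ) : |clamp γ v - clamp γ w| ≤ |v - w| := by
  unfold clamp
  refine (abs_max_sub_max_le_max _ _ _ _).trans (max_le (by simp) ?_)
  refine (abs_min_sub_min_le_max _ _ _ _).trans (max_le (by simp) le_rfl)

/-- Lipschitz bound of a `C¹` function on `[0,1]`. -/
lemma exists_lip_unit (R R₁ : ℝ → ℝ) (hR : ∀ v, HasDerivAt R (R₁ v) v) (hc : Continuous R₁) :
    ∃ K : ℝ, 0 ≤ K ∧ ∀ v ∈ Set.Icc (0 : ℝ) 1, ∀ w ∈ Set.Icc (0 : ℝ) 1, |R v - R w| ≤ K * |v - w| := by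
  obtain ⟨K, hK⟩ := (isCompact_Icc (a := (0 : ℝ)) (b := 1)).exists_bound_of_continuousOn
    hc.continuousOn
  refine ⟨K, (norm_nonneg _).trans (hK 0 (by simp)), fun v hv w hw => ?_⟩
  have := (convex_Icc (0 : ℝ) 1).norm_image_sub_le_of_norm_hasDerivWithin_le
    (f := R) (f' := R₁) (fun x _ => (hR x).hasDerivWithinAt) hK hw hv
  simpa [Real.norm_eq_abs] using this

/-- profile of a block -/
noncomputable def prof (γ ρ₀ : ℝ) (R : ℝ → ℝ) (v : ℝ) : ℝ := trap γ v * (R (clamp γ v) - ρ₀)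

lemma prof_lip {γ ρ₀ K : ℝ} (hγ : 0 < γ) (hγ2 : γ ≤ 1 / 2) (R : ℝ → ℝ) (hK0 : 0 ≤ K)
    (hK : ∀ v ∈ Set.Icc (0 : ℝ) 1, ∀ w ∈ Set.Icc (0 : ℝ) 1, |R v - R w| ≤ K * |v - w|)
    (hb : ∀ v ∈ Set.Icc (0 : ℝ) 1, |R v - ρ₀| ≤ 1) (v w : ℝ) :
    |prof γ ρ₀ R v - prof γ ρ₀ R w| ≤ (1 / γ + K) * |v - w| := by
  unfold prof
  have h1 := trap_lip hγ v w
  have h2 := hK _ (clamp_mem hγ hγ2 v) _ (clamp_mem hγ hγ2 w)
  have h3 := clamp_lip γ v w
  have h4 := hb _ (clamp_mem hγ hγ2 v)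
  have e1 : trap γ v * (R (clamp γ v) - ρ₀) - trap γ w * (R (clamp γ w) - ρ₀) =
      (trap γ v - trap γ w) * (R (clamp γ v) - ρ₀) + trap γ w * (R (clamp γ v) - R (clamp γ w)) := by
    ring
  rw [e1]
  refine (abs_add_le _ _).trans ?_
  rw [abs_mul, abs_mul, abs_of_nonneg (trap_nonneg γ w)]
  have h5 : |trap γ v - trap γ w| * |R (clamp γ v) - ρ₀| ≤ |v - w| / γ * 1 :=
    mul_le_mul h1 h4 (abs_nonneg _) (by positivity)
  have h6 : trap γ w * |R (clamp γ v) - R (clamp γ w)| ≤ 1 * (K * |v - w|) :=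
    mul_le_mul (trap_le_one _ _) (h2.trans (mul_le_mul_of_nonneg_left h3 hK0)) (abs_nonneg _)
      zero_le_one
  have : (1 / γ + K) * |v - w| = |v - w| / γ * 1 + 1 * (K * |v - w|) := by ring
  linarith

lemma continuous_of_abs_le {f : ℝ → ℝ} {K : ℝ} (h : ∀ v w, |f v - f w| ≤ K * |v - w|) :
    Continuous f := by
  have hK : 0 ≤ K := by
    have := h 1 0
    simp at this
    exact (abs_nonneg _).trans this
  have : LipschitzWith ⟨K, hK⟩ f := LipschitzWith.of_dist_le_mul (fun v w => by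
    rw [Real.dist_eq, Real.dist_eq]; exact h v w)
  exact this.continuous

/-- A primitive along an affine parametrisation of a piece. -/
lemma prim_piece (Ψ ρ : ℝ → ℝ) (hΨ : ∀ y, HasDerivAt Ψ (ρ y) y) (y₀ l v₁ v₂ : ℝ) (P p : ℝ → ℝ)
    (hP : ∀ v, HasDerivAt P (p v) v) (h : ∀ v ∈ Set.Icc v₁ v₂, ρ (y₀ + l * v) = p v) :
    ∀ v ∈ Set.Icc v₁ v₂, Ψ (y₀ + l * v) = Ψ (y₀ + l * v₁) + l * (P v - P v₁) := by
  have hd : ∀ v, HasDerivAt (fun v => Ψ (y₀ + l * v) - l * P v) (ρ (y₀ + l * v) * l - l * p v) v := by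
    intro v
    have h1 : HasDerivAt (fun v => y₀ + l * v) l v := by
      simpa using ((hasDerivAt_id v).const_mul l).const_add y₀
    exact ((hΨ _).comp v h1).sub ((hP v).const_mul l)
  have hc : ∀ v ∈ Set.Icc v₁ v₂, (fun v => Ψ (y₀ + l * v) - l * P v) v =
      (fun v => Ψ (y₀ + l * v) - l * P v) v₁ := by
    apply constant_of_has_deriv_right_zero
    · exact fun v _ => (hd v).continuousAt.continuousWithinAt
    · intro v hv
      have := (hd v).hasDerivWithinAt (s := Set.Ici v)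
      rw [h v (Set.Ico_subset_Icc_self hv)] at this
      simpa [mul_comm] using this
  intro v hv
  have := hc v hv
  simp only at this
  linarith

/-- a quadratic phase with large curvature -/
lemma quad_bound (a b c₀ c₁ c₂ l : ℝ) (hab : a ≤ b) (hl : 0 < l) (hc : l ≤ |2 * c₂|) :
    ‖∫ x in a..b, e (c₀ + c₁ * x + c₂ * x ^ 2)‖ ≤ 4 / Real.sqrt l := by
  apply second_deriv_test (fun x => c₀ + c₁ * x + c₂ * x ^ 2) (fun x => c₁ + 2 * c₂ * x)
    (fun _ => 2 * c₂) a b l hab hl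
  · intro x _
    have := (((hasDerivAt_id x).const_mul c₁).const_add c₀).add
      (((hasDerivAt_id x).pow 2).const_mul c₂)
    refine (this.congr_deriv ?_)
    simp; ring
  · intro x _
    simpa using ((hasDerivAt_id x).const_mul (2 * c₂)).const_add c₁
  · exact continuousOn_const
  · rcases le_abs.1 hc with h | h
    · exact Or.inl fun _ _ => h
    · exact Or.inr fun _ _ => by linarith

lemma quick_est {l γ ρ₀ N : ℝ} (hl : l ≠ 0) (hl1 : |l| ≤ 1) (hγ : 0 < γ) (hρ₀ : 0 < ρ₀)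
    (hN : 0 < N) : |l| * (4 / Real.sqrt (N * |l| * ρ₀ / γ)) ≤ 4 * Real.sqrt (γ / (ρ₀ * N)) := by
  have hl0 : 0 < |l| := abs_pos.2 hl
  have h1 : 0 < Real.sqrt (N * |l| * ρ₀ / γ) := Real.sqrt_pos.2 (by positivity)
  rw [mul_div_assoc', div_le_iff₀ h1, mul_assoc, ← Real.sqrt_mul (by positivity)]
  have h2 : γ / (ρ₀ * N) * (N * |l| * ρ₀ / γ) = |l| := by field_simp
  rw [h2]
  have h3 : |l| ≤ Real.sqrt |l| := by
    apply Real.le_sqrt_of_sq_le; nlinarith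
  linarith

lemma block_integral (Ψ ρ β : ℝ → ℝ) (hΨ : ∀ y, HasDerivAt Ψ (ρ y) y) (hβc : Continuous β)
    (y₀ l γ ρ₀ N b k : ℝ) (R G : ℝ → ℝ) (hG : ∀ v, HasDerivAt G (R v) v) (hγ : 0 < γ)
    (hγ2 : γ ≤ 1 / 2) (hl : l ≠ 0) (hl1 : |l| ≤ 1) (hρ₀ : 0 < ρ₀) (hN : 0 < N)
    (hR1 : 2 * ρ₀ ≤ R γ) (hR2 : 2 * ρ₀ ≤ R (1 - γ))
    (hρ : ∀ v ∈ Set.Icc (0 : ℝ) 1, ρ (y₀ + l * v) = ρ₀ + prof γ ρ₀ R v)
    (hβ : ∀ v ∈ Set.Icc (0 : ℝ) 1, β (y₀ + l * v) = b * trap γ v) :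
    ‖((|l| : ℝ) : ℂ) * (∫ v in (0 : ℝ)..1, e (N * Ψ (y₀ + l * v) + β (y₀ + l * v) - k * (y₀ + l * v))) -
      ((|l| : ℝ) : ℂ) * (e (N * Ψ (y₀ + l * γ) - N * l * G γ + b - k * y₀) *
        ∫ v in γ..(1 - γ), e (N * l * G v - k * l * v))‖ ≤ 8 * Real.sqrt (γ / (ρ₀ * N)) := by
  have hΨc : Continuous Ψ := continuous_iff_continuousAt.2 fun y => (hΨ y).continuousAt
  set F : ℝ → ℂ := fun v => e (N * Ψ (y₀ + l * v) + β (y₀ + l * v) - k * (y₀ + l * v)) with hF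
  have hFc : Continuous F := continuous_e.comp (by fun_prop)
  have hsplit : ∫ v in (0 : ℝ)..1, F v =
      (∫ v in (0 : ℝ)..γ, F v) + (∫ v in γ..(1 - γ), F v) + ∫ v in (1 - γ)..1, F v := by
    rw [intervalIntegral.integral_add_adjacent_intervals (hFc.intervalIntegrable _ _)
      (hFc.intervalIntegrable _ _), intervalIntegral.integral_add_adjacent_intervals
      (hFc.intervalIntegrable _ _) (hFc.intervalIntegrable _ _)]
  have hl0 : 0 < |l| := abs_pos.2 hl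
  have hpos : 0 < N * |l| * ρ₀ / γ := by positivity
  -- first piece
  have h1 : ‖∫ v in (0 : ℝ)..γ, F v‖ ≤ 4 / Real.sqrt (N * |l| * ρ₀ / γ) := by
    have hp := prim_piece Ψ ρ hΨ y₀ l 0 γ (fun v => ρ₀ * v + (R γ - ρ₀) / (2 * γ) * v ^ 2)
      (fun v => ρ₀ + v / γ * (R γ - ρ₀)) (fun v => by
        have := ((hasDerivAt_id v).const_mul ρ₀).add
          (((hasDerivAt_id v).pow 2).const_mul ((R γ - ρ₀) / (2 * γ)))
        refine this.congr_deriv ?_
        simp; field_simp) (fun v hv => by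
        rw [hρ v ⟨hv.1, by linarith [hv.2]⟩, prof, trap_left hγ hγ2 hv.1 hv.2, clamp_left hv.2])
    rw [intervalIntegral.integral_congr (g := fun v => e ((N * Ψ (y₀ + l * 0) - k * y₀) +
      (N * l * ρ₀ + b / γ - k * l) * v + (N * l * ((R γ - ρ₀) / (2 * γ))) * v ^ 2))]
    · apply quad_bound _ _ _ _ _ _ hγ.le hpos
      have : 2 * (N * l * ((R γ - ρ₀) / (2 * γ))) = l * (N * (R γ - ρ₀) / γ) := by field_simp
      rw [this, abs_mul, abs_of_nonneg (a := N * (R γ - ρ₀) / γ)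
        (div_nonneg (mul_nonneg hN.le (by linarith)) hγ.le), mul_div_assoc', div_le_div_iff_of_pos_right hγ]
      nlinarith [mul_pos hN hl0]
    · intro v hv
      rw [Set.uIcc_of_le hγ.le] at hv
      simp only [hF]
      rw [hp v hv, hβ v ⟨hv.1, by linarith [hv.2]⟩, trap_left hγ hγ2 hv.1 hv.2]
      congr 1; ring
  have h3 : ‖∫ v in (1 - γ)..1, F v‖ ≤ 4 / Real.sqrt (N * |l| * ρ₀ / γ) := by
    have hp := prim_piece Ψ ρ hΨ y₀ l (1 - γ) 1
      (fun v => (ρ₀ + (R (1 - γ) - ρ₀) / γ) * v - (R (1 - γ) - ρ₀) / (2 * γ) * v ^ 2)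
      (fun v => ρ₀ + (1 - v) / γ * (R (1 - γ) - ρ₀)) (fun v => by
        have := ((hasDerivAt_id v).const_mul (ρ₀ + (R (1 - γ) - ρ₀) / γ)).sub
          (((hasDerivAt_id v).pow 2).const_mul ((R (1 - γ) - ρ₀) / (2 * γ)))
        refine this.congr_deriv ?_
        simp; field_simp; ring) (fun v hv => by
        rw [hρ v ⟨by linarith [hv.1], hv.2⟩, prof, trap_right hγ hγ2 hv.1 hv.2,
          clamp_right hγ2 hv.1])
    rw [intervalIntegral.integral_congr (g := fun v => e ((N * Ψ (y₀ + l * (1 - γ)) - k * y₀ + b / γ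
      - N * l * ((ρ₀ + (R (1 - γ) - ρ₀) / γ) * (1 - γ) - (R (1 - γ) - ρ₀) / (2 * γ) * (1 - γ) ^ 2)) +
      (N * l * (ρ₀ + (R (1 - γ) - ρ₀) / γ) - b / γ - k * l) * v +
        (-(N * l * ((R (1 - γ) - ρ₀) / (2 * γ)))) * v ^ 2))]
    · apply quad_bound _ _ _ _ _ _ (by linarith) hpos
      have : 2 * (-(N * l * ((R (1 - γ) - ρ₀) / (2 * γ)))) = -(l * (N * (R (1 - γ) - ρ₀) / γ)) := by
        field_simp
      rw [this, abs_neg, abs_mul, abs_of_nonneg (a := N * (R (1 - γ) - ρ₀) / γ)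
        (div_nonneg (mul_nonneg hN.le (by linarith)) hγ.le), mul_div_assoc', div_le_div_iff_of_pos_right hγ]
      nlinarith [mul_pos hN hl0]
    · intro v hv
      rw [Set.uIcc_of_le (by linarith)] at hv
      simp only [hF]
      rw [hp v hv, hβ v ⟨by linarith [hv.1], hv.2⟩, trap_right hγ hγ2 hv.1 hv.2]
      congr 1; ring
  have h2 : ∫ v in γ..(1 - γ), F v = e (N * Ψ (y₀ + l * γ) - N * l * G γ + b - k * y₀) *
        ∫ v in γ..(1 - γ), e (N * l * G v - k * l * v) := by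
    have hp := prim_piece Ψ ρ hΨ y₀ l γ (1 - γ) G R hG (fun v hv => by
        rw [hρ v ⟨by linarith [hv.1], by linarith [hv.2]⟩, prof, trap_mid hγ hv.1 hv.2,
          clamp_mid hv.1 hv.2]; ring)
    rw [← intervalIntegral.integral_const_mul]
    apply intervalIntegral.integral_congr
    intro v hv
    rw [Set.uIcc_of_le (by linarith)] at hv
    simp only [hF]
    rw [hp v hv, hβ v ⟨by linarith [hv.1], by linarith [hv.2]⟩, trap_mid hγ hv.1 hv.2, ← e_add]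
    congr 1; ring
  rw [hsplit, h2]
  have e1 : ∀ x y z : ℂ, ((|l| : ℝ) : ℂ) * (x + y + z) - ((|l| : ℝ) : ℂ) * y =
      ((|l| : ℝ) : ℂ) * (x + z) := fun x y z => by ring
  rw [e1, norm_mul, Complex.norm_real, Real.norm_eq_abs, abs_abs]
  have h4 := quick_est hl hl1 hγ hρ₀ hN
  calc |l| * ‖(∫ v in (0 : ℝ)..γ, F v) + ∫ v in (1 - γ)..1, F v‖
      ≤ |l| * (4 / Real.sqrt (N * |l| * ρ₀ / γ) + 4 / Real.sqrt (N * |l| * ρ₀ / γ)) :=
        mul_le_mul_of_nonneg_left ((norm_add_le _ _).trans (add_le_add h1 h3)) hl0.le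
    _ ≤ _ := by rw [mul_add]; linarith

/-- The chirp conditions used by `approx_poly`. -/
def IsChirp (η C : ℝ) (N : ℕ) (ψ : ℝ → ℝ) : Prop :=
  ContinuousOn ψ (Set.Icc 0 (1 / 2)) ∧ ψ 0 = 0 ∧ (∃ n : ℤ, 2 * ψ (1 / 2) = n) ∧
      (∀ θ ∈ Set.Icc (0 : ℝ) (1 / 2), ∃ n : ℤ, η * N ≤ n ∧ (n : ℝ) ≤ (1 - η) * N ∧
        ∀ y ∈ Set.Icc (0 : ℝ) (1 / 2), ∀ y' ∈ Set.Icc (0 : ℝ) (1 / 2),
          |ψ y - ψ y' - n * (y - y')| ≤ C * (N * max |y - θ| |y' - θ| + 1) * |y - y'|)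

theorem blocks_chirp {ι : Type} [Fintype ι] (y₀ l : ι → ℝ) (R R₁ G : ι → ℝ → ℝ) (γ ρ₀ : ℝ)
    (hγ : 0 < γ) (hγ2 : γ ≤ 1 / 2) (hρ₀ : 0 < ρ₀) (hρ1 : ρ₀ ≤ 1 / 4)
    (hl : ∀ i, l i ≠ 0) (hl1 : ∀ i, |l i| ≤ 1)
    (hG : ∀ i v, HasDerivAt (G i) (R i v) v) (hR : ∀ i v, HasDerivAt (R i) (R₁ i v) v)
    (hR₁ : ∀ i, Continuous (R₁ i))
    (hrange : ∀ i, ∀ v ∈ Set.Icc (0 : ℝ) 1, 2 * ρ₀ ≤ R i v ∧ R i v ≤ 1 - 2 * ρ₀)
    (hdisj : ∀ i j, i ≠ j → ∀ v ∈ Set.Icc (0 : ℝ) 1, ∀ w ∈ Set.Ioo (0 : ℝ) 1,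
      y₀ i + l i * v ≠ y₀ j + l j * w)
    (hend : ∀ j, ∀ w ∈ Set.Ioo (0 : ℝ) 1, y₀ j + l j * w ≠ 0 ∧ y₀ j + l j * w ≠ 1 / 2)
    (htile : ∀ F : ℝ → ℂ, Continuous F → ∫ y in (0 : ℝ)..(1 / 2), F y =
      ∑ i, ((|l i| : ℝ) : ℂ) * ∫ v in (0 : ℝ)..1, F (y₀ i + l i * v)) :
    ∃ C : ℝ, 0 < C ∧ ∀ N : ℕ, 3 / ρ₀ ≤ N → ∃ N' : ℝ, N - 1 / ρ₀ ≤ N' ∧ N' ≤ N ∧ ∀ c : ι → ℝ,
      ∃ ψ : ℝ → ℝ, IsChirp (ρ₀ / 2) C N ψ ∧ ∀ k : ℝ,
        ‖(∫ y in (0 : ℝ)..(1 / 2), e (ψ y - k * y)) - ∑ i, ((|l i| : ℝ) : ℂ) * (e (c i - k * y₀ i) *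
          ∫ v in γ..(1 - γ), e (N' * l i * G i v - k * l i * v))‖ ≤
          Fintype.card ι * (8 * Real.sqrt (γ / (ρ₀ * N'))) := by
  classical
  choose K hK0 hK using fun i => exists_lip_unit (R i) (R₁ i) (hR i) (hR₁ i)
  have hl0 : ∀ i, 0 < |l i| := fun i => abs_pos.2 (hl i)
  set V : ι → ℝ → ℝ := fun i y => (y - y₀ i) / l i with hV
  have hVv : ∀ i v, V i (y₀ i + l i * v) = v := fun i v => by
    simp only [hV]; field_simp [hl i]; ring
  have hVy : ∀ i y, y₀ i + l i * V i y = y := fun i y => by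
    simp only [hV]; field_simp [hl i]; ring
  have hVl : ∀ i y y', |V i y - V i y'| = |y - y'| / |l i| := fun i y y' => by
    simp only [hV]; rw [← sub_div, abs_div]; congr 2; ring
  have hout : ∀ j y, (∀ w ∈ Set.Ioo (0 : ℝ) 1, y ≠ y₀ j + l j * w) → trap γ (V j y) = 0 := by
    intro j y h
    apply trap_eq_zero hγ
    by_contra hc
    push Not at hc
    exact h (V j y) ⟨hc.1, hc.2⟩ (hVy j y).symm
  set ρ : ℝ → ℝ := fun y => ρ₀ + ∑ i, prof γ ρ₀ (R i) (V i y) with hρ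
  set L : ℝ := ∑ i, (1 / γ + K i) / |l i| with hL
  have hL0 : 0 ≤ L := sum_nonneg fun i _ => div_nonneg (add_nonneg (by positivity) (hK0 i)) (hl0 i).le
  have hρL : ∀ y y', |ρ y - ρ y'| ≤ L * |y - y'| := by
    intro y y'
    simp only [hρ, hL]
    rw [add_sub_add_left_eq_sub, ← sum_sub_distrib, sum_mul]
    refine (abs_sum_le_sum_abs _ _).trans (sum_le_sum fun i _ => ?_)
    have := prof_lip (ρ₀ := ρ₀) hγ hγ2 (R i) (hK0 i) (hK i) (fun v hv => by
      have := hrange i v hv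
      rw [abs_le]; constructor <;> linarith) (V i y) (V i y')
    rw [hVl] at this
    refine this.trans (le_of_eq ?_); ring
  have hρc : Continuous ρ := continuous_of_abs_le hρL
  have hρblock : ∀ i, ∀ v ∈ Set.Icc (0 : ℝ) 1, ρ (y₀ i + l i * v) = ρ₀ + prof γ ρ₀ (R i) v := by
    intro i v hv
    simp only [hρ]
    rw [sum_eq_single i, hVv]
    · intro j _ hj
      rw [prof, hout j _ (fun w hw => hdisj i j (Ne.symm hj) v hv w hw), zero_mul]
    · simp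
  have hρrange : ∀ y, ρ₀ ≤ ρ y ∧ ρ y ≤ 1 - 2 * ρ₀ := by
    intro y
    by_cases h : ∃ i, ∃ w ∈ Set.Ioo (0 : ℝ) 1, y = y₀ i + l i * w
    · obtain ⟨i, w, hw, rfl⟩ := h
      rw [hρblock i w (Set.Ioo_subset_Icc_self hw), prof]
      have h1 := hrange i _ (clamp_mem hγ hγ2 w)
      have h2 := trap_nonneg γ w
      have h3 := trap_le_one γ w
      constructor <;> nlinarith
    · push Not at h
      have : ρ y = ρ₀ := by
        simp only [hρ]
        rw [sum_eq_zero, add_zero]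
        intro j _
        rw [prof, hout j y (h j), zero_mul]
      rw [this]; constructor <;> linarith
  set Ψ : ℝ → ℝ := fun y => ∫ x in (0 : ℝ)..y, ρ x with hΨ
  have hΨd : ∀ y, HasDerivAt Ψ (ρ y) y := fun y => (hρc.integral_hasStrictDerivAt 0 y).hasDerivAt
  have hΨc : Continuous Ψ := continuous_iff_continuousAt.2 fun y => (hΨd y).continuousAt
  have hΨhalf : ρ₀ / 2 ≤ Ψ (1 / 2) := by
    have := intervalIntegral.integral_mono_on (μ := MeasureTheory.volume) (f := fun _ => ρ₀) (g := ρ)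
      (by norm_num : (0 : ℝ) ≤ 1 / 2) (continuous_const.intervalIntegrable _ _)
      (hρc.intervalIntegrable _ _) (fun x _ => (hρrange x).1)
    simp only [intervalIntegral.integral_const, smul_eq_mul] at this
    simp only [hΨ]; linarith
  set Lβ : ℝ := ∑ i, 1 / (γ * |l i|) with hLβ
  have hLβ0 : 0 ≤ Lβ := sum_nonneg fun i _ => by have := hl0 i; positivity
  refine ⟨L + Lβ + 1, by linarith, fun N hN => ?_⟩
  have hP : 0 < 2 * Ψ (1 / 2) := by linarith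
  set N' : ℝ := (⌊2 * Ψ (1 / 2) * N⌋ : ℝ) / (2 * Ψ (1 / 2)) with hN'
  have hN'1 : N' ≤ N := by
    rw [hN', div_le_iff₀ hP, mul_comm]; exact Int.floor_le _
  have hN'2 : N - 1 / ρ₀ ≤ N' := by
    rw [hN', le_div_iff₀ hP]
    have h1 := Int.lt_floor_add_one (2 * Ψ (1 / 2) * N)
    have h2 : 1 ≤ 1 / ρ₀ * (2 * Ψ (1 / 2)) := by
      rw [div_mul_eq_mul_div, le_div_iff₀ hρ₀]; linarith
    nlinarith
  have h3ρ : 3 ≤ ρ₀ * N := by rwa [div_le_iff₀' hρ₀] at hN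
  have hN'pos : 0 < N' := by
    have : 1 / ρ₀ < 3 / ρ₀ := div_lt_div_of_pos_right (by norm_num) hρ₀
    linarith
  refine ⟨N', hN'2, hN'1, fun c => ?_⟩
  set b : ι → ℝ := fun i => Int.fract (c i - (N' * Ψ (y₀ i + l i * γ) - N' * l i * G i γ)) with hb
  set β : ℝ → ℝ := fun y => ∑ i, b i * trap γ (V i y) with hβ
  have hβL : ∀ y y', |β y - β y'| ≤ Lβ * |y - y'| := by
    intro y y'
    simp only [hβ, hLβ]
    rw [← sum_sub_distrib, sum_mul]
    refine (abs_sum_le_sum_abs _ _).trans (sum_le_sum fun i _ => ?_)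
    rw [← mul_sub, abs_mul]
    have h1 := trap_lip hγ (V i y) (V i y')
    rw [hVl] at h1
    have h2 : |b i| ≤ 1 := by
      rw [abs_of_nonneg (Int.fract_nonneg _)]; exact (Int.fract_lt_one _).le
    calc |b i| * |trap γ (V i y) - trap γ (V i y')| ≤ 1 * (|y - y'| / |l i| / γ) :=
          mul_le_mul h2 h1 (abs_nonneg _) zero_le_one
      _ = _ := by have := hl0 i; field_simp
  have hβc : Continuous β := continuous_of_abs_le hβL
  have hβblock : ∀ i, ∀ v ∈ Set.Icc (0 : ℝ) 1, β (y₀ i + l i * v) = b i * trap γ v := by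
    intro i v hv
    simp only [hβ]
    rw [sum_eq_single i, hVv]
    · intro j _ hj
      rw [hout j _ (fun w hw => hdisj i j (Ne.symm hj) v hv w hw), mul_zero]
    · simp
  have hβ0 : β 0 = 0 := sum_eq_zero fun j _ => by
    rw [hout j 0 (fun w hw => (hend j w hw).1.symm), mul_zero]
  have hβ1 : β (1 / 2) = 0 := sum_eq_zero fun j _ => by
    rw [hout j _ (fun w hw => (hend j w hw).2.symm), mul_zero]
  refine ⟨fun y => N' * Ψ y + β y, ⟨by fun_prop, ?_, ?_, ?_⟩, fun k => ?_⟩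
  · simp [hβ0, hΨ]
  · refine ⟨⌊2 * Ψ (1 / 2) * N⌋, ?_⟩
    simp only [hβ1]
    have : N' * (2 * Ψ (1 / 2)) = (⌊2 * Ψ (1 / 2) * N⌋ : ℝ) := by
      rw [hN']; exact div_mul_cancel₀ _ hP.ne'
    linarith
  · intro θ _
    have hr := hρrange θ
    have hround := abs_le.1 (abs_sub_round (N' * ρ θ))
    have hN0 : (0 : ℝ) ≤ N := Nat.cast_nonneg N
    refine ⟨round (N' * ρ θ), ?_, ?_, fun y _ y' _ => ?_⟩
    · have h1 : (N - 1 / ρ₀) * ρ₀ ≤ N' * ρ θ :=
        mul_le_mul hN'2 hr.1 hρ₀.le hN'pos.le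
      have h2 : (N - 1 / ρ₀) * ρ₀ = ρ₀ * N - 1 := by field_simp
      nlinarith
    · have h1 : N' * ρ θ ≤ N * (1 - 2 * ρ₀) :=
        mul_le_mul hN'1 hr.2 (by linarith) hN0
      nlinarith
    · set M := max |y - θ| |y' - θ| with hM
      have hM0 : 0 ≤ M := (abs_nonneg _).trans (le_max_left _ _)
      have h1 : |Ψ y - Ψ y' - ρ θ * (y - y')| ≤ L * M * |y - y'| := by
        have hd : ∀ x ∈ Metric.closedBall θ M, HasDerivWithinAt (fun x => Ψ x - ρ θ * x)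
            (ρ x - ρ θ) (Metric.closedBall θ M) x := fun x _ => by
          have := (hΨd x).sub ((hasDerivAt_id x).const_mul (ρ θ))
          exact (this.congr_deriv (by simp)).hasDerivWithinAt
        have := (convex_closedBall θ M).norm_image_sub_le_of_norm_hasDerivWithin_le
          (C := L * M) hd (fun x hx => by
            rw [Real.norm_eq_abs]
            refine (hρL x θ).trans (mul_le_mul_of_nonneg_left ?_ hL0)
            rwa [Metric.mem_closedBall, Real.dist_eq] at hx)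
          (x := y') (y := y) (by rw [Metric.mem_closedBall, Real.dist_eq]; exact le_max_right _ _)
          (by rw [Metric.mem_closedBall, Real.dist_eq]; exact le_max_left _ _)
        rw [Real.norm_eq_abs, Real.norm_eq_abs] at this
        convert this using 2; ring
      have h2 := hβL y y'
      have e1 : N' * Ψ y + β y - (N' * Ψ y' + β y') - (round (N' * ρ θ) : ℝ) * (y - y') =
          N' * (Ψ y - Ψ y' - ρ θ * (y - y')) + (β y - β y') +
            (N' * ρ θ - (round (N' * ρ θ) : ℝ)) * (y - y') := by ring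
      simp only
      rw [e1]
      refine (abs_add_le _ _).trans ((add_le_add_left (abs_add_le _ _) _).trans ?_)
      rw [abs_mul, abs_mul, abs_of_pos hN'pos]
      have h3 : N' * |Ψ y - Ψ y' - ρ θ * (y - y')| ≤ N * (L * M * |y - y'|) :=
        mul_le_mul hN'1 h1 (abs_nonneg _) hN0
      have h4 : |N' * ρ θ - (round (N' * ρ θ) : ℝ)| * |y - y'| ≤ 1 * |y - y'| :=
        mul_le_mul_of_nonneg_right ((abs_sub_round _).trans (by norm_num)) (abs_nonneg _)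
      have h5 : 0 ≤ N * M * |y - y'| := by positivity
      have h6 : 0 ≤ |y - y'| := abs_nonneg _
      nlinarith [mul_nonneg hLβ0 h5, mul_nonneg hL0 h6]
  · have hFc : Continuous fun y => e (N' * Ψ y + β y - k * y) := continuous_e.comp (by fun_prop)
    simp only
    rw [htile _ hFc, ← sum_sub_distrib]
    refine (norm_sum_le _ _).trans ?_
    rw [← nsmul_eq_mul, ← card_univ, ← sum_const]
    refine sum_le_sum fun i _ => ?_
    have := block_integral Ψ ρ β hΨd hβc (y₀ i) (l i) γ ρ₀ N' (b i) k (R i) (G i) (hG i) hγ hγ2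
      (hl i) (hl1 i) hρ₀ hN'pos (hrange i γ ⟨hγ.le, by linarith⟩).1
      (hrange i (1 - γ) ⟨by linarith, by linarith⟩).1 (hρblock i) (hβblock i)
    have he : e (N' * Ψ (y₀ i + l i * γ) - N' * l i * G i γ + b i - k * y₀ i) = e (c i - k * y₀ i) := by
      rw [← e_add_int _ ⌊c i - (N' * Ψ (y₀ i + l i * γ) - N' * l i * G i γ)⌋]
      congr 1
      simp only [hb, Int.fract]; ring
    rw [he] at this
    exact this

end Crest.Agent.UF
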