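import Mathlib

set_option autoImplicit false

namespace Crest.Agent.UF

/-- `e x = exp (2 π i x)`. -/
noncomputable def e (x : ℝ) : ℂ := Complex.exp (((2 * Real.pi * x : ℝ) : ℂ) * Complex.I)

lemma norm_e (x : ℝ) : ‖e x‖ = 1 := by
  unfold e; exact Complex.norm_exp_ofReal_mul_I _

lemma e_add (x y : ℝ) : e (x + y) = e x * e y := by
  unfold e; rw [← Complex.exp_add]; congr 1; push_cast; ring

lemma e_zero : e 0 = 1 := by unfold e; simp

lemma e_int (n : ℤ) : e n = 1 := by
  unfold e
  have := Complex.exp_int_mul_two_pi_mul_I n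
  rw [← this]; congr 1; push_cast; ring

lemma e_nat (n : ℕ) : e n = 1 := by
  have := e_int n; simpa using this

lemma e_neg (x : ℝ) : e (-x) = (starRingEnd ℂ) (e x) := by
  unfold e; rw [← Complex.exp_conj]; congr 1
  simp only [map_mul, Complex.conj_ofReal, Complex.conj_I]; push_cast; ring

lemma e_add_int (x : ℝ) (n : ℤ) : e (x + n) = e x := by rw [e_add, e_int, mul_one]

lemma e_ne_zero (x : ℝ) : e x ≠ 0 := by unfold e; exact Complex.exp_ne_zero _

lemma e_mul_neg (x : ℝ) : e x * e (-x) = 1 := by rw [← e_add]; simp [e_zero]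

lemma e_nat_mul (n : ℕ) (x : ℝ) : e (n * x) = e x ^ n := by
  unfold e; rw [← Complex.exp_nat_mul]; congr 1; push_cast; ring

lemma continuous_e : Continuous e := by unfold e; fun_prop

lemma hasDerivAt_e (x : ℝ) : HasDerivAt e (2 * Real.pi * Complex.I * e x) x := by
  unfold e
  have h1 : HasDerivAt (fun x : ℝ => ((2 * Real.pi * x : ℝ) : ℂ) * Complex.I)
      (2 * Real.pi * Complex.I) x := by
    have h0 : HasDerivAt (fun x : ℝ => (2 * Real.pi * x : ℝ)) (2 * Real.pi) x := by
      simpa using (hasDerivAt_id x).const_mul (2 * Real.pi)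
    have := (h0.ofReal_comp).mul_const Complex.I
    simpa using this
  have := h1.cexp
  convert this using 1
  ring

lemma norm_e_sub_e_le (x y : ℝ) : ‖e x - e y‖ ≤ 2 * Real.pi * |x - y| := by
  have h : e x - e y = e y * (e (x - y) - 1) := by
    rw [mul_sub, ← e_add]; simp
  rw [h, norm_mul, norm_e, one_mul]
  unfold e
  have := Real.norm_exp_I_mul_ofReal_sub_one_le (x := 2 * Real.pi * (x - y))
  rw [mul_comm] at this
  refine this.trans (le_of_eq ?_)
  rw [Real.norm_eq_abs, abs_mul, abs_of_pos (by positivity : (0:ℝ) < 2 * Real.pi)]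

/-- Every point of the unit circle is `e θ`. -/
lemma exists_e_of_norm_one {z : ℂ} (hz : ‖z‖ = 1) : ∃ θ : ℝ, z = e θ := by
  refine ⟨Complex.arg z / (2 * Real.pi), ?_⟩
  unfold e
  have h2 : (2 * Real.pi * (Complex.arg z / (2 * Real.pi))) = Complex.arg z := by
    field_simp
  rw [h2]
  have := Complex.norm_mul_exp_arg_mul_I z
  rw [hz] at this
  simpa using this.symm

end Crest.Agent.UF
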