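import Crest.Agent.UF.Gauss

set_option autoImplicit false
open Finset

namespace Crest.Agent.UF

/-- positive definite finitely supported weights -/
def PD (L : ℕ) (w : ℤ → ℝ) : Prop :=
  (∀ r : ℤ, r ∉ Icc (-(L : ℤ)) L → w r = 0) ∧ w 0 = 1 ∧
    ∀ t : ℝ, ∃ K : ℝ, 0 ≤ K ∧ ∑ r ∈ Icc (-(L : ℤ)) L, (w r : ℂ) * e (r * t) = K

lemma sum_dvd_reindex (L n : ℕ) (hn : 0 < n) (f : ℤ → ℂ)
    (hf : ∀ r : ℤ, r ∉ Icc (-(L : ℤ)) L → f r = 0) :
    ∑ r ∈ Icc (-(L : ℤ)) L, (if (n : ℤ) ∣ r then f r else 0) =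
      ∑ m ∈ Icc (-(L : ℤ)) L, f (n * m) := by
  have hn' : (n : ℤ) ≠ 0 := by exact_mod_cast hn.ne'
  rw [← sum_filter, ← sum_image (s := Icc (-(L : ℤ)) L) (g := fun m => (n : ℤ) * m) (f := f)
    (fun a _ b _ h => mul_left_cancel₀ hn' h)]
  refine sum_subset ?_ ?_
  · intro r hr
    obtain ⟨h1, m, rfl⟩ := mem_filter.1 hr
    refine mem_image.2 ⟨m, ?_, rfl⟩
    rw [mem_Icc] at h1 ⊢
    have : (1 : ℤ) ≤ n := by exact_mod_cast hn
    constructor <;> nlinarith [h1.1, h1.2]
  · intro r hr hr'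
    obtain ⟨m, _, rfl⟩ := mem_image.1 hr
    apply hf
    intro h
    exact hr' (mem_filter.2 ⟨h, dvd_mul_right _ _⟩)

lemma sum_e_dvd (n : ℕ) [NeZero n] (r : ℤ) :
    ∑ j : ZMod n, e (r * ((j.val : ℝ) / n)) = if (n : ℤ) ∣ r then (n : ℂ) else 0 := by
  have h : ∀ j : ZMod n, e (r * ((j.val : ℝ) / n)) = ZMod.stdAddChar (j * (r : ZMod n)) := by
    intro j
    have := e_div_eq_stdAddChar n (j.val * r)
    push_cast at this
    rw [ZMod.natCast_zmod_val] at this
    rw [← this]; congr 1; ring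
  simp_rw [h, sum_stdAddChar_mul, ZMod.intCast_zmod_eq_zero_iff_dvd]

lemma PD.subsample {L : ℕ} {w : ℤ → ℝ} (h : PD L w) (n : ℕ) (hn : 0 < n) :
    PD L (fun m => w (n * m)) := by
  have : NeZero n := ⟨hn.ne'⟩
  have hn1 : (1 : ℤ) ≤ n := by exact_mod_cast hn
  have hnR : (0 : ℝ) < n := by exact_mod_cast hn
  refine ⟨fun r hr => h.1 _ fun h' => hr ?_, by simpa using h.2.1, fun t => ?_⟩
  · rw [mem_Icc] at h' ⊢
    constructor <;> nlinarith [h'.1, h'.2]
  · choose K hK0 hK using h.2.2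
    refine ⟨(∑ j : ZMod n, K (t / n + (j.val : ℝ) / n)) / n,
      div_nonneg (sum_nonneg fun j _ => hK0 _) hnR.le, ?_⟩
    have h1 := sum_dvd_reindex L n hn (fun r => (w r : ℂ) * e (r * (t / n)))
      (fun r hr => by simp [h.1 r hr])
    have h2 : ∑ m ∈ Icc (-(L : ℤ)) L, (w (n * m) : ℂ) * e (m * t) =
        ∑ m ∈ Icc (-(L : ℤ)) L, (w (n * m) : ℂ) * e (((n * m : ℤ) : ℝ) * (t / n)) := by
      refine sum_congr rfl fun m _ => ?_
      congr 2; push_cast; field_simp
    rw [h2, ← h1]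
    push_cast
    simp_rw [← hK]
    rw [sum_comm, eq_div_iff (by exact_mod_cast hn.ne'), sum_mul]
    refine sum_congr rfl fun r _ => ?_
    simp_rw [mul_add, e_add, ← mul_assoc, ← mul_sum, sum_e_dvd]
    split_ifs <;> simp

/-- Fourier coefficients of the square wave -/
noncomputable def sqc (r : ℤ) : ℂ := if Odd r then 2 / (Real.pi * Complex.I * r) else 0

lemma integral_e (r : ℤ) (hr : r ≠ 0) (a b : ℝ) :
    ∫ y in a..b, e (-(r * y)) = (e (-(r * b)) - e (-(r * a))) / (-(2 * Real.pi * Complex.I * r)) := by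
  have hr' : (r : ℂ) ≠ 0 := by exact_mod_cast hr
  have hc : (-(2 * Real.pi * Complex.I * r) : ℂ) ≠ 0 := by
    simp [hr', Real.pi_ne_zero]
  have h : ∀ y : ℝ, e (-(r * y)) = Complex.exp ((-(2 * Real.pi * Complex.I * r)) * y) := by
    intro y; unfold e; congr 1; push_cast; ring
  simp_rw [h]
  exact integral_exp_mul_complex hc

lemma e_half (r : ℤ) : e (-(r * (1 / 2))) = if Odd r then -1 else 1 := by
  split_ifs with h
  · obtain ⟨k, rfl⟩ := h
    have : -(((2 * k + 1 : ℤ) : ℝ) * (1 / 2)) = 1 / 2 + ((-k - 1 : ℤ) : ℝ) := by push_cast; ring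
    rw [this, e_add_int]
    unfold e
    have : ((2 * Real.pi * (1 / 2) : ℝ) : ℂ) = Real.pi := by push_cast; ring
    rw [this, Complex.exp_pi_mul_I]
  · obtain ⟨k, rfl⟩ := Int.not_odd_iff_even.1 h
    have : -(((k + k : ℤ) : ℝ) * (1 / 2)) = ((-k : ℤ) : ℝ) := by push_cast; ring
    rw [this, e_int]

lemma integral_sq (r : ℤ) :
    (∫ y in (0:ℝ)..(1 / 2), e (-(r * y))) - (∫ y in (1 / 2 : ℝ)..1, e (-(r * y))) = sqc r ∧
    (∫ y in (0:ℝ)..(1 / 2), e (-(r * y))) + (∫ y in (1 / 2 : ℝ)..1, e (-(r * y))) =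
      if r = 0 then 1 else 0 := by
  by_cases hr : r = 0
  · subst hr
    simp [sqc, e_zero]; norm_num
  · have hr' : (r : ℂ) ≠ 0 := by exact_mod_cast hr
    have hpi : (Real.pi : ℂ) ≠ 0 := by exact_mod_cast Real.pi_ne_zero
    have h1 : e (-(r * (1:ℝ))) = 1 := by
      have := e_int (-r); push_cast at this; simpa using this
    have h0 : e (-(r * (0:ℝ))) = 1 := by simp [e_zero]
    rw [integral_e r hr, integral_e r hr, e_half, h1, h0, if_neg hr]
    unfold sqc
    have hI := Complex.I_ne_zero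
    split_ifs
    · constructor <;> field_simp <;> ring
    · constructor <;> simp

lemma PD.sq_bound {L : ℕ} {w : ℤ → ℝ} (h : PD L w) (x : ℝ) :
    ‖∑ r ∈ Icc (-(L : ℤ)) L, (w r : ℂ) * sqc r * e (r * x)‖ ≤ 1 := by
  choose K hK0 hK using h.2.2
  have hint : ∀ a b : ℝ, ((∫ y in a..b, K (x - y) : ℝ) : ℂ) =
      ∑ r ∈ Icc (-(L : ℤ)) L, (w r : ℂ) * e (r * x) * ∫ y in a..b, e (-(r * y)) := by
    intro a b
    rw [← intervalIntegral.integral_ofReal]
    simp_rw [← hK, ← intervalIntegral.integral_const_mul]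
    rw [← intervalIntegral.integral_finsetSum]
    · congr 1; ext y
      refine sum_congr rfl fun r _ => ?_
      rw [mul_assoc, ← e_add]; congr 2; ring
    · intro r _
      apply Continuous.intervalIntegrable
      have := continuous_e
      fun_prop
  set A := ∫ y in (0:ℝ)..(1 / 2), K (x - y)
  set B := ∫ y in (1 / 2 : ℝ)..1, K (x - y)
  have hA : 0 ≤ A := intervalIntegral.integral_nonneg (by norm_num) fun _ _ => hK0 _
  have hB : 0 ≤ B := intervalIntegral.integral_nonneg (by norm_num) fun _ _ => hK0 _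
  have h1 : ((A - B : ℝ) : ℂ) = ∑ r ∈ Icc (-(L : ℤ)) L, (w r : ℂ) * sqc r * e (r * x) := by
    push_cast
    rw [hint, hint, ← sum_sub_distrib]
    refine sum_congr rfl fun r _ => ?_
    rw [← mul_sub, (integral_sq r).1]; ring
  have h2 : ((A + B : ℝ) : ℂ) = 1 := by
    push_cast
    rw [hint, hint, ← sum_add_distrib]
    simp_rw [← mul_add, fun r => (integral_sq r).2]
    rw [sum_eq_single 0]
    · simp [h.2.1, e_zero]
    · intro r _ hr; simp [hr]
    · intro h0; exfalso; apply h0; simp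
  have h3 : A + B = 1 := by exact_mod_cast h2
  rw [← h1, Complex.norm_real, Real.norm_eq_abs, abs_le]
  constructor <;> linarith

lemma PD.proj_bound {L : ℕ} {w : ℤ → ℝ} (h : PD L w) (n : ℕ) (hn : 0 < n) (x : ℝ) :
    ‖∑ r ∈ Icc (-(L : ℤ)) L, (if (n : ℤ) ∣ r then (w r : ℂ) * sqc r * e (r * x) else 0)‖ ≤
      1 / n := by
  rw [sum_dvd_reindex L n hn (fun r => (w r : ℂ) * sqc r * e (r * x))
      (fun r hr => by simp [h.1 r hr])]
  have hnR : (0 : ℝ) < n := by exact_mod_cast hn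
  by_cases hodd : Odd n
  · have h1 := (h.subsample n hn).sq_bound (n * x)
    have h2 : ∑ m ∈ Icc (-(L : ℤ)) L, (w (n * m) : ℂ) * sqc (n * m) * e (((n * m : ℤ) : ℝ) * x) =
        (1 / n : ℂ) * ∑ m ∈ Icc (-(L : ℤ)) L, (w (n * m) : ℂ) * sqc m * e (m * (n * x)) := by
      rw [mul_sum]
      refine sum_congr rfl fun m _ => ?_
      have h3 : sqc (n * m) = (1 / n : ℂ) * sqc m := by
        unfold sqc
        have : Odd ((n : ℤ) * m) ↔ Odd m := by
          rw [Int.odd_mul]; simp [hodd]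
        simp only [this]
        split_ifs
        · push_cast; field_simp
        · simp
      have h4 : ((n * m : ℤ) : ℝ) * x = m * (n * x) := by push_cast; ring
      rw [h3, h4]; ring
    rw [h2, norm_mul]
    simp only [one_div, norm_inv, Complex.norm_natCast]
    exact mul_le_of_le_one_right (by positivity) h1
  · rw [sum_eq_zero]
    · simp
    · intro m _
      have : ¬ Odd ((n : ℤ) * m) := by
        rw [Int.odd_mul]; simp [hodd]
      simp [sqc, this]

/-- Fejér weights -/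
noncomputable def fw (L : ℕ) (r : ℤ) : ℝ := max 0 (1 - |(r : ℝ)| / L)

lemma fejer_id (L : ℕ) (t : ℝ) :
    ∑ r ∈ Icc (-(L : ℤ)) L, (((L : ℝ) - |(r : ℝ)| : ℝ) : ℂ) * e (r * t) =
      (∑ a ∈ range L, e (a * t)) * (starRingEnd ℂ) (∑ a ∈ range L, e (a * t)) ∧
    ∑ r ∈ Icc (-(L : ℤ)) L, e (r * t) =
      1 + e (L * t) * (starRingEnd ℂ) (∑ a ∈ range L, e (a * t)) +
        (starRingEnd ℂ) (e (L * t)) * (∑ a ∈ range L, e (a * t)) := by
  induction L with
  | zero => simp [e_zero]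
  | succ L ih =>
    have hI : Icc (-((L + 1 : ℕ) : ℤ)) ((L + 1 : ℕ) : ℤ) =
        insert ((L : ℤ) + 1) (insert (-((L : ℤ) + 1)) (Icc (-(L : ℤ)) L)) := by
      ext r; simp only [mem_Icc, mem_insert]; push_cast; omega
    have n1 : ((L : ℤ) + 1) ∉ insert (-((L : ℤ) + 1)) (Icc (-(L : ℤ)) L) := by
      simp only [mem_Icc, mem_insert]; omega
    have n2 : (-((L : ℤ) + 1)) ∉ (Icc (-(L : ℤ)) L) := by
      simp only [mem_Icc]; omega
    obtain ⟨ih1, ih2⟩ := ih
    have hLL : e (L * t) * (starRingEnd ℂ) (e (L * t)) = 1 := by rw [← e_neg, e_mul_neg]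
    rw [hI, sum_insert n1, sum_insert n2, sum_insert n1, sum_insert n2, sum_range_succ, map_add]
    constructor
    · have h1 : |(((L : ℤ) + 1 : ℤ) : ℝ)| = L + 1 := by
        push_cast; exact abs_of_pos (by positivity)
      have h2 : |((-((L : ℤ) + 1) : ℤ) : ℝ)| = L + 1 := by
        push_cast; rw [abs_neg]; exact abs_of_pos (by positivity)
      rw [h1, h2]
      have h3 : ∑ r ∈ Icc (-(L : ℤ)) L, ((((L + 1 : ℕ) : ℝ) - |(r : ℝ)| : ℝ) : ℂ) * e (r * t) =
          ∑ r ∈ Icc (-(L : ℤ)) L, (((L : ℝ) - |(r : ℝ)| : ℝ) : ℂ) * e (r * t) +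
            ∑ r ∈ Icc (-(L : ℤ)) L, e (r * t) := by
        rw [← sum_add_distrib]; refine sum_congr rfl fun r _ => ?_; push_cast; ring
      rw [h3, ih1, ih2]
      push_cast
      linear_combination -hLL
    · have hg : (∑ a ∈ range L, e (a * t)) * (e t - 1) = e (L * t) - 1 := by
        simp_rw [e_nat_mul]; exact geom_sum_mul _ _
      have hg' := congrArg (starRingEnd ℂ) hg
      simp only [map_mul, map_sub, map_one] at hg'
      have h11 : e t * (starRingEnd ℂ) (e t) = 1 := by rw [← e_neg, e_mul_neg]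
      have a1 : e ((((L : ℤ) + 1 : ℤ) : ℝ) * t) = e (L * t) * e t := by
        rw [← e_add]; congr 1; push_cast; ring
      have a2 : e (((-((L : ℤ) + 1) : ℤ) : ℝ) * t) =
          (starRingEnd ℂ) (e (L * t)) * (starRingEnd ℂ) (e t) := by
        rw [← map_mul, ← e_add, ← e_neg]; congr 1; push_cast; ring
      have a3 : e (((L + 1 : ℕ) : ℝ) * t) = e (L * t) * e t := by
        rw [← e_add]; congr 1; push_cast; ring
      rw [a1, a2, a3, ih2, map_mul]
      generalize (starRingEnd ℂ) (∑ a ∈ range L, e (a * t)) = D' at *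
      generalize (∑ a ∈ range L, e (a * t)) = D at *
      generalize (starRingEnd ℂ) (e (L * t)) = W at *
      generalize (starRingEnd ℂ) (e t) = w at *
      generalize e (L * t) = Z at *
      generalize e t = z at *
      linear_combination (z * Z) * hg' + (w * W) * hg - (Z * D' + W * D) * h11

lemma fw_PD (L : ℕ) (hL : 0 < L) : PD L (fw L) := by
  have hLR : (0 : ℝ) < L := by exact_mod_cast hL
  refine ⟨fun r hr => ?_, by simp [fw], fun t => ?_⟩
  · unfold fw
    apply max_eq_left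
    have : (L : ℝ) ≤ |(r : ℝ)| := by
      rw [mem_Icc, ← abs_le, not_le] at hr
      exact_mod_cast hr.le
    rw [sub_nonpos, le_div_iff₀ hLR]; linarith
  · refine ⟨‖∑ a ∈ range L, e (a * t)‖ ^ 2 / L, by positivity, ?_⟩
    have h := (fejer_id L t).1
    rw [Complex.mul_conj, Complex.normSq_eq_norm_sq] at h
    push_cast at h ⊢
    rw [← h, sum_div]
    refine sum_congr rfl fun r hr => ?_
    have : |(r : ℝ)| ≤ L := by
      rw [mem_Icc, ← abs_le] at hr
      exact_mod_cast hr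
    unfold fw
    rw [max_eq_right (by rw [sub_nonneg, div_le_one hLR]; exact this)]
    have : (L : ℂ) ≠ 0 := by exact_mod_cast hL.ne'
    push_cast; field_simp

end Crest.Agent.UF
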