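import Crest.Agent.UF.Defs

set_option autoImplicit false
open Finset

namespace Crest.Agent.UF

lemma e_div_eq_stdAddChar (q : ℕ) [NeZero q] (j : ℤ) :
    e ((j : ℝ) / q) = ZMod.stdAddChar (j : ZMod q) := by
  rw [ZMod.stdAddChar_coe]; unfold e; congr 1; push_cast; ring

lemma sum_stdAddChar_mul (q : ℕ) [NeZero q] (b : ZMod q) :
    ∑ x : ZMod q, ZMod.stdAddChar (x * b) = if b = 0 then (q : ℂ) else 0 := by
  have := AddChar.sum_mulShift b (ZMod.isPrimitive_stdAddChar q)
  rw [this]; split_ifs <;> simp [ZMod.card]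

lemma conj_stdAddChar (q : ℕ) [NeZero q] (x : ZMod q) :
    (starRingEnd ℂ) (ZMod.stdAddChar x) = ZMod.stdAddChar (-x) := by
  obtain ⟨j, rfl⟩ := ZMod.intCast_surjective x
  rw [← e_div_eq_stdAddChar, ← e_neg, ← Int.cast_neg, ← e_div_eq_stdAddChar]
  congr 1; push_cast; ring

/-- quadratic phases expand with flat coefficients -/
lemma gauss_expand (q : ℕ) [NeZero q] (hq : Odd q) (u : ℤ) (hu : IsCoprime (q : ℤ) u) :
    ∃ g : ZMod q → ℂ, (∀ b, ‖g b‖ ^ 2 = 1 / q) ∧
      ∀ k : ℤ, e (u * k ^ 2 / q) = ∑ b : ZMod q, g b * e (-(k * (b.val : ℝ) / q)) := by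
  have hq0 : (q : ℂ) ≠ 0 := by exact_mod_cast NeZero.ne q
  have hq0' : (q : ℝ) ≠ 0 := by exact_mod_cast NeZero.ne q
  set ψ := ZMod.stdAddChar (N := q) with hψ
  have hunit : IsUnit ((2 * u : ℤ) : ZMod q) := by
    rw [ZMod.coe_int_isUnit_iff_isCoprime]
    refine IsCoprime.mul_right ?_ hu
    have : Nat.Coprime q 2 := (Nat.coprime_two_right).2 hq
    exact_mod_cast Nat.isCoprime_iff_coprime.2 this
  refine ⟨fun b => (1 / q : ℂ) * ∑ x : ZMod q, ψ (u * x ^ 2 + b * x), fun b => ?_, fun k => ?_⟩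
  · have key : (∑ x : ZMod q, ψ (u * x ^ 2 + b * x)) *
        (starRingEnd ℂ) (∑ x : ZMod q, ψ (u * x ^ 2 + b * x)) = q := by
      rw [map_sum, mul_comm, sum_mul_sum]
      have h1 : ∀ y : ZMod q, ∑ x : ZMod q, (starRingEnd ℂ) (ψ (u * y ^ 2 + b * y)) *
          ψ (u * x ^ 2 + b * x) = ∑ h : ZMod q, ψ (u * h ^ 2 + b * h) *
            ψ (y * (((2 * u : ℤ) : ZMod q) * h)) := by
        intro y
        rw [← Equiv.sum_comp (Equiv.addLeft y)]
        refine sum_congr rfl fun h _ => ?_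
        rw [hψ, conj_stdAddChar, ← AddChar.map_add_eq_mul, ← AddChar.map_add_eq_mul]
        congr 1
        simp only [Equiv.coe_addLeft]; push_cast; ring
      simp_rw [h1]
      rw [sum_comm]
      simp_rw [← mul_sum, hψ, sum_stdAddChar_mul, hunit.mul_right_eq_zero]
      rw [sum_eq_single 0]
      · simp
      · intro h _ hh; simp [hh]
      · simp
    rw [norm_mul, mul_pow]
    have h2 : ‖∑ x : ZMod q, ψ (u * x ^ 2 + b * x)‖ ^ 2 = q := by
      rw [Complex.mul_conj, Complex.normSq_eq_norm_sq] at key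
      exact_mod_cast key
    rw [h2]; simp; field_simp
  · have h1 : e (u * k ^ 2 / q) = ψ (u * (k : ZMod q) ^ 2) := by
      have := e_div_eq_stdAddChar q (u * k ^ 2)
      push_cast at this; exact this
    have h2 : ∀ b : ZMod q, e (-(k * (b.val : ℝ) / q)) = ψ (-(k * b)) := by
      intro b
      have := e_div_eq_stdAddChar q (-(k * b.val))
      push_cast at this
      rw [ZMod.natCast_zmod_val] at this
      rw [← this]; congr 1; ring
    simp_rw [h1, h2, mul_assoc, ← mul_sum, sum_mul]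
    rw [sum_comm]
    have h3 : ∀ x b : ZMod q, ψ (u * x ^ 2 + b * x) * ψ (-(k * b)) =
        ψ (u * x ^ 2) * ψ (b * (x - k)) := by
      intro x b
      rw [← AddChar.map_add_eq_mul, ← AddChar.map_add_eq_mul]; congr 1; ring
    simp_rw [h3, ← mul_sum, hψ, sum_stdAddChar_mul, sub_eq_zero]
    rw [sum_eq_single (k : ZMod q)]
    · simp; field_simp
    · intro h _ hh; simp [hh]
    · simp

end Crest.Agent.UF
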