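import Crest.Agent.UF.Defs

/-! Oscillatory integrals: derivative tests and stationary phase. -/

set_option autoImplicit false
open Finset

namespace Crest.Agent.UF
open Set intervalIntegral

lemma contOn_of_deriv {φ p : ℝ → ℝ} {a b : ℝ} (hφ : ∀ x ∈ Set.Icc a b, HasDerivAt φ (p x) x) :
    ContinuousOn φ (Set.Icc a b) := fun x hx => (hφ x hx).continuousAt.continuousWithinAt

lemma ii_e {φ : ℝ → ℝ} {a b : ℝ} (hab : a ≤ b) (hφ : ContinuousOn φ (Set.Icc a b)) :
    IntervalIntegrable (fun x => e (φ x)) MeasureTheory.volume a b :=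
  (continuous_e.comp_continuousOn hφ).intervalIntegrable_of_Icc hab

lemma norm_two_pi_I : ‖(2 * Real.pi * Complex.I : ℂ)‖ = 2 * Real.pi := by
  simp [abs_of_pos Real.pi_pos]

/-- (O1) first derivative test -/
theorem first_deriv_test (φ p q : ℝ → ℝ) (a b Δ : ℝ) (hab : a ≤ b) (hΔ : 0 < Δ)
    (hφ : ∀ x ∈ Set.Icc a b, HasDerivAt φ (p x) x) (hp : ∀ x ∈ Set.Icc a b, HasDerivAt p (q x) x)
    (hq : ContinuousOn q (Set.Icc a b))
    (hsign : (∀ x ∈ Set.Icc a b, 0 ≤ q x) ∨ (∀ x ∈ Set.Icc a b, q x ≤ 0))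
    (hlow : ∀ x ∈ Set.Icc a b, Δ ≤ |p x|) :
    ‖∫ x in a..b, e (φ x)‖ ≤ 1 / Δ := by
  have hp0 : ∀ x ∈ Set.Icc a b, p x ≠ 0 := fun x hx h => by
    have := hlow x hx; rw [h, abs_zero] at this; linarith
  have hφc := contOn_of_deriv hφ
  have hpc := contOn_of_deriv hp
  have hu : uIcc a b = Set.Icc a b := uIcc_of_le hab
  have hc : (2 * Real.pi * Complex.I : ℂ) ≠ 0 := by
    intro h; have := norm_two_pi_I; rw [h, norm_zero] at this; linarith [Real.pi_pos]
  have hqp : ContinuousOn (fun x => q x / p x ^ 2) (Set.Icc a b) :=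
    hq.div (hpc.pow 2) fun x hx => pow_ne_zero 2 (hp0 x hx)
  have hG : ContinuousOn (fun x => e (φ x) * ((q x / p x ^ 2 : ℝ) : ℂ)) (Set.Icc a b) :=
    (continuous_e.comp_continuousOn hφc).mul (Complex.continuous_ofReal.comp_continuousOn hqp)
  have hF : ∀ x ∈ uIcc a b, HasDerivAt (fun x => e (φ x) * (((p x)⁻¹ : ℝ) : ℂ))
      (2 * Real.pi * Complex.I * e (φ x) - e (φ x) * ((q x / p x ^ 2 : ℝ) : ℂ)) x := by
    intro x hx
    rw [hu] at hx
    have h1 : HasDerivAt (fun x => e (φ x)) (p x • (2 * Real.pi * Complex.I * e (φ x))) x :=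
      (hasDerivAt_e (φ x)).scomp x (hφ x hx)
    have h2 := ((hp x hx).inv (hp0 x hx)).ofReal_comp
    refine (h1.mul h2).congr_deriv ?_
    have : (p x : ℂ) ≠ 0 := by exact_mod_cast hp0 x hx
    simp only [Complex.real_smul, Pi.inv_apply]
    push_cast
    field_simp
    ring
  have hI1 := ii_e hab hφc
  have hI2 := hG.intervalIntegrable_of_Icc (μ := MeasureTheory.volume) hab
  have h4 := integral_eq_sub_of_hasDerivAt hF ((hI1.const_mul _).sub hI2)
  rw [integral_sub (hI1.const_mul _) hI2, integral_const_mul] at h4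
  have h5 : ∫ x in a..b, q x / p x ^ 2 = (p a)⁻¹ - (p b)⁻¹ := by
    have := integral_eq_sub_of_hasDerivAt (f := fun x => -(p x)⁻¹) (f' := fun x => q x / p x ^ 2)
      (a := a) (b := b) (fun x hx => by
        rw [hu] at hx
        exact ((hp x hx).inv (hp0 x hx)).neg.congr_deriv (by ring)) (hqp.intervalIntegrable_of_Icc hab)
    rw [this]; ring
  have hinv : ∀ x ∈ Set.Icc a b, |(p x)⁻¹| ≤ 1 / Δ := fun x hx => by
    rw [abs_inv, one_div]; exact inv_anti₀ hΔ (hlow x hx)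
  have ha := hinv a ⟨le_rfl, hab⟩
  have hb := hinv b ⟨hab, le_rfl⟩
  have h6 : ‖∫ x in a..b, e (φ x) * ((q x / p x ^ 2 : ℝ) : ℂ)‖ ≤ 2 * (1 / Δ) := by
    refine (norm_integral_le_integral_norm hab).trans ?_
    rcases hsign with hs | hs
    · rw [integral_congr (g := fun x => q x / p x ^ 2) (fun x hx => by
        rw [hu] at hx
        simp only [norm_mul, norm_e, one_mul, Complex.norm_real, Real.norm_eq_abs]
        exact abs_of_nonneg (div_nonneg (hs x hx) (sq_nonneg _))), h5]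
      linarith [le_abs_self (p a)⁻¹, neg_abs_le (p b)⁻¹]
    · rw [integral_congr (g := fun x => -(q x / p x ^ 2)) (fun x hx => by
        rw [hu] at hx
        simp only [norm_mul, norm_e, one_mul, Complex.norm_real, Real.norm_eq_abs]
        exact abs_of_nonpos (div_nonpos_of_nonpos_of_nonneg (hs x hx) (sq_nonneg _))),
        integral_neg, h5]
      linarith [le_abs_self (p b)⁻¹, neg_abs_le (p a)⁻¹]
  have h7 : ∀ x ∈ Set.Icc a b, ‖e (φ x) * (((p x)⁻¹ : ℝ) : ℂ)‖ ≤ 1 / Δ := fun x hx => by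
    rw [norm_mul, norm_e, one_mul, Complex.norm_real, Real.norm_eq_abs]; exact hinv x hx
  have h8 : ‖2 * Real.pi * Complex.I * ∫ x in a..b, e (φ x)‖ ≤ 4 * (1 / Δ) := by
    rw [sub_eq_iff_eq_add.mp h4]
    refine (norm_add_le _ _).trans ?_
    have := norm_sub_le (e (φ b) * (((p b)⁻¹ : ℝ) : ℂ)) (e (φ a) * (((p a)⁻¹ : ℝ) : ℂ))
    linarith [h7 a ⟨le_rfl, hab⟩, h7 b ⟨hab, le_rfl⟩]
  rw [norm_mul, norm_two_pi_I] at h8
  have h9 : 0 < 1 / Δ := by positivity
  nlinarith [Real.pi_gt_three, norm_nonneg (∫ x in a..b, e (φ x))]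

lemma sub_ge_of_deriv {p q : ℝ → ℝ} {a b l : ℝ} (hp : ∀ x ∈ Set.Icc a b, HasDerivAt p (q x) x)
    (hq : ContinuousOn q (Set.Icc a b)) (hl : ∀ x ∈ Set.Icc a b, l ≤ q x) {x y : ℝ}
    (hx : x ∈ Set.Icc a b) (hy : y ∈ Set.Icc a b) (hxy : x ≤ y) : l * (y - x) ≤ p y - p x := by
  have hs : Set.Icc x y ⊆ Set.Icc a b := Icc_subset_Icc hx.1 hy.2
  have h1 := integral_eq_sub_of_hasDerivAt (f := p) (f' := q) (a := x) (b := y)
    (fun z hz => hp z (hs (by rwa [uIcc_of_le hxy] at hz)))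
    ((hq.mono hs).intervalIntegrable_of_Icc hxy)
  rw [← h1]
  have h2 := integral_mono_on (μ := MeasureTheory.volume) hxy (f := fun _ => l) (g := q)
    (by simp) ((hq.mono hs).intervalIntegrable_of_Icc hxy) (fun z hz => hl z (hs hz))
  simpa [mul_comm] using h2

lemma exists_split {p : ℝ → ℝ} {a b : ℝ} (hab : a ≤ b) (hc : ContinuousOn p (Set.Icc a b))
    (t : ℝ) : ∃ c ∈ Set.Icc a b, (c = a ∨ p c ≤ t) ∧ (c = b ∨ t ≤ p c) := by
  by_cases h1 : t ≤ p a
  · exact ⟨a, ⟨le_rfl, hab⟩, Or.inl rfl, Or.inr h1⟩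
  by_cases h2 : p b ≤ t
  · exact ⟨b, ⟨hab, le_rfl⟩, Or.inr h2, Or.inl rfl⟩
  obtain ⟨c, hc1, hc2⟩ := intermediate_value_Icc hab hc ⟨(not_le.mp h1).le, (not_le.mp h2).le⟩
  exact ⟨c, hc1, Or.inr hc2.le, Or.inr hc2.ge⟩

lemma second_deriv_pos (φ p q : ℝ → ℝ) (a b l : ℝ) (hab : a ≤ b) (hl : 0 < l)
    (hφ : ∀ x ∈ Set.Icc a b, HasDerivAt φ (p x) x) (hp : ∀ x ∈ Set.Icc a b, HasDerivAt p (q x) x)
    (hq : ContinuousOn q (Set.Icc a b)) (hs : ∀ x ∈ Set.Icc a b, l ≤ q x) :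
    ‖∫ x in a..b, e (φ x)‖ ≤ 4 / Real.sqrt l := by
  have hφc := contOn_of_deriv hφ
  have hpc := contOn_of_deriv hp
  set s := Real.sqrt l with hsdef
  have hs0 : 0 < s := Real.sqrt_pos.mpr hl
  have hss : s * s = l := Real.mul_self_sqrt hl.le
  obtain ⟨c, hc, hc1, hc2⟩ := exists_split hab hpc (-s)
  have hcb : Set.Icc c b ⊆ Set.Icc a b := Icc_subset_Icc hc.1 le_rfl
  have hac : Set.Icc a c ⊆ Set.Icc a b := Icc_subset_Icc le_rfl hc.2
  obtain ⟨d, hd, hd1, hd2⟩ := exists_split hc.2 (hpc.mono hcb) s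
  have hdb : Set.Icc d b ⊆ Set.Icc a b := Icc_subset_Icc (hc.1.trans hd.1) le_rfl
  have hcd : Set.Icc c d ⊆ Set.Icc a b := Icc_subset_Icc hc.1 hd.2
  have hs1 : 0 < 1 / s := by positivity
  have h1 : ‖∫ x in a..c, e (φ x)‖ ≤ 1 / s := by
    rcases hc1 with h | h
    · rw [h]; simp [hs0.le]
    · refine first_deriv_test φ p q a c s hc.1 hs0 (fun x hx => hφ x (hac hx))
        (fun x hx => hp x (hac hx)) (hq.mono hac)
        (Or.inl fun x hx => hl.le.trans (hs x (hac hx))) fun x hx => ?_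
      have := sub_ge_of_deriv hp hq hs (hac hx) hc hx.2
      have h3 : 0 ≤ l * (c - x) := mul_nonneg hl.le (by linarith [hx.2])
      linarith [neg_abs_le (p x)]
  have h2 : ‖∫ x in d..b, e (φ x)‖ ≤ 1 / s := by
    rcases hd2 with h | h
    · rw [h]; simp [hs0.le]
    · refine first_deriv_test φ p q d b s hd.2 hs0 (fun x hx => hφ x (hdb hx))
        (fun x hx => hp x (hdb hx)) (hq.mono hdb)
        (Or.inl fun x hx => hl.le.trans (hs x (hdb hx))) fun x hx => ?_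
      have := sub_ge_of_deriv hp hq hs (hcb hd) (hdb hx) hx.1
      have h3 : 0 ≤ l * (x - d) := mul_nonneg hl.le (by linarith [hx.1])
      linarith [le_abs_self (p x)]
  have h3 : d - c ≤ 2 * (1 / s) := by
    rcases hc2 with h | h
    · linarith [hd.2]
    rcases hd1 with h' | h'
    · linarith
    have := sub_ge_of_deriv hp hq hs hc (hcb hd) hd.1
    rw [mul_one_div, le_div_iff₀ hs0]
    have h4 : s * ((d - c) * s) ≤ s * 2 := by nlinarith
    exact le_of_mul_le_mul_left h4 hs0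
  have h4 : ‖∫ x in c..d, e (φ x)‖ ≤ 1 * |d - c| :=
    norm_integral_le_of_norm_le_const fun x _ => (norm_e _).le
  rw [abs_of_nonneg (by linarith [hd.1])] at h4
  rw [← integral_add_adjacent_intervals (ii_e hc.1 (hφc.mono hac)) (ii_e hc.2 (hφc.mono hcb)),
    ← integral_add_adjacent_intervals (ii_e hd.1 (hφc.mono hcd)) (ii_e hd.2 (hφc.mono hdb))]
  have h5 := norm_add_le (∫ x in a..c, e (φ x))
    ((∫ x in c..d, e (φ x)) + ∫ x in d..b, e (φ x))
  have h6 := norm_add_le (∫ x in c..d, e (φ x)) (∫ x in d..b, e (φ x))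
  have : 4 / s = 4 * (1 / s) := by ring
  linarith

lemma integral_e_neg (φ : ℝ → ℝ) (a b : ℝ) :
    ∫ x in a..b, e (-φ x) = (starRingEnd ℂ) (∫ x in a..b, e (φ x)) := by
  simp only [e_neg]
  unfold intervalIntegral
  rw [_root_.integral_conj, _root_.integral_conj, map_sub]

/-- (O2) second derivative test -/
theorem second_deriv_test (φ p q : ℝ → ℝ) (a b l : ℝ) (hab : a ≤ b) (hl : 0 < l)
    (hφ : ∀ x ∈ Set.Icc a b, HasDerivAt φ (p x) x) (hp : ∀ x ∈ Set.Icc a b, HasDerivAt p (q x) x)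
    (hq : ContinuousOn q (Set.Icc a b))
    (hsign : (∀ x ∈ Set.Icc a b, l ≤ q x) ∨ (∀ x ∈ Set.Icc a b, q x ≤ -l)) :
    ‖∫ x in a..b, e (φ x)‖ ≤ 4 / Real.sqrt l := by
  rcases hsign with hs | hs
  · exact second_deriv_pos φ p q a b l hab hl hφ hp hq hs
  · have := second_deriv_pos (fun x => -φ x) (fun x => -p x) (fun x => -q x) a b l hab hl
      (fun x hx => (hφ x hx).neg) (fun x hx => (hp x hx).neg) hq.neg
      (fun x hx => by linarith [hs x hx])
    rwa [integral_e_neg, Complex.norm_conj] at this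

lemma gauss_tail {b : ℂ} (hb : 0 ≤ b.re) (hb0 : b ≠ 0) {W R : ℝ} (hW : 0 < W) (hWR : W ≤ R) :
    ‖∫ u in W..R, Complex.exp (-b * (u : ℂ) ^ 2)‖ ≤ 1 / (‖b‖ * W) := by
  have hu : uIcc W R = Set.Icc W R := uIcc_of_le hWR
  have hn : ∀ u : ℝ, ‖Complex.exp (-b * (u : ℂ) ^ 2)‖ ≤ 1 := by
    intro u
    rw [Complex.norm_exp, Real.exp_le_one_iff, ← Complex.ofReal_pow, Complex.mul_re]
    simp only [Complex.neg_re, Complex.ofReal_re, Complex.ofReal_im, mul_zero, sub_zero]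
    nlinarith [sq_nonneg u]
  have hc1 : Continuous fun u : ℝ => Complex.exp (-b * (u : ℂ) ^ 2) := by fun_prop
  have hc0 : ContinuousOn (fun u : ℝ => (u ^ 2)⁻¹) (Set.Icc W R) :=
    (continuous_pow 2).continuousOn.inv₀ fun u hu => pow_ne_zero 2 (by linarith [hu.1])
  have hc2 : ContinuousOn (fun u : ℝ => Complex.exp (-b * (u : ℂ) ^ 2) * (((u ^ 2)⁻¹ : ℝ) : ℂ))
      (Set.Icc W R) := hc1.continuousOn.mul (Complex.continuous_ofReal.comp_continuousOn hc0)
  have hF : ∀ u ∈ uIcc W R, HasDerivAt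
      (fun u : ℝ => Complex.exp (-b * (u : ℂ) ^ 2) * ((u⁻¹ : ℝ) : ℂ))
      (-(2 * b) * Complex.exp (-b * (u : ℂ) ^ 2) -
        Complex.exp (-b * (u : ℂ) ^ 2) * (((u ^ 2)⁻¹ : ℝ) : ℂ)) u := by
    intro u hu'
    rw [hu] at hu'
    have hu0 : u ≠ 0 := by linarith [hu'.1]
    have h0 : HasDerivAt (fun u : ℝ => -b * (u : ℂ) ^ 2) (-b * (2 * u)) u := by
      have := ((hasDerivAt_id u).ofReal_comp.pow 2).const_mul (-b)
      refine this.congr_deriv ?_
      simp
    refine (h0.cexp.mul (hasDerivAt_inv hu0).ofReal_comp).congr_deriv ?_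
    have : (u : ℂ) ≠ 0 := by exact_mod_cast hu0
    push_cast
    field_simp
    ring
  have hI1 := hc1.intervalIntegrable (μ := MeasureTheory.volume) W R
  have hI2 := hc2.intervalIntegrable_of_Icc (μ := MeasureTheory.volume) hWR
  have h4 := integral_eq_sub_of_hasDerivAt hF ((hI1.const_mul _).sub hI2)
  rw [integral_sub (hI1.const_mul _) hI2, integral_const_mul] at h4
  have h5 : ∫ u in W..R, (u ^ 2)⁻¹ = W⁻¹ - R⁻¹ := by
    have := integral_eq_sub_of_hasDerivAt (f := fun u : ℝ => -u⁻¹) (f' := fun u => (u ^ 2)⁻¹)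
      (a := W) (b := R) (fun u hu' => by
        rw [hu] at hu'
        exact (hasDerivAt_inv (by linarith [hu'.1])).neg.congr_deriv (by ring))
      (hc0.intervalIntegrable_of_Icc hWR)
    rw [this]; ring
  have h6 : ‖∫ u in W..R, Complex.exp (-b * (u : ℂ) ^ 2) * (((u ^ 2)⁻¹ : ℝ) : ℂ)‖ ≤ W⁻¹ - R⁻¹ := by
    rw [← h5]
    refine norm_integral_le_of_norm_le hWR (Filter.Eventually.of_forall fun u _ => ?_)
      (hc0.intervalIntegrable_of_Icc hWR)
    rw [norm_mul, Complex.norm_real, Real.norm_eq_abs, abs_of_nonneg (by positivity)]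
    exact mul_le_of_le_one_left (by positivity) (hn u)
  have h7 : ∀ u : ℝ, 0 < u → ‖Complex.exp (-b * (u : ℂ) ^ 2) * ((u⁻¹ : ℝ) : ℂ)‖ ≤ u⁻¹ := by
    intro u hu0
    rw [norm_mul, Complex.norm_real, Real.norm_eq_abs, abs_of_nonneg (by positivity)]
    exact mul_le_of_le_one_left (by positivity) (hn u)
  have h8 : ‖-(2 * b) * ∫ u in W..R, Complex.exp (-b * (u : ℂ) ^ 2)‖ ≤ 2 * W⁻¹ := by
    rw [sub_eq_iff_eq_add.mp h4]
    refine (norm_add_le _ _).trans ?_
    have := norm_sub_le (Complex.exp (-b * (R : ℂ) ^ 2) * ((R⁻¹ : ℝ) : ℂ))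
      (Complex.exp (-b * (W : ℂ) ^ 2) * ((W⁻¹ : ℝ) : ℂ))
    linarith [h7 R (by linarith), h7 W hW]
  rw [norm_mul, norm_neg, norm_mul, Complex.norm_two] at h8
  have hbp : 0 < ‖b‖ := norm_pos_iff.mpr hb0
  rw [le_div_iff₀ (by positivity)]
  have h9 := mul_le_mul_of_nonneg_right h8 hW.le
  rw [mul_assoc 2 W⁻¹, inv_mul_cancel₀ hW.ne'] at h9
  nlinarith

lemma gauss_window {b : ℂ} (hb : 0 < b.re) {W : ℝ} (hW : 0 < W) :
    ‖(∫ u in (-W)..W, Complex.exp (-b * (u : ℂ) ^ 2)) - (Real.pi / b) ^ (1 / 2 : ℂ)‖ ≤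
      2 / (‖b‖ * W) := by
  have hb0 : b ≠ 0 := by rintro rfl; simp at hb
  have hc1 : Continuous fun u : ℝ => Complex.exp (-b * (u : ℂ) ^ 2) := by fun_prop
  have h1 := MeasureTheory.intervalIntegral_tendsto_integral (integrable_cexp_neg_mul_sq hb)
    (a := fun R : ℝ => -R) (b := fun R : ℝ => R) (l := Filter.atTop)
    Filter.tendsto_neg_atTop_atBot Filter.tendsto_id
  rw [integral_gaussian_complex hb] at h1
  have h2 := (h1.const_sub (∫ u in (-W)..W, Complex.exp (-b * (u : ℂ) ^ 2))).norm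
  refine le_of_tendsto h2 (Filter.eventually_atTop.mpr ⟨W, fun R hR => ?_⟩)
  have h3 : ∫ u in (-R)..(-W), Complex.exp (-b * (u : ℂ) ^ 2) =
      ∫ u in W..R, Complex.exp (-b * (u : ℂ) ^ 2) := by
    rw [← integral_comp_neg]; simp
  rw [← integral_add_adjacent_intervals (hc1.intervalIntegrable (-R) (-W))
    (hc1.intervalIntegrable (-W) R), ← integral_add_adjacent_intervals
    (hc1.intervalIntegrable (-W) W) (hc1.intervalIntegrable W R), h3]
  have h4 := gauss_tail hb.le hb0 hW hR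
  set A := ∫ u in W..R, Complex.exp (-b * (u : ℂ) ^ 2)
  set B := ∫ u in (-W)..W, Complex.exp (-b * (u : ℂ) ^ 2)
  have : B - (A + (B + A)) = -(2 * A) := by ring
  rw [this, norm_neg, norm_mul, Complex.norm_two]
  have : 2 / (‖b‖ * W) = 2 * (1 / (‖b‖ * W)) := by ring
  linarith

lemma e_eighth_sq : e (1 / 8) ^ 2 = Complex.I := by
  rw [← e_nat_mul]
  unfold e
  have : (2 * Real.pi * (((2 : ℕ) : ℝ) * (1 / 8)) : ℝ) = Real.pi / 2 := by push_cast; ring
  rw [this]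
  push_cast
  exact Complex.exp_pi_div_two_mul_I

lemma e_eighth_re : 0 < (e (1 / 8)).re := by
  unfold e
  rw [Complex.exp_ofReal_mul_I_re]
  exact Real.cos_pos_of_mem_Ioo ⟨by linarith [Real.pi_pos], by linarith [Real.pi_pos]⟩

lemma fresnel {ρ W : ℝ} (hρ : 0 < ρ) (hW : 0 < W) :
    ‖(∫ u in (-W)..W, e (ρ * u ^ 2 / 2)) - e (1 / 8) / (Real.sqrt ρ : ℂ)‖ ≤ 1 / (ρ * W) := by
  let b : ℝ → ℂ := fun τ => (τ : ℂ) - (Real.pi * ρ : ℝ) * Complex.I
  have hb0 : Real.pi / b 0 = (e (1 / 8) / (Real.sqrt ρ : ℂ)) ^ 2 := by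
    rw [div_pow, e_eighth_sq, ← Complex.ofReal_pow, Real.sq_sqrt hρ.le]
    have h1 : (ρ : ℂ) ≠ 0 := by exact_mod_cast hρ.ne'
    have h2 : (Real.pi : ℂ) ≠ 0 := by exact_mod_cast Real.pi_ne_zero
    simp only [b]; push_cast
    rw [zero_sub, div_eq_div_iff (by simp [h1, h2]) h1]
    linear_combination (Real.pi * ρ : ℂ) * Complex.I_mul_I
  have hre : 0 < (e (1 / 8) / (Real.sqrt ρ : ℂ)).re := by
    rw [Complex.div_ofReal_re]; exact div_pos e_eighth_re (Real.sqrt_pos.mpr hρ)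
  have hval : (Real.pi / b 0) ^ (1 / 2 : ℂ) = e (1 / 8) / (Real.sqrt ρ : ℂ) := by
    rw [hb0, one_div (2 : ℂ)]; exact Complex.sq_cpow_two_inv hre
  have hbc : Continuous b := by fun_prop
  have hbn : b 0 ≠ 0 := by
    intro h; have := congrArg Complex.im h
    simp [b, hρ.ne'] at this
  have hc1 : ContinuousAt (fun τ : ℝ => (Real.pi / b τ : ℂ) ^ (1 / 2 : ℂ)) 0 := by
    refine ContinuousAt.cpow (continuousAt_const.div hbc.continuousAt hbn) continuousAt_const ?_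
    right
    rw [hb0, div_pow, e_eighth_sq, ← Complex.ofReal_pow, Real.sq_sqrt hρ.le, Complex.div_ofReal_im]
    simp [hρ.ne']
  have hc2 : Continuous fun τ : ℝ => ∫ u in (-W)..W, Complex.exp (-b τ * (u : ℂ) ^ 2) :=
    continuous_parametric_intervalIntegral_of_continuous' (by fun_prop) _ _
  have hc3 := ((hc2.continuousAt.sub hc1).norm).tendsto.mono_left
    (nhdsWithin_le_nhds (s := Set.Ioi (0 : ℝ)))
  have h4 : ∀ u : ℝ, Complex.exp (-b 0 * (u : ℂ) ^ 2) = e (ρ * u ^ 2 / 2) := by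
    intro u; unfold e; congr 1; simp only [b]; push_cast; ring
  simp only [Pi.sub_apply, hval, h4] at hc3
  refine le_of_tendsto hc3 (eventually_nhdsWithin_of_forall fun τ hτ => ?_)
  have h5 : 0 < (b τ).re := by simpa [b] using hτ
  refine (gauss_window h5 hW).trans ?_
  have h6 : Real.pi * ρ ≤ ‖b τ‖ := by
    have := Complex.abs_im_le_norm (b τ)
    simp only [b, Complex.sub_im, Complex.ofReal_im, Complex.mul_im, Complex.ofReal_re,
      Complex.I_im, Complex.I_re, mul_one, mul_zero, add_zero, zero_sub, abs_neg] at this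
    exact (le_abs_self _).trans this
  rw [div_le_div_iff₀ (by nlinarith [Real.pi_gt_three, mul_pos hρ hW]) (by positivity)]
  nlinarith [Real.pi_gt_three, mul_pos hρ hW]

lemma abs_le_of_deriv {k k' : ℝ → ℝ} {s δ ω : ℝ} (hδ : 0 ≤ δ) (hk : ∀ x, HasDerivAt k (k' x) x)
    (h0 : k s = 0) (hb : ∀ x ∈ Set.Icc (s - δ) (s + δ), |k' x| ≤ ω) :
    ∀ x ∈ Set.Icc (s - δ) (s + δ), |k x| ≤ ω * δ := by
  intro x hx
  have hs : s ∈ Set.Icc (s - δ) (s + δ) := ⟨by linarith, by linarith⟩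
  have h1 := (convex_Icc (s - δ) (s + δ)).norm_image_sub_le_of_norm_hasDerivWithin_le
    (f := k) (f' := k') (C := ω) (fun y _ => (hk y).hasDerivWithinAt) hb hs hx
  rw [h0, sub_zero, Real.norm_eq_abs, Real.norm_eq_abs] at h1
  have hω : 0 ≤ ω := (abs_nonneg _).trans (hb s hs)
  exact h1.trans (mul_le_mul_of_nonneg_left (abs_le.mpr ⟨by linarith [hx.1], by linarith [hx.2]⟩) hω)

/-- (O3) stationary phase, uniform in the critical point -/
theorem stationary_phase (g r r₁ : ℝ → ℝ) (a b m ζ ε : ℝ) (hm : 0 < m) (hζ : 0 < ζ) (hε : 0 < ε)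
    (hg : ∀ x, HasDerivAt g (r x) x) (hr : ∀ x, HasDerivAt r (r₁ x) x) (hr₁ : Continuous r₁)
    (hlow : ∀ x ∈ Set.Icc a b, m ≤ r₁ x) :
    ∃ M₀ : ℝ, ∀ M : ℝ, M₀ ≤ M → ∀ s ∈ Set.Icc (a + ζ) (b - ζ),
      ‖(Real.sqrt M : ℂ) * (∫ x in a..b, e (M * (g x - r s * x))) -
        e (1 / 8) * e (M * (g s - r s * s)) / (Real.sqrt (r₁ s) : ℂ)‖ ≤ ε := by
  obtain ⟨W, hWdef⟩ : ∃ W, W = 6 / (m * ε) := ⟨_, rfl⟩
  have hW : 0 < W := by rw [hWdef]; positivity
  have hmW : 1 / (m * W) = ε / 6 := by rw [hWdef]; field_simp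
  obtain ⟨ω, hωdef⟩ : ∃ ω, ω = ε / (8 * Real.pi * W ^ 3) := ⟨_, rfl⟩
  have hπ := Real.pi_pos
  have hω : 0 < ω := by rw [hωdef]; positivity
  obtain ⟨δ0, hδ0, huc⟩ := Metric.uniformContinuousOn_iff_le.mp
    ((isCompact_Icc (a := a) (b := b)).uniformContinuousOn_of_continuous hr₁.continuousOn) ω hω
  have hμ : 0 < min ζ δ0 := lt_min hζ hδ0
  refine ⟨(W / min ζ δ0) ^ 2, fun M hM s hs => ?_⟩
  have hM0 : 0 < M := lt_of_lt_of_le (by positivity) hM
  set σ := Real.sqrt M with hσdef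
  have hσ : 0 < σ := Real.sqrt_pos.mpr hM0
  have hσσ : σ * σ = M := Real.mul_self_sqrt hM0.le
  have hσ1 : W / min ζ δ0 ≤ σ := Real.le_sqrt_of_sq_le hM
  obtain ⟨δ, hδdef⟩ : ∃ δ, δ = W / σ := ⟨_, rfl⟩
  have hδ : 0 < δ := by rw [hδdef]; positivity
  have hσδ : σ * δ = W := by rw [hδdef]; field_simp
  have hδμ : δ ≤ min ζ δ0 := by
    rw [div_le_iff₀ hμ] at hσ1
    rw [hδdef, div_le_iff₀ hσ]; linarith
  have hδζ := hδμ.trans (min_le_left _ _)
  have hδδ := hδμ.trans (min_le_right _ _)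
  have has : a ≤ s - δ := by linarith [hs.1]
  have hsb : s + δ ≤ b := by linarith [hs.2]
  have hsm : s ∈ Set.Icc a b := ⟨by linarith, by linarith⟩
  set ρ := r₁ s with hρdef
  have hρ : m ≤ ρ := hlow s hsm
  have hρ0 : 0 < ρ := by linarith
  let h : ℝ → ℝ := fun x => M * (g x - r s * x - (g s - r s * s))
  have hh : ∀ x, HasDerivAt h (M * (r x - r s)) x := fun x =>
    ((((hg x).sub ((hasDerivAt_id x).const_mul (r s))).sub_const _).const_mul M).congr_deriv
      (by simp)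
  have hh' : ∀ x, HasDerivAt (fun x => M * (r x - r s)) (M * r₁ x) x := fun x =>
    ((hr x).sub_const _).const_mul M
  have hhc : Continuous h := continuous_iff_continuousAt.mpr fun x => (hh x).continuousAt
  have hI : ∀ u v : ℝ, IntervalIntegrable (fun x => e (h x)) MeasureTheory.volume u v :=
    fun u v => (continuous_e.comp hhc).intervalIntegrable u v
  have hΔ : 0 < M * (m * δ) := by positivity
  have hΔ' : σ * (1 / (M * (m * δ))) = ε / 6 := by
    rw [← hmW, ← hσδ, ← hσσ]; field_simp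
  have hT1 : ‖∫ x in a..(s - δ), e (h x)‖ ≤ 1 / (M * (m * δ)) := by
    have hsub : Set.Icc a (s - δ) ⊆ Set.Icc a b := Icc_subset_Icc le_rfl (by linarith)
    refine first_deriv_test h _ _ a (s - δ) _ has hΔ (fun x _ => hh x) (fun x _ => hh' x)
      (by fun_prop) (Or.inl fun x hx => mul_nonneg hM0.le (hm.le.trans (hlow x (hsub hx))))
      fun x hx => ?_
    have := sub_ge_of_deriv (fun x _ => hr x) hr₁.continuousOn hlow (hsub hx) hsm
      (by linarith [hx.2])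
    rw [abs_mul, abs_of_pos hM0]
    refine mul_le_mul_of_nonneg_left ?_ hM0.le
    have h2 : m * δ ≤ m * (s - x) := mul_le_mul_of_nonneg_left (by linarith [hx.2]) hm.le
    linarith [neg_abs_le (r x - r s)]
  have hT2 : ‖∫ x in (s + δ)..b, e (h x)‖ ≤ 1 / (M * (m * δ)) := by
    have hsub : Set.Icc (s + δ) b ⊆ Set.Icc a b := Icc_subset_Icc (by linarith) le_rfl
    refine first_deriv_test h _ _ (s + δ) b _ hsb hΔ (fun x _ => hh x) (fun x _ => hh' x)
      (by fun_prop) (Or.inl fun x hx => mul_nonneg hM0.le (hm.le.trans (hlow x (hsub hx))))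
      fun x hx => ?_
    have := sub_ge_of_deriv (fun x _ => hr x) hr₁.continuousOn hlow hsm (hsub hx)
      (by linarith [hx.1])
    rw [abs_mul, abs_of_pos hM0]
    refine mul_le_mul_of_nonneg_left ?_ hM0.le
    have h2 : m * δ ≤ m * (x - s) := mul_le_mul_of_nonneg_left (by linarith [hx.1]) hm.le
    linarith [le_abs_self (r x - r s)]
  have hk1 : ∀ x ∈ Set.Icc (s - δ) (s + δ), |r x - r s - ρ * (x - s)| ≤ ω * δ := by
    refine abs_le_of_deriv (k' := fun x => r₁ x - ρ) hδ.le (fun x => ?_) (by simp) fun x hx => ?_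
    · exact (((hr x).sub_const _).sub (((hasDerivAt_id x).sub_const s).const_mul ρ)).congr_deriv
        (by simp)
    · exact huc x ⟨by linarith [hx.1], by linarith [hx.2]⟩ s hsm
        (abs_le.mpr ⟨by linarith [hx.1], by linarith [hx.2]⟩)
  have hk2 : ∀ x ∈ Set.Icc (s - δ) (s + δ),
      |g x - r s * x - (g s - r s * s) - ρ * (x - s) ^ 2 / 2| ≤ ω * δ * δ := by
    refine abs_le_of_deriv hδ.le (fun x => ?_) (by simp) hk1
    exact ((((hg x).sub ((hasDerivAt_id x).const_mul (r s))).sub_const _).sub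
      (((((hasDerivAt_id x).sub_const s).pow 2).const_mul ρ).div_const 2)).congr_deriv
      (by simp; ring)
  have hmodel : (σ : ℂ) * ∫ x in (s - δ)..(s + δ), e (ρ * (σ * x + -(σ * s)) ^ 2 / 2) =
      ∫ u in (-W)..W, e (ρ * u ^ 2 / 2) := by
    have := smul_integral_comp_mul_add (a := s - δ) (b := s + δ)
      (fun u => e (ρ * u ^ 2 / 2)) σ (-(σ * s))
    rw [Complex.real_smul] at this
    rw [this]
    congr 1 <;> rw [← hσδ] <;> ring
  have hI2 : IntervalIntegrable (fun x => e (ρ * (σ * x + -(σ * s)) ^ 2 / 2))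
      MeasureTheory.volume (s - δ) (s + δ) :=
    (continuous_e.comp (by fun_prop)).intervalIntegrable _ _
  have hwin : ‖(∫ x in (s - δ)..(s + δ), e (h x)) -
      ∫ x in (s - δ)..(s + δ), e (ρ * (σ * x + -(σ * s)) ^ 2 / 2)‖ ≤
      2 * Real.pi * (M * (ω * δ * δ)) * |s + δ - (s - δ)| := by
    rw [← integral_sub (hI _ _) hI2]
    refine norm_integral_le_of_norm_le_const fun x hx => (norm_e_sub_e_le _ _).trans ?_
    rw [uIoc_of_le (by linarith)] at hx
    refine mul_le_mul_of_nonneg_left ?_ (by positivity)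
    have : h x - ρ * (σ * x + -(σ * s)) ^ 2 / 2 =
        M * (g x - r s * x - (g s - r s * s) - ρ * (x - s) ^ 2 / 2) := by
      simp only [h]; rw [← hσσ]; ring
    rw [this, abs_mul, abs_of_pos hM0]
    exact mul_le_mul_of_nonneg_left (hk2 x ⟨hx.1.le, hx.2⟩) hM0.le
  have hwin' : σ * (2 * Real.pi * (M * (ω * δ * δ)) * |s + δ - (s - δ)|) = ε / 2 := by
    rw [abs_of_pos (by linarith), ← hσσ]
    have : σ * (2 * Real.pi * (σ * σ * (ω * δ * δ)) * (s + δ - (s - δ))) =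
        4 * Real.pi * ω * (σ * δ) ^ 3 := by ring
    rw [this, hσδ, hωdef]; field_simp; ring
  have hF := fresnel hρ0 hW
  have hF' : 1 / (ρ * W) ≤ ε / 6 := by
    rw [← hmW]; exact one_div_le_one_div_of_le (by positivity) (by nlinarith)
  have hfac : ∫ x in a..b, e (M * (g x - r s * x)) =
      e (M * (g s - r s * s)) * ∫ x in a..b, e (h x) := by
    rw [← integral_const_mul]
    refine integral_congr fun x _ => ?_
    simp only [h]
    rw [← e_add]; congr 1; ring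
  rw [hfac, ← integral_add_adjacent_intervals (hI a (s - δ)) (hI (s - δ) b),
    ← integral_add_adjacent_intervals (hI (s - δ) (s + δ)) (hI (s + δ) b)]
  rw [← hmodel] at hF
  set A := ∫ x in a..(s - δ), e (h x)
  set B := ∫ x in (s - δ)..(s + δ), e (h x)
  set C := ∫ x in (s + δ)..b, e (h x)
  set D := ∫ x in (s - δ)..(s + δ), e (ρ * (σ * x + -(σ * s)) ^ 2 / 2)
  have heq : (σ : ℂ) * (e (M * (g s - r s * s)) * (A + (B + C))) -
      e (1 / 8) * e (M * (g s - r s * s)) / (Real.sqrt ρ : ℂ) = e (M * (g s - r s * s)) *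
      (σ * A + σ * C + σ * (B - D) + (σ * D - e (1 / 8) / (Real.sqrt ρ : ℂ))) := by ring
  rw [heq, norm_mul, norm_e, one_mul]
  have hn : ∀ z : ℂ, ‖(σ : ℂ) * z‖ = σ * ‖z‖ := fun z => by
    rw [norm_mul, Complex.norm_real, Real.norm_eq_abs, abs_of_pos hσ]
  have h1 := norm_add_le ((σ : ℂ) * A + σ * C + σ * (B - D))
    (σ * D - e (1 / 8) / (Real.sqrt ρ : ℂ))
  have h2 := norm_add_le ((σ : ℂ) * A + σ * C) (σ * (B - D))
  have h3 := norm_add_le ((σ : ℂ) * A) (σ * C)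
  rw [hn, hn] at h3
  rw [hn] at h2
  have h4 := mul_le_mul_of_nonneg_left hT1 hσ.le
  have h5 := mul_le_mul_of_nonneg_left hT2 hσ.le
  have h6 := mul_le_mul_of_nonneg_left hwin hσ.le
  linarith

end Crest.Agent.UF
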