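import Crest.Agent.UF.Defs

set_option autoImplicit false
open Finset

namespace Crest.Agent.UF

section Step
variable {J : ℕ} {K : Type} [Field K] [Fintype K] [DecidableEq K]

/-- affine forms on the plane over a finite field -/
def fm (c d κ : Fin J → K) (i : Fin J) (z : K × K) : K := c i * z.1 + d i * z.2 + κ i

lemma card_fm (c d κ : Fin J → K) (i : Fin J) (hc : c i ≠ 0) (u : K) :
    (univ.filter fun z => fm c d κ i z = u).card = Fintype.card K := by
  rw [← card_univ]
  refine card_bij (fun z _ => z.2) (by simp) ?_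
    (fun y _ => ⟨((u - κ i - d i * y) / c i, y), mem_filter.2 ⟨mem_univ _, by
      unfold fm; field_simp; ring⟩, rfl⟩)
  intro z hz z' hz' h
  replace hz := (mem_filter.1 hz).2
  replace hz' := (mem_filter.1 hz').2
  unfold fm at hz hz'
  refine Prod.ext (mul_left_cancel₀ hc ?_) h
  rw [h] at hz; linear_combination hz - hz'

omit [Fintype K] [DecidableEq K] in
lemma fm_inj (c d κ : Fin J → K) {i j : Fin J} (h : c i * d j ≠ c j * d i) {z z' : K × K}
    (h1 : fm c d κ i z = fm c d κ i z') (h2 : fm c d κ j z = fm c d κ j z') : z = z' := by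
  have h' : c i * d j - c j * d i ≠ 0 := sub_ne_zero.2 h
  unfold fm at h1 h2
  refine Prod.ext (mul_left_cancel₀ h' ?_) (mul_left_cancel₀ h' ?_)
  · linear_combination d j * h1 - d i * h2
  · linear_combination c i * h2 - c j * h1

omit [Fintype K] [DecidableEq K] in
lemma fm_surj (c d κ : Fin J → K) {i j : Fin J} (h : c i * d j ≠ c j * d i) (u v : K) :
    ∃ z, fm c d κ i z = u ∧ fm c d κ j z = v := by
  have h' : c i * d j - c j * d i ≠ 0 := sub_ne_zero.2 h
  obtain ⟨w, hw⟩ : ∃ w, w * (c i * d j - c j * d i) = 1 := ⟨_, inv_mul_cancel₀ h'⟩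
  refine ⟨((d j * (u - κ i) - d i * (v - κ j)) * w, (c i * (v - κ j) - c j * (u - κ i)) * w), ?_, ?_⟩
  · unfold fm; linear_combination (u - κ i) * hw
  · unfold fm; linear_combination (v - κ j) * hw

lemma pow_le_quad (δ : ℝ) (h0 : 0 ≤ δ) (h1 : δ ≤ 1) (n : ℕ) :
    (1 - δ) ^ n ≤ 1 - n * δ + n ^ 2 * δ ^ 2 := by
  induction n with
  | zero => simp
  | succ n ih =>
    rw [pow_succ]
    refine (mul_le_mul_of_nonneg_right ih (by linarith)).trans ?_
    push_cast
    have : (0 : ℝ) ≤ n := Nat.cast_nonneg n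
    nlinarith [mul_nonneg this (sq_nonneg δ), mul_nonneg (sq_nonneg (n : ℝ)) (mul_nonneg h0 (sq_nonneg δ)), sq_nonneg δ]

lemma bern (δ : ℝ) (h1 : δ ≤ 1) (n : ℕ) : 1 - n * δ ≤ (1 - δ) ^ n := by
  have := one_add_mul_le_pow (a := -δ) (by linarith) n
  simpa [sub_eq_add_neg] using this

lemma sum_ite_fm (c d κ : Fin J → K) (i : Fin J) (hc : c i ≠ 0) (B : Finset K) :
    ∑ z : K × K, (if fm c d κ i z ∈ B then (1 : ℝ) else 0) = B.card * Fintype.card K := by
  have : ∀ z : K × K, (if fm c d κ i z ∈ B then (1 : ℝ) else 0) =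
      ∑ u ∈ B, if fm c d κ i z = u then (1 : ℝ) else 0 := fun z => by
    rw [sum_ite_eq]
  simp only [this]
  rw [sum_comm]
  simp only [sum_boole, card_fm c d κ i hc, sum_const, nsmul_eq_mul]

lemma step0 (c d κ : Fin J → K) (hc : ∀ i, c i ≠ 0) (hdet : ∀ i j, i ≠ j → c i * d j ≠ c j * d i)
    (δ : ℝ) (hδ : δ * Fintype.card K = 1) (hJ : 2 * J * δ ≤ 1) (h : K) (U : Finset (Fin J)) :
    ∃ ω : K × K → ℝ, (∀ z, 0 ≤ ω z) ∧ (∀ z, ω z ≠ 0 → ∀ i ∈ U, fm c d κ i z ≠ h) ∧
      (1 - δ) ^ U.card * (1 - 2 * (J ^ 2 + J ^ 4) * δ ^ 2) ≤ ∑ z, ω z ∧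
      ∀ i u, ∑ z ∈ univ.filter (fun z => fm c d κ i z = u), ω z ≤ (1 - δ) ^ (U.erase i).card * δ := by
  have hp : (0 : ℝ) < Fintype.card K := by exact_mod_cast Fintype.card_pos
  have hδ0 : 0 < δ := by
    by_contra h0; push Not at h0; nlinarith
  have hJ0 : (0 : ℝ) ≤ J := Nat.cast_nonneg _
  have hδ1 : δ ≤ 1 := by
    have : (1 : ℝ) ≤ Fintype.card K := by exact_mod_cast Fintype.card_pos
    nlinarith
  have hUJ : ∀ V : Finset (Fin J), (V.card : ℝ) ≤ J := fun V => by
    exact_mod_cast (card_le_univ V).trans (Fintype.card_fin J).le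
  have hP : ∀ j k : Fin J, ∃ z, j ≠ k → fm c d κ j z = h ∧ fm c d κ k z = h := by
    intro j k
    by_cases hjk : j = k
    · exact ⟨(0, 0), fun h => absurd hjk h⟩
    · obtain ⟨z, hz⟩ := fm_surj c d κ (hdet j k hjk) h h
      exact ⟨z, fun _ => hz⟩
  choose P hP using hP
  set Bad : Fin J → Finset K := fun i => univ.image fun jk : Fin J × Fin J => fm c d κ i (P jk.1 jk.2)
    with hBad
  have hBadc : ∀ i, ((Bad i).card : ℝ) ≤ J ^ 2 := fun i => by
    have := card_image_le (s := (univ : Finset (Fin J × Fin J)))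
      (f := fun jk : Fin J × Fin J => fm c d κ i (P jk.1 jk.2))
    rw [card_univ, Fintype.card_prod, Fintype.card_fin] at this
    rw [sq]; exact_mod_cast this
  set ω : K × K → ℝ := fun z => δ ^ 2 * ((if ∀ i ∈ U, fm c d κ i z ≠ h then 1 else 0) *
    (if ∃ i, fm c d κ i z ∈ Bad i then 1 - J * δ else 1)) with hω
  have hJδ : 0 ≤ 1 - J * δ := by nlinarith
  have hJδ0 : 0 ≤ J * δ := by positivity
  refine ⟨ω, fun z => ?_, fun z hz => ?_, ?_, fun i u => ?_⟩
  · simp only [hω]; split_ifs <;> positivity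
  · by_contra hc'
    apply hz
    simp only [hω]; rw [if_neg hc']; simp
  · have h1 : ∀ z, δ ^ 2 * (1 - ∑ i ∈ U, (if fm c d κ i z ∈ ({h} : Finset K) then (1 : ℝ) else 0) -
        J * δ * ∑ i, (if fm c d κ i z ∈ Bad i then (1 : ℝ) else 0)) ≤ ω z := by
      intro z
      simp only [hω]
      apply mul_le_mul_of_nonneg_left _ (by positivity)
      have a1 : 0 ≤ ∑ i ∈ U, (if fm c d κ i z ∈ ({h} : Finset K) then (1 : ℝ) else 0) :=
        sum_nonneg fun i _ => by split_ifs <;> norm_num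
      have a2 : 0 ≤ ∑ i, (if fm c d κ i z ∈ Bad i then (1 : ℝ) else 0) :=
        sum_nonneg fun i _ => by split_ifs <;> norm_num
      have a3 : (¬ ∀ i ∈ U, fm c d κ i z ≠ h) →
          1 ≤ ∑ i ∈ U, (if fm c d κ i z ∈ ({h} : Finset K) then (1 : ℝ) else 0) := by
        intro hh; push Not at hh
        obtain ⟨i, hi, hi'⟩ := hh
        refine le_trans ?_ (single_le_sum (fun i _ => by split_ifs <;> norm_num) hi)
        simp [hi']
      have a4 : (∃ i, fm c d κ i z ∈ Bad i) →
          1 ≤ ∑ i, (if fm c d κ i z ∈ Bad i then (1 : ℝ) else 0) := by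
        rintro ⟨i, hi⟩
        refine le_trans ?_ (single_le_sum (fun i _ => by split_ifs <;> norm_num) (mem_univ i))
        simp [hi]
      split_ifs with b1 b2 b2
      · nlinarith [mul_le_mul_of_nonneg_left (a4 b2) hJδ0]
      · nlinarith [mul_nonneg hJδ0 a2]
      · nlinarith [mul_nonneg hJδ0 a2, a3 b1]
      · nlinarith [mul_nonneg hJδ0 a2, a3 b1]
    refine le_trans ?_ (sum_le_sum fun z _ => h1 z)
    rw [← mul_sum, sum_sub_distrib, sum_sub_distrib, ← mul_sum, sum_comm, sum_comm (s := univ) (t := univ)]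
    simp only [sum_ite_fm c d κ _ (hc _), card_singleton, sum_const, card_univ, Fintype.card_prod,
      nsmul_eq_mul]
    have h2 : ∑ i, ((Bad i).card : ℝ) * Fintype.card K ≤ J * (J ^ 2 * Fintype.card K) := by
      refine (sum_le_sum fun i _ => mul_le_mul_of_nonneg_right (hBadc i) hp.le).trans ?_
      simp
    have h3 := pow_le_quad δ hδ0.le hδ1 U.card
    have h4 := bern δ hδ1 U.card
    have h5 := hUJ U
    have h6 : (0 : ℝ) ≤ U.card := Nat.cast_nonneg _
    push_cast
    set p : ℝ := (Fintype.card K : ℝ)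
    set n : ℝ := (U.card : ℝ)
    have e1 : δ ^ 2 * (p * p * 1 - n * (1 * p) - J * δ * (J * (J ^ 2 * p))) =
        1 - n * δ - J ^ 4 * δ ^ 2 := by
      have : δ ^ 2 * (p * p * 1 - n * (1 * p) - J * δ * (J * (J ^ 2 * p))) =
        (δ * p) ^ 2 - n * δ * (δ * p) - J ^ 4 * δ ^ 2 * (δ * p) := by ring
      rw [this, hδ]; ring
    have h7 : 1 / 2 ≤ (1 - δ) ^ U.card := by nlinarith
    have h8 : n ^ 2 * δ ^ 2 ≤ J ^ 2 * δ ^ 2 :=
      mul_le_mul_of_nonneg_right (pow_le_pow_left₀ h6 h5 2) (by positivity)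
    have h9 : 0 ≤ (J ^ 2 + J ^ 4) * δ ^ 2 := by positivity
    calc _ ≤ 1 - n * δ - J ^ 4 * δ ^ 2 := by nlinarith
      _ = _ := e1.symm
      _ ≤ _ := by
        apply mul_le_mul_of_nonneg_left _ (by positivity)
        nlinarith [mul_le_mul_of_nonneg_left h2 hJδ0]
  · have h4 := bern δ hδ1 (U.erase i).card
    by_cases hu : u ∈ Bad i
    · have : ∀ z ∈ univ.filter (fun z => fm c d κ i z = u), ω z ≤ δ ^ 2 * (1 - J * δ) := by
        intro z hz
        simp only [hω]
        rw [if_pos (⟨i, by rw [(mem_filter.1 hz).2]; exact hu⟩ : ∃ i, fm c d κ i z ∈ Bad i)]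
        apply mul_le_mul_of_nonneg_left _ (by positivity)
        split_ifs <;> nlinarith
      refine (sum_le_sum this).trans ?_
      rw [sum_const, card_fm c d κ i (hc i), nsmul_eq_mul]
      have e1 : (Fintype.card K : ℝ) * (δ ^ 2 * (1 - J * δ)) = (δ * Fintype.card K) * ((1 - J * δ) * δ) := by
        ring
      rw [e1, hδ, one_mul]
      apply mul_le_mul_of_nonneg_right _ hδ0.le
      nlinarith [hUJ (U.erase i)]
    · have hQ : ∀ j : Fin J, ∃ z, j ≠ i → fm c d κ i z = u ∧ fm c d κ j z = h := by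
        intro j
        by_cases hj : j = i
        · exact ⟨(0, 0), fun h => absurd hj h⟩
        · obtain ⟨z, hz⟩ := fm_surj c d κ (hdet i j (Ne.symm hj)) u h
          exact ⟨z, fun _ => hz⟩
      choose Z hZ using hQ
      have hinj : Set.InjOn Z (U.erase i : Finset (Fin J)) := by
        intro j hj k hk hjk
        by_contra hne
        have hj' := hZ j (ne_of_mem_erase hj)
        have hk' := hZ k (ne_of_mem_erase hk)
        have hPz : P j k = Z j := fm_inj c d κ (hdet j k hne) ((hP j k hne).1.trans hj'.2.symm)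
          ((hP j k hne).2.trans (hjk ▸ hk'.2.symm))
        exact hu (mem_image.2 ⟨(j, k), mem_univ _, by rw [hPz]; exact hj'.1⟩)
      have hsub : (U.erase i).image Z ⊆ univ.filter (fun z => fm c d κ i z = u) := by
        intro z hz
        obtain ⟨j, hj, rfl⟩ := mem_image.1 hz
        exact mem_filter.2 ⟨mem_univ _, (hZ j (ne_of_mem_erase hj)).1⟩
      rw [← sum_sdiff hsub]
      have z1 : ∑ z ∈ (U.erase i).image Z, ω z = 0 := sum_eq_zero fun z hz => by
        obtain ⟨j, hj, rfl⟩ := mem_image.1 hz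
        simp only [hω]
        rw [if_neg (fun hh => hh j (mem_of_mem_erase hj) (hZ j (ne_of_mem_erase hj)).2)]; simp
      have z2 : ∀ z ∈ univ.filter (fun z => fm c d κ i z = u) \ (U.erase i).image Z, ω z ≤ δ ^ 2 := by
        intro z _
        simp only [hω]
        apply mul_le_of_le_one_right (by positivity)
        split_ifs <;> nlinarith
      rw [z1, add_zero]
      refine (sum_le_sum z2).trans ?_
      rw [sum_const, nsmul_eq_mul]
      have z3 := card_sdiff_add_card_eq_card hsub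
      rw [card_image_of_injOn hinj, card_fm c d κ i (hc i)] at z3
      have z4 : ((univ.filter (fun z => fm c d κ i z = u) \ (U.erase i).image Z).card : ℝ) =
          Fintype.card K - (U.erase i).card := by
        rw [← z3]; push_cast; ring
      rw [z4]
      have e1 : ((Fintype.card K : ℝ) - (U.erase i).card) * δ ^ 2 =
          (δ * Fintype.card K - (U.erase i).card * δ) * δ := by ring
      rw [e1, hδ]
      exact mul_le_mul_of_nonneg_right h4 hδ0.le

lemma step1 (c d κ : Fin J → K) (hc : ∀ i, c i ≠ 0) (hdet : ∀ i j, i ≠ j → c i * d j ≠ c j * d i)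
    (δ : ℝ) (hδ : δ * Fintype.card K = 1) (h : K) (U : Finset (Fin J)) (l : Fin J) :
    ∃ ω : K × K → ℝ, (∀ z, 0 ≤ ω z) ∧
      (∀ z, ω z ≠ 0 → fm c d κ l z = h ∧ ∀ i ∈ U.erase l, fm c d κ i z ≠ h) ∧
      δ * (1 - J * δ) ≤ ∑ z, ω z ∧ ∑ z, ω z ≤ δ ∧
      ∀ i, i ≠ l → ∀ u, ∑ z ∈ univ.filter (fun z => fm c d κ i z = u), ω z ≤ δ ^ 2 := by
  have hp : (0 : ℝ) < Fintype.card K := by exact_mod_cast Fintype.card_pos
  have hδ0 : 0 < δ := by
    by_contra h0; push Not at h0; nlinarith
  set A : Finset (K × K) := univ.filter fun z => fm c d κ l z = h ∧ ∀ i ∈ U.erase l, fm c d κ i z ≠ h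
    with hA
  have hone : ∀ i, i ≠ l → ∀ u, (univ.filter fun z => fm c d κ l z = h ∧ fm c d κ i z = u).card ≤ 1 := by
    intro i hi u
    rw [card_le_one]
    intro z hz z' hz'
    rw [mem_filter] at hz hz'
    exact fm_inj c d κ (hdet l i (Ne.symm hi)) (hz.2.1.trans hz'.2.1.symm) (hz.2.2.trans hz'.2.2.symm)
  have hsum : ∑ z, (if z ∈ A then δ ^ 2 else 0) = A.card * δ ^ 2 := by
    rw [sum_ite_mem, univ_inter, sum_const, nsmul_eq_mul]
  refine ⟨fun z => if z ∈ A then δ ^ 2 else 0, fun z => by beta_reduce; split_ifs <;> positivity, fun z hz => ?_,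
    ?_, ?_, fun i hi u => ?_⟩
  · have : z ∈ A := by by_contra h'; exact hz (if_neg h')
    exact (mem_filter.1 this).2
  · rw [hsum]
    have h1 : (univ.filter fun z => fm c d κ l z = h) ⊆ A ∪ (U.erase l).biUnion
        (fun i => univ.filter fun z => fm c d κ l z = h ∧ fm c d κ i z = h) := by
      intro z hz
      by_cases hz' : ∀ i ∈ U.erase l, fm c d κ i z ≠ h
      · exact mem_union_left _ (mem_filter.2 ⟨mem_univ _, (mem_filter.1 hz).2, hz'⟩)
      · push Not at hz'
        obtain ⟨i, hi, hi'⟩ := hz'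
        exact mem_union_right _ (mem_biUnion.2 ⟨i, hi, mem_filter.2 ⟨mem_univ _, (mem_filter.1 hz).2, hi'⟩⟩)
    have h2 := (card_le_card h1).trans (card_union_le _ _)
    rw [card_fm c d κ l (hc l)] at h2
    have h3 := card_biUnion_le_card_mul (U.erase l)
      (fun i => univ.filter fun z => fm c d κ l z = h ∧ fm c d κ i z = h) 1
      (fun i hi => hone i (ne_of_mem_erase hi) h)
    have h4 : (U.erase l).card ≤ J := (card_le_univ _).trans (Fintype.card_fin J).le
    have h5 : (Fintype.card K : ℝ) ≤ A.card + J := by exact_mod_cast (by omega)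
    nlinarith [mul_le_mul_of_nonneg_right h5 (sq_nonneg δ)]
  · rw [hsum]
    have h1 : A ⊆ univ.filter fun z => fm c d κ l z = h := fun z hz =>
      mem_filter.2 ⟨mem_univ _, (mem_filter.1 hz).2.1⟩
    have h2 := card_le_card h1
    rw [card_fm c d κ l (hc l)] at h2
    have h3 : (A.card : ℝ) ≤ Fintype.card K := by exact_mod_cast h2
    nlinarith [mul_le_mul_of_nonneg_right h3 (sq_nonneg δ)]
  · rw [sum_ite_mem, sum_const, nsmul_eq_mul]
    have h1 : (univ.filter (fun z => fm c d κ i z = u) ∩ A).card ≤ 1 := by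
      refine le_trans (card_le_card fun z hz => ?_) (hone i hi u)
      rw [mem_inter] at hz
      exact mem_filter.2 ⟨mem_univ _, (mem_filter.1 hz.2).2.1, (mem_filter.1 hz.1).2⟩
    have h2 : ((univ.filter (fun z => fm c d κ i z = u) ∩ A).card : ℝ) ≤ 1 := by exact_mod_cast h1
    nlinarith [sq_nonneg δ]

end Step

end Crest.Agent.UF
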