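import Crest.Agent.UF.Pack1

set_option autoImplicit false
open Finset

namespace Crest.Agent.UF

variable {J : ℕ}

/-- integral forms -/
def fz (c : Fin J → ℕ) (d κ : Fin J → ℤ) (i : Fin J) (z : ℤ × ℤ) : ℤ := c i * z.1 + d i * z.2 + κ i

/-- label: first base-`p` digit equal to `h` -/
def lab (p h : ℤ) : List (Fin J) → ℤ → Option (Fin J)
  | [], _ => none
  | l :: ls, y => if y % p = h then some l else lab p h ls (y / p)

/-- density of a label -/
noncomputable def gl (δ : ℝ) (i : Fin J) : List (Fin J) → ℝ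
  | [] => 0
  | l :: ls => (if l = i then δ else 0) + (1 - δ) * gl δ i ls

lemma gl_nonneg {δ : ℝ} (h0 : 0 ≤ δ) (h1 : δ ≤ 1) (i : Fin J) (ls : List (Fin J)) : 0 ≤ gl δ i ls := by
  induction ls with
  | nil => exact le_rfl
  | cons l ls ih =>
    unfold gl
    exact add_nonneg (by split_ifs <;> linarith) (mul_nonneg (by linarith) ih)

lemma ediv_modEq {p m y y' : ℤ} (hp : 0 < p) (h : y ≡ y' [ZMOD (p * m)]) :
    y % p = y' % p ∧ y / p ≡ y' / p [ZMOD m] := by
  obtain ⟨t, ht⟩ := h.dvd
  have e : y' = y + p * (m * t) := by linarith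
  subst e
  refine ⟨by rw [Int.add_mul_emod_self_left], ?_⟩
  rw [Int.add_mul_ediv_left _ _ hp.ne']
  exact Int.modEq_iff_dvd.2 ⟨t, by ring⟩

lemma lab_congr {p h : ℤ} (hp : 0 < p) (ls : List (Fin J)) :
    ∀ y y' : ℤ, y ≡ y' [ZMOD p ^ ls.length] → lab p h ls y = lab p h ls y' := by
  induction ls with
  | nil => intro y y' _; rfl
  | cons l ls ih =>
    intro y y' hy
    rw [List.length_cons, pow_succ'] at hy
    obtain ⟨h1, h2⟩ := ediv_modEq hp hy
    unfold lab
    rw [h1, ih _ _ h2]

lemma lab_symm {p h : ℤ} (hp : 0 < p) (hh : p = 2 * h + 1) (ls : List (Fin J)) :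
    ∀ y : ℤ, lab p h ls (-1 - y) = lab p h ls y := by
  induction ls with
  | nil => intro y; rfl
  | cons l ls ih =>
    intro y
    have h1 := Int.emod_nonneg y hp.ne'
    have h2 := Int.emod_lt_of_pos y hp
    have h3 := Int.emod_add_mul_ediv y p
    have h4 : (-1 - y) / p = -1 - y / p ∧ (-1 - y) % p = p - 1 - y % p :=
      (Int.ediv_emod_unique hp).2 ⟨by linarith, by linarith, by linarith⟩
    unfold lab
    rw [h4.1, h4.2, ih]
    congr 1
    exact propext ⟨fun e => by linarith, fun e => by linarith⟩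

lemma prod_gl_cons (δ : ℝ) (l : Fin J) (ls : List (Fin J)) (V : Finset (Fin J)) (hδ0 : 0 ≤ δ)
    (hδ1 : δ ≤ 1) :
    (1 - δ) ^ V.card * ∏ i ∈ V, gl δ i ls +
      (if l ∈ V then δ * (1 - δ) ^ (V.erase l).card * ∏ i ∈ V.erase l, gl δ i ls else 0) =
      ∏ i ∈ V, gl δ i (l :: ls) := by
  have h1 : ∀ W : Finset (Fin J), l ∉ W → ∏ i ∈ W, gl δ i (l :: ls) =
      (1 - δ) ^ W.card * ∏ i ∈ W, gl δ i ls := by
    intro W hW
    rw [← prod_const, ← prod_mul_distrib]
    refine prod_congr rfl fun i hi => ?_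
    rw [gl, if_neg (by rintro rfl; exact hW hi), zero_add]
  split_ifs with hl
  · rw [← mul_prod_erase V _ hl, ← mul_prod_erase V _ hl, h1 _ (notMem_erase l V),
      ← card_erase_add_one hl, gl, if_pos rfl]
    ring
  · rw [h1 V hl, add_zero]

theorem recursion (c : Fin J → ℕ) (d : Fin J → ℤ) (p : ℕ) [Fact p.Prime] (h : ℤ)
    (hh : (p : ℤ) = 2 * h + 1) (hc : ∀ i, (c i : ZMod p) ≠ 0)
    (hdet : ∀ i j, i ≠ j → (c i : ZMod p) * (d j : ZMod p) ≠ c j * d i)
    (δ : ℝ) (hδ : δ * p = 1) (hJ : 2 * (J + 1) * δ ≤ 1) (hJ2 : 2 * (J ^ 2 + J ^ 4) * δ ^ 2 ≤ 1)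
    (ls : List (Fin J)) :
    ∃ (α : Type) (_ : Fintype α) (pos : α → ℤ × ℤ), ∀ (U : Finset (Fin J)) (κ : Fin J → ℤ),
      ∃ ω : α → ℝ, (∀ a, 0 ≤ ω a) ∧
        (∀ a, ω a ≠ 0 → ∀ i ∈ U, lab p h ls (fz c d κ i (pos a)) = some i) ∧
        (1 - 2 * (J ^ 2 + J ^ 4) * δ ^ 2) ^ ls.length * (1 - (J + 1) * δ) ^ U.card *
          ∏ i ∈ U, gl δ i ls ≤ ∑ a, ω a ∧
        ∀ i (y : ℤ), ∑ a ∈ univ.filter (fun a => fz c d κ i (pos a) ≡ y [ZMOD (p : ℤ) ^ ls.length]),
          ω a ≤ δ ^ ls.length * ∏ j ∈ U.erase i, gl δ j ls := by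
  classical
  have hp0 : (0 : ℤ) < p := by exact_mod_cast (Fact.out : p.Prime).pos
  have hpR : (0 : ℝ) < p := by exact_mod_cast (Fact.out : p.Prime).pos
  have hδ0 : 0 < δ := by by_contra h0; push Not at h0; nlinarith
  have hJ0 : (0 : ℝ) ≤ J := Nat.cast_nonneg _
  have hδ1 : δ ≤ 1 := by nlinarith
  have hcard : δ * Fintype.card (ZMod p) = 1 := by rw [ZMod.card]; exact hδ
  have hh0 : 0 ≤ h := by omega
  have hh1 : h < p := by omega
  induction ls with
  | nil =>
    refine ⟨Unit, inferInstance, fun _ => (0, 0), fun U κ => ?_⟩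
    by_cases hU : U = ∅
    · subst hU
      refine ⟨fun _ => 1, fun _ => zero_le_one, by simp, by simp, fun i y => ?_⟩
      refine (sum_le_sum_of_subset_of_nonneg (filter_subset _ _) (fun _ _ _ => zero_le_one)).trans ?_
      simp
    · refine ⟨fun _ => 0, fun _ => le_rfl, by simp, ?_, fun i y => ?_⟩
      · obtain ⟨i, hi⟩ := nonempty_iff_ne_empty.2 hU
        rw [prod_eq_zero hi (by rfl)]; simp
      · simp only [sum_const_zero]
        exact mul_nonneg (by positivity) (prod_nonneg fun j _ => gl_nonneg hδ0.le hδ1 j _)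
  | cons l ls ih =>
    obtain ⟨α, hα, pos, ih⟩ := ih
    choose W hW0 hW1 hW2 hW3 using ih
    let lift : ZMod p × ZMod p → ℤ × ℤ := fun z => ((z.1.val : ℤ), (z.2.val : ℤ))
    refine ⟨(ZMod p × ZMod p) × α, inferInstance,
      fun x => ((lift x.1).1 + p * (pos x.2).1, (lift x.1).2 + p * (pos x.2).2), fun U κ => ?_⟩
    set cK : Fin J → ZMod p := fun i => c i
    set dK : Fin J → ZMod p := fun i => d i
    set κK : Fin J → ZMod p := fun i => κ i
    obtain ⟨ω₀, a0, a1, a2, a3⟩ := step0 cK dK κK hc hdet δ hcard (by nlinarith) (h : ZMod p) U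
    obtain ⟨ω₁, b0, b1, b2, b3, b4⟩ := step1 cK dK κK hc hdet δ hcard (h : ZMod p) U l
    set κ' : ZMod p × ZMod p → Fin J → ℤ := fun z i => fz c d κ i (lift z) / p with hκ'
    have hcast : ∀ z i, ((fz c d κ i (lift z) : ℤ) : ZMod p) = fm cK dK κK i z := by
      intro z i
      simp [fz, fm, lift, cK, dK, κK]
    have hdig : ∀ z i (y : ℤ), fz c d κ i (lift z) % p = y % p ↔ fm cK dK κK i z = (y : ZMod p) := by
      intro z i y
      rw [← hcast, ZMod.intCast_eq_intCast_iff']
    have hdec : ∀ (z : ZMod p × ZMod p) (a : α) i,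
        fz c d κ i ((lift z).1 + p * (pos a).1, (lift z).2 + p * (pos a).2) % p =
          fz c d κ i (lift z) % p ∧
        fz c d κ i ((lift z).1 + p * (pos a).1, (lift z).2 + p * (pos a).2) / p =
          fz c d (κ' z) i (pos a) := by
      intro z a i
      have e : fz c d κ i ((lift z).1 + p * (pos a).1, (lift z).2 + p * (pos a).2) =
          fz c d κ i (lift z) + p * (c i * (pos a).1 + d i * (pos a).2) := by
        simp only [fz]; ring
      rw [e, Int.add_mul_emod_self_left, Int.add_mul_ediv_left _ _ hp0.ne']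
      refine ⟨rfl, ?_⟩
      simp only [hκ']; rw [add_comm]; rfl
    have hhp : h % p = h := Int.emod_eq_of_lt hh0 hh1
    set s : ℝ := if l ∈ U then (1 - δ) ^ U.card else 0 with hs
    have hs0 : 0 ≤ s := by rw [hs]; split_ifs; exacts [pow_nonneg (by linarith) _, le_rfl]
    have hG : ∀ V : Finset (Fin J), 0 ≤ ∏ i ∈ V, gl δ i ls := fun V =>
      prod_nonneg fun j _ => gl_nonneg hδ0.le hδ1 j _
    set A : ℝ := 1 - 2 * (J ^ 2 + J ^ 4) * δ ^ 2 with hA
    set B : ℝ := 1 - (J + 1) * δ with hB
    have hA0 : 0 ≤ A := by linarith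
    have hA1 : A ≤ 1 := by
      have : 0 ≤ 2 * ((J : ℝ) ^ 2 + J ^ 4) * δ ^ 2 := by positivity
      linarith
    have hB0 : 0 ≤ B := by nlinarith
    refine ⟨fun x => ω₀ x.1 * W U (κ' x.1) x.2 + s * (ω₁ x.1 * W (U.erase l) (κ' x.1) x.2),
      fun x => add_nonneg (mul_nonneg (a0 _) (hW0 _ _ _))
        (mul_nonneg hs0 (mul_nonneg (b0 _) (hW0 _ _ _))), ?_, ?_, fun i y => ?_⟩
    · rintro ⟨z, a⟩ hx i hi
      simp only at hx ⊢
      rw [lab, (hdec z a i).1, (hdec z a i).2]
      by_cases h0 : ω₀ z * W U (κ' z) a = 0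
      · rw [h0, zero_add] at hx
        have h1 := right_ne_zero_of_mul hx
        have h2 := b1 z (left_ne_zero_of_mul h1)
        by_cases hil : i = l
        · subst hil
          rw [if_pos (by rw [← hhp, hdig]; exact h2.1)]
        · have hi' : i ∈ U.erase l := mem_erase.2 ⟨hil, hi⟩
          rw [if_neg (by rw [← hhp, hdig]; exact h2.2 i hi')]
          exact hW1 _ _ a (right_ne_zero_of_mul h1) i hi'
      · rw [if_neg (by rw [← hhp, hdig]; exact a1 z (left_ne_zero_of_mul h0) i hi)]
        exact hW1 _ _ a (right_ne_zero_of_mul h0) i hi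
    · rw [Fintype.sum_prod_type]
      simp only [sum_add_distrib, ← mul_sum]
      have c1 : (∑ z, ω₀ z) * (A ^ ls.length * B ^ U.card * ∏ i ∈ U, gl δ i ls) ≤
          ∑ z, ω₀ z * ∑ a, W U (κ' z) a := by
        rw [sum_mul]; exact sum_le_sum fun z _ => mul_le_mul_of_nonneg_left (hW2 _ _) (a0 z)
      have c2 : (∑ z, ω₁ z) * (A ^ ls.length * B ^ (U.erase l).card * ∏ i ∈ U.erase l, gl δ i ls) ≤
          ∑ z, ω₁ z * ∑ a, W (U.erase l) (κ' z) a := by
        rw [sum_mul]; exact sum_le_sum fun z _ => mul_le_mul_of_nonneg_left (hW2 _ _) (b0 z)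
      have c3 := (mul_le_mul_of_nonneg_right a2 (mul_nonneg (mul_nonneg (pow_nonneg hA0 ls.length)
        (pow_nonneg hB0 U.card)) (hG U))).trans c1
      have c4 := (mul_le_mul_of_nonneg_right b2 (mul_nonneg (mul_nonneg (pow_nonneg hA0 ls.length)
        (pow_nonneg hB0 (U.erase l).card)) (hG (U.erase l)))).trans c2
      refine le_trans ?_ (add_le_add c3 (mul_le_mul_of_nonneg_left c4 hs0))
      rw [← prod_gl_cons δ l ls U hδ0.le hδ1, List.length_cons, mul_add]
      apply add_le_add (le_of_eq (by ring))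
      rw [hs]
      split_ifs with hl
      · rw [← card_erase_add_one hl]
        have e1 : A * B ≤ (1 - δ) * (1 - J * δ) := by
          have : B ≤ (1 - δ) * (1 - J * δ) := by rw [hB]; nlinarith [mul_nonneg hJ0 (sq_nonneg δ)]
          nlinarith
        have e2 : 0 ≤ A ^ ls.length * B ^ (U.erase l).card * (δ * (1 - δ) ^ (U.erase l).card *
            ∏ i ∈ U.erase l, gl δ i ls) :=
          mul_nonneg (mul_nonneg (pow_nonneg hA0 _) (pow_nonneg hB0 _))
            (mul_nonneg (mul_nonneg hδ0.le (pow_nonneg (by linarith) _)) (hG _))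
        have := mul_le_mul_of_nonneg_right e1 e2
        calc _ = A * B * (A ^ ls.length * B ^ (U.erase l).card * (δ * (1 - δ) ^ (U.erase l).card *
            ∏ i ∈ U.erase l, gl δ i ls)) := by ring
          _ ≤ _ := this
          _ = _ := by ring
      · simp
    · rw [sum_filter, Fintype.sum_prod_type]
      have key : ∀ z : ZMod p × ZMod p, (∑ a : α, if fz c d κ i ((lift z).1 + p * (pos a).1,
          (lift z).2 + p * (pos a).2) ≡ y [ZMOD (p : ℤ) ^ (l :: ls).length] then
          ω₀ z * W U (κ' z) a + s * (ω₁ z * W (U.erase l) (κ' z) a) else 0) ≤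
          if fm cK dK κK i z = (y : ZMod p) then
            ω₀ z * (δ ^ ls.length * ∏ j ∈ U.erase i, gl δ j ls) +
            s * (ω₁ z * (δ ^ ls.length * ∏ j ∈ (U.erase l).erase i, gl δ j ls)) else 0 := by
        intro z
        split_ifs with hz
        · refine le_trans ?_ (add_le_add (mul_le_mul_of_nonneg_left (hW3 U (κ' z) i (y / p)) (a0 z))
            (mul_le_mul_of_nonneg_left (mul_le_mul_of_nonneg_left
              (hW3 (U.erase l) (κ' z) i (y / p)) (b0 z)) hs0))
          rw [mul_sum, mul_sum, mul_sum, ← sum_add_distrib, sum_filter]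
          refine sum_le_sum fun a _ => ?_
          split_ifs with h1 h2
          · exact le_rfl
          · exfalso; apply h2
            rw [List.length_cons, pow_succ'] at h1
            have := (ediv_modEq hp0 h1).2
            rwa [(hdec z a i).2] at this
          · exact add_nonneg (mul_nonneg (a0 _) (hW0 _ _ _))
              (mul_nonneg hs0 (mul_nonneg (b0 _) (hW0 _ _ _)))
          · exact le_rfl
        · refine le_of_eq (sum_eq_zero fun a _ => if_neg fun h1 => hz ?_)
          rw [List.length_cons, pow_succ'] at h1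
          have := (ediv_modEq hp0 h1).1
          rwa [(hdec z a i).1, hdig] at this
      refine (sum_le_sum fun z _ => key z).trans ?_
      rw [← sum_filter, sum_add_distrib, ← mul_sum, ← sum_mul, ← sum_mul,
        ← prod_gl_cons δ l ls (U.erase i) hδ0.le hδ1, List.length_cons]
      have hδn : 0 ≤ δ ^ ls.length := by positivity
      have d1 := mul_le_mul_of_nonneg_right (a3 i (y : ZMod p)) (mul_nonneg hδn (hG (U.erase i)))
      have hpw : ∀ V : Finset (Fin J), V ⊆ U → (1 - δ) ^ U.card ≤ (1 - δ) ^ V.card := fun V hV =>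
        pow_le_pow_of_le_one (by linarith) (by linarith) (card_le_card hV)
      by_cases hl : l ∈ U
      · rw [hs, if_pos hl]
        by_cases hil : i = l
        · subst hil
          rw [if_neg (notMem_erase i U), erase_idem, add_zero]
          by_cases hy : (y : ZMod p) = h
          · have z1 : ∑ z ∈ univ.filter (fun z => fm cK dK κK i z = (y : ZMod p)), ω₀ z = 0 :=
              sum_eq_zero fun z hz => by
                by_contra hne
                exact a1 z hne i hl ((mem_filter.1 hz).2.trans hy)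
            have z2 : ∑ z ∈ univ.filter (fun z => fm cK dK κK i z = (y : ZMod p)), ω₁ z ≤ δ :=
              (sum_le_sum_of_subset_of_nonneg (filter_subset _ _) fun z _ _ => b0 z).trans b3
            rw [z1, zero_mul, zero_add]
            calc _ ≤ (1 - δ) ^ (U.erase i).card * (δ * (δ ^ ls.length * ∏ j ∈ U.erase i, gl δ j ls)) :=
                  mul_le_mul (hpw _ (erase_subset _ _))
                    (mul_le_mul_of_nonneg_right z2 (mul_nonneg hδn (hG _)))
                    (mul_nonneg (sum_nonneg fun z _ => b0 z) (mul_nonneg hδn (hG _)))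
                    (pow_nonneg (by linarith) _)
              _ = _ := by ring
          · have z1 : ∑ z ∈ univ.filter (fun z => fm cK dK κK i z = (y : ZMod p)), ω₁ z = 0 :=
              sum_eq_zero fun z hz => by
                by_contra hne
                exact hy ((mem_filter.1 hz).2.symm.trans (b1 z hne).1)
            rw [z1, zero_mul, mul_zero, add_zero]
            exact d1.trans (le_of_eq (by ring))
        · rw [if_pos (mem_erase.2 ⟨Ne.symm hil, hl⟩), mul_add, erase_right_comm]
          apply add_le_add (d1.trans (le_of_eq (by ring)))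
          calc _ ≤ (1 - δ) ^ ((U.erase i).erase l).card * (δ ^ 2 * (δ ^ ls.length *
                ∏ j ∈ (U.erase i).erase l, gl δ j ls)) :=
                mul_le_mul (hpw _ ((erase_subset _ _).trans (erase_subset _ _)))
                  (mul_le_mul_of_nonneg_right (b4 i hil _) (mul_nonneg hδn (hG _)))
                  (mul_nonneg (sum_nonneg fun z _ => b0 z) (mul_nonneg hδn (hG _)))
                  (pow_nonneg (by linarith) _)
            _ = _ := by ring
      · rw [hs, if_neg hl, zero_mul, add_zero, if_neg (fun h' => hl (mem_of_mem_erase h')), add_zero]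
        exact d1.trans (le_of_eq (by ring))

end Crest.Agent.UF
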