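import Crest.Agent.UF.Pack2

set_option autoImplicit false
open Finset

namespace Crest.Agent.UF

variable {J : ℕ}

lemma gl_append (δ : ℝ) (i : Fin J) (l₁ l₂ : List (Fin J)) :
    gl δ i (l₁ ++ l₂) = gl δ i l₁ + (1 - δ) ^ l₁.length * gl δ i l₂ := by
  induction l₁ with
  | nil => simp [gl]
  | cons l ls ih => rw [List.cons_append, gl, gl, ih, List.length_cons]; ring

lemma gl_count {δ : ℝ} (h0 : 0 ≤ δ) (h1 : δ ≤ 1) (i : Fin J) (ls : List (Fin J)) :
    ls.count i * δ * (1 - δ) ^ ls.length ≤ gl δ i ls := by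
  induction ls with
  | nil => simp [gl]
  | cons l ls ih =>
    rw [gl, List.length_cons, List.count_cons]
    have h2 : (1 - δ) ^ (ls.length + 1) ≤ 1 := pow_le_one₀ (by linarith) (by linarith)
    have h3 := mul_le_mul_of_nonneg_left ih (by linarith : 0 ≤ 1 - δ)
    by_cases hl : l = i
    · simp only [hl, beq_self_eq_true, if_true]
      push_cast
      have := mul_le_mul_of_nonneg_left h2 h0
      calc _ = δ * (1 - δ) ^ (ls.length + 1) + (1 - δ) * (ls.count i * δ * (1 - δ) ^ ls.length) := by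
            ring
        _ ≤ _ := by linarith
    · have : (l == i) = false := by simpa using hl
      simp only [this, if_neg hl]
      simp only [Bool.false_eq_true, if_false, add_zero, zero_add]
      calc _ = (1 - δ) * (ls.count i * δ * (1 - δ) ^ ls.length) := by ring
        _ ≤ _ := h3

/-- repeat a pattern -/
def rep (pat : List (Fin J)) : ℕ → List (Fin J)
  | 0 => []
  | k + 1 => pat ++ rep pat k

lemma length_rep (pat : List (Fin J)) (k : ℕ) : (rep pat k).length = k * pat.length := by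
  induction k with
  | zero => simp [rep]
  | succ k ih => rw [rep, List.length_append, ih]; ring

lemma gl_rep {δ : ℝ} (h0 : 0 ≤ δ) (h1 : δ ≤ 1) (i : Fin J) (pat : List (Fin J)) (k : ℕ) :
    gl δ i pat * (1 - ((1 - δ) ^ pat.length) ^ k) ≤ gl δ i (rep pat k) * (pat.length * δ) := by
  induction k with
  | zero => simp [rep, gl]
  | succ k ih =>
    rw [rep, gl_append]
    have h2 := bern δ h1 pat.length
    have h3 := gl_nonneg h0 h1 i pat
    have h4 : 0 ≤ (1 - δ) ^ pat.length := pow_nonneg (by linarith) _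
    have h5 := mul_le_mul_of_nonneg_left ih h4
    have h6 := mul_le_mul_of_nonneg_left h2 h3
    rw [pow_succ]
    nlinarith

lemma pow_le_inv {δ : ℝ} (h0 : 0 ≤ δ) (h1 : δ ≤ 1) (k : ℕ) : (1 - δ) ^ k * (1 + k * δ) ≤ 1 := by
  induction k with
  | zero => simp
  | succ k ih =>
    have h4 : 0 ≤ (1 - δ) ^ k := pow_nonneg (by linarith) _
    have : (1 - δ) * (1 + (k + 1 : ℕ) * δ) ≤ 1 + k * δ := by
      push_cast; nlinarith [mul_nonneg (Nat.cast_nonneg k : (0 : ℝ) ≤ k) (sq_nonneg δ), sq_nonneg δ]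
    calc _ = (1 - δ) ^ k * ((1 - δ) * (1 + (k + 1 : ℕ) * δ)) := by ring
      _ ≤ (1 - δ) ^ k * (1 + k * δ) := mul_le_mul_of_nonneg_left this h4
      _ ≤ 1 := ih

lemma exists_pattern (n : Fin J → ℕ) :
    ∃ pat : List (Fin J), pat.length = ∑ i, n i ∧ ∀ i, pat.count i = n i := by
  refine ⟨(∑ i, Multiset.replicate (n i) i).toList, ?_, fun i => ?_⟩
  · rw [Multiset.length_toList, Multiset.card_sum]; simp
  · rw [← Multiset.coe_count, Multiset.coe_toList, Multiset.count_sum']
    simp [Multiset.count_replicate]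

set_option maxHeartbeats 1600000 in
theorem core (c : Fin J → ℕ) (d : Fin J → ℤ) (hc : ∀ i, 0 < c i)
    (hdet : ∀ i j, i ≠ j → (c i : ℤ) * d j ≠ c j * d i) (w : Fin J → ℝ) (hw : ∀ i, 0 < w i)
    (hsum : 2 * ∑ i, w i ≤ 1) (ε : ℝ) (hε : 0 < ε) (hε1 : ε < 1) :
    ∃ (E : ℕ) (L : ℤ → Option (Fin J)) (α : Type) (_ : Fintype α) (pos : α → ℤ × ℤ), 0 < E ∧
      (∀ y y', y ≡ y' [ZMOD E] → L y = L y') ∧ (∀ y, L (-1 - y) = L y) ∧
      ∀ κ : Fin J → ℤ, ∃ ω : α → ℝ, (∀ a, 0 ≤ ω a) ∧
        (∀ a, ω a ≠ 0 → ∀ i, L (fz c d κ i (pos a)) = some i) ∧ 1 - ε ≤ ∑ a, ω a ∧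
        ∀ i (y : ℤ), ∑ a ∈ univ.filter (fun a => fz c d κ i (pos a) ≡ y [ZMOD E]), ω a ≤
          1 / (E * (2 * w i) * (1 - ε)) := by
  classical
  set η : ℝ := ε / 3 with hη
  have hη0 : 0 < η := by positivity
  obtain ⟨n₀, hn₀⟩ := exists_nat_ge (∑ i, 1 / (η * (2 * w i)))
  have hn₀' : ∀ i, 1 ≤ η * (n₀ * (2 * w i)) := fun i => by
    have h1 : 1 / (η * (2 * w i)) ≤ n₀ := le_trans (single_le_sum
      (f := fun i => 1 / (η * (2 * w i))) (fun i _ => by have := hw i; positivity) (mem_univ i)) hn₀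
    rw [div_le_iff₀ (by have := hw i; positivity)] at h1
    linarith
  set n : Fin J → ℕ := fun i => ⌊n₀ * (2 * w i)⌋₊ with hn
  have hn1 : ∀ i, (1 - η) * (n₀ * (2 * w i)) ≤ n i := fun i => by
    have := Nat.lt_floor_add_one (n₀ * (2 * w i))
    have := hn₀' i
    simp only [hn]; linarith
  have hn2 : ((∑ i, n i : ℕ) : ℝ) ≤ n₀ := by
    push_cast
    refine (sum_le_sum fun i _ => Nat.floor_le (by have := hw i; positivity)).trans ?_
    rw [← mul_sum, ← mul_sum]
    exact mul_le_of_le_one_right (Nat.cast_nonneg _) hsum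
  obtain ⟨pat, hpat1, hpat2⟩ := exists_pattern n
  obtain ⟨A, hA⟩ := exists_nat_ge (1 / η)
  set C : ℝ := 2 * (J ^ 2 + J ^ 4) with hC
  have hC0 : 0 ≤ C := by positivity
  obtain ⟨P, hP⟩ := exists_nat_ge (2 * (J + 1) + C + (n₀ + A * n₀ * C + J * (J + 1)) / η)
  obtain ⟨p, hp1, hp⟩ := Nat.exists_infinite_primes (P + 3 + ∑ i, c i +
    ∑ i, ∑ j, ((c i : ℤ) * d j - c j * d i).natAbs)
  haveI : Fact p.Prime := ⟨hp⟩
  have hpR : (0 : ℝ) < p := by exact_mod_cast hp.pos
  have hPp : (P : ℝ) ≤ p := by exact_mod_cast (by omega)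
  set δ : ℝ := 1 / p with hδ
  have hδ0 : 0 < δ := by positivity
  have hδp : δ * p = 1 := by rw [hδ]; field_simp
  have hle : ∀ x y : ℝ, 0 < y → x / y ≤ p → x * δ ≤ y := fun x y hy hxy => by
    rw [div_le_iff₀ hy] at hxy
    rw [hδ, mul_one_div, div_le_iff₀ hpR]; linarith
  have hn₀0 : (0 : ℝ) ≤ n₀ := Nat.cast_nonneg _
  have hJ0 : (0 : ℝ) ≤ J := Nat.cast_nonneg _
  have hA0 : (0 : ℝ) ≤ A := Nat.cast_nonneg _
  have hq : 0 ≤ (n₀ + A * n₀ * C + J * (J + 1)) / η := by positivity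
  have e1 : 2 * (J + 1) * δ ≤ 1 := hle _ 1 one_pos (by linarith)
  have e2 : C * δ ≤ 1 := hle _ 1 one_pos (by linarith)
  have e3 : (n₀ + A * n₀ * C + J * (J + 1)) * δ ≤ η := hle _ η hη0 (by linarith)
  have hδ1 : δ ≤ 1 := by nlinarith
  have e4 : n₀ * δ ≤ η := by
    have : 0 ≤ (A * n₀ * C + J * (J + 1)) * δ := by positivity
    linarith
  have e5 : A * n₀ * C * δ ≤ η := by
    have : 0 ≤ (n₀ + J * (J + 1)) * δ := by positivity
    linarith
  have e6 : J * ((J + 1) * δ) ≤ η := by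
    have : 0 ≤ (n₀ + A * n₀ * C) * δ := by positivity
    linarith
  obtain ⟨h, hh⟩ := hp.odd_of_ne_two (by omega)
  have hh' : (p : ℤ) = 2 * (h : ℤ) + 1 := by exact_mod_cast hh
  have hcp : ∀ i, (c i : ZMod p) ≠ 0 := fun i h0 => by
    rw [ZMod.natCast_eq_zero_iff] at h0
    have h1 := Nat.le_of_dvd (hc i) h0
    have h2 := single_le_sum (f := c) (fun i _ => Nat.zero_le _) (mem_univ i)
    omega
  have hdp : ∀ i j, i ≠ j → (c i : ZMod p) * (d j : ZMod p) ≠ c j * d i := fun i j hij h0 => by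
    have h1 : (((c i : ℤ) * d j - c j * d i : ℤ) : ZMod p) = 0 := by push_cast; rw [h0, sub_self]
    rw [ZMod.intCast_zmod_eq_zero_iff_dvd, Int.natCast_dvd] at h1
    have h2 := Nat.le_of_dvd (Int.natAbs_pos.2 (sub_ne_zero.2 (hdet i j hij))) h1
    have h3 := single_le_sum (f := fun j => ((c i : ℤ) * d j - c j * d i).natAbs)
      (fun i _ => Nat.zero_le _) (mem_univ j)
    have h4 := single_le_sum (f := fun i => ∑ j, ((c i : ℤ) * d j - c j * d i).natAbs)
      (fun i _ => Nat.zero_le _) (mem_univ i)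
    omega
  set ls := rep pat (A * p) with hls
  obtain ⟨α, hα, pos, hrec⟩ := recursion c d p h hh' hcp hdp δ hδp e1 (by nlinarith) ls
  have hη1 : η < 1 / 3 := by linarith
  have hlen : (pat.length : ℝ) ≤ n₀ := by rw [hpat1]; exact hn2
  have hg : ∀ i, 2 * w i * (1 - ε) ≤ gl δ i ls := by
    intro i
    have hwi := hw i
    have h1 := gl_count hδ0.le hδ1 i pat
    rw [hpat2] at h1
    have h2 := gl_rep hδ0.le hδ1 i pat (A * p)
    have h3 := bern δ hδ1 pat.length
    have hpos : 0 < (n i : ℝ) := lt_of_lt_of_le (by nlinarith [hn₀' i]) (hn1 i)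
    have hl1 : 1 ≤ pat.length := by
      have h4 : 0 < n i := by exact_mod_cast hpos
      have := List.count_le_length (a := i) (l := pat)
      rw [hpat2] at this; omega
    have h4 : ((1 - δ) ^ pat.length) ^ (A * p) ≤ η := by
      have h5 : (1 - δ) ^ pat.length ≤ 1 - δ := by
        have := pow_le_pow_of_le_one (by linarith : 0 ≤ 1 - δ) (by linarith) hl1
        rwa [pow_one] at this
      refine (pow_le_pow_left₀ (pow_nonneg (by linarith) _) h5 _).trans ?_
      have h6 := pow_le_inv hδ0.le hδ1 (A * p)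
      have h7 : ((A * p : ℕ) : ℝ) * δ = A := by push_cast; rw [mul_assoc, mul_comm _ δ, hδp, mul_one]
      rw [h7] at h6
      rw [div_le_iff₀ hη0] at hA
      have h8 : 0 ≤ (1 - δ) ^ (A * p) := pow_nonneg (by linarith) _
      nlinarith
    have h5 : 1 - η ≤ (1 - δ) ^ pat.length := by nlinarith [mul_le_mul_of_nonneg_right hlen hδ0.le]
    have hn₀p : (0 : ℝ) < n₀ := by
      by_contra h0
      have : (n₀ : ℝ) = 0 := le_antisymm (not_lt.1 h0) hn₀0
      have h9 := hn₀' i
      rw [this] at h9; linarith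
    have h6 : (1 - η) * (n₀ * (2 * w i)) * δ * (1 - η) ≤ gl δ i pat :=
      le_trans (mul_le_mul (mul_le_mul_of_nonneg_right (hn1 i) hδ0.le) h5 (by linarith)
        (by positivity)) h1
    have h7 : (1 - η) * (n₀ * (2 * w i)) * δ * (1 - η) * (1 - η) ≤ gl δ i ls * (n₀ * δ) := by
      refine le_trans (mul_le_mul h6 (by linarith) (by linarith) (gl_nonneg hδ0.le hδ1 _ _))
        (h2.trans ?_)
      exact mul_le_mul_of_nonneg_left (mul_le_mul_of_nonneg_right hlen hδ0.le)
        (gl_nonneg hδ0.le hδ1 _ _)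
    have h8 : 2 * w i * (1 - η) ^ 3 ≤ gl δ i ls := by
      refine le_of_mul_le_mul_right (le_trans (le_of_eq ?_) h7) (by positivity : 0 < n₀ * δ)
      ring
    have h9 := bern η (by linarith) 3
    refine le_trans (mul_le_mul_of_nonneg_left ?_ (by positivity)) h8
    push_cast at h9; linarith
  have hgpos : ∀ i, 0 < gl δ i ls := fun i =>
    lt_of_lt_of_le (by have := hw i; have : 0 < 1 - ε := by linarith
                       positivity) (hg i)
  have hG : 0 < ∏ i, gl δ i ls := prod_pos fun i _ => hgpos i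
  have hθ : 1 - ε ≤ (1 - C * δ ^ 2) ^ ls.length * (1 - (J + 1) * δ) ^ (univ : Finset (Fin J)).card := by
    have h1 := bern (C * δ ^ 2) (by nlinarith) ls.length
    have h2 := bern ((J + 1) * δ) (by linarith) (univ : Finset (Fin J)).card
    rw [card_univ, Fintype.card_fin] at h2 ⊢
    have h3 : (ls.length : ℝ) * (C * δ ^ 2) ≤ η := by
      rw [hls, length_rep]; push_cast
      calc _ = (δ * p) * (A * pat.length * C * δ) := by ring
        _ ≤ η := by
          rw [hδp, one_mul]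
          refine le_trans ?_ e5
          gcongr
    calc 1 - ε ≤ (1 - η) * (1 - η) := by nlinarith
      _ ≤ _ := mul_le_mul (by linarith) (by linarith) (by linarith) (pow_nonneg (by nlinarith) _)
  refine ⟨p ^ ls.length, lab p h ls, α, hα, pos, pow_pos hp.pos _, fun y y' hy => ?_,
    lab_symm (by exact_mod_cast hp.pos) hh' ls, fun κ => ?_⟩
  · exact lab_congr (by exact_mod_cast hp.pos) ls y y' (by exact_mod_cast hy)
  obtain ⟨ω, h0, h1, h2, h3⟩ := hrec univ κ
  refine ⟨fun a => ω a / ∏ i, gl δ i ls, fun a => div_nonneg (h0 a) hG.le,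
    fun a ha i => h1 a (fun h => ha (by simp [h])) i (mem_univ i), ?_, fun i y => ?_⟩
  · rw [← sum_div, le_div_iff₀ hG]
    exact (mul_le_mul_of_nonneg_right hθ hG.le).trans h2
  · rw [← sum_div, div_le_iff₀ hG]
    have h4 := h3 i y
    push_cast
    refine h4.trans ?_
    rw [← mul_prod_erase univ _ (mem_univ i), ← mul_assoc]
    apply mul_le_mul_of_nonneg_right _ (prod_nonneg fun j _ => (hgpos j).le)
    have h5 : 0 < 2 * w i * (1 - ε) := by
      have := hw i; have : 0 < 1 - ε := by linarith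
      positivity
    rw [hδ, div_pow, one_pow, mul_assoc, div_mul_eq_mul_div, one_mul,
      div_le_div_iff₀ (by positivity) (by positivity), one_mul, mul_comm]
    exact mul_le_mul_of_nonneg_right (hg i) (by positivity)

end Crest.Agent.UF
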