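import Crest.Agent.UF.Blocks

set_option autoImplicit false
open Finset

namespace Crest.Agent.UF

theorem tile_of_cells {ι : Type} [Fintype ι] (Q' : ℕ) (hQ' : 0 < Q') (lo ln : ι → ℕ)
    (hln : ∀ i, 0 < ln i) (hin : ∀ i, lo i + ln i ≤ Q')
    (hdisj : ∀ i j, i ≠ j → Disjoint (Ico (lo i) (lo i + ln i)) (Ico (lo j) (lo j + ln j)))
    (hcover : ∀ x < Q', ∃ i, x ∈ Ico (lo i) (lo i + ln i)) (y₀ l : ι → ℝ)
    (hyl : ∀ i, (y₀ i = lo i / (2 * Q') ∧ l i = ln i / (2 * Q')) ∨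
      (y₀ i = (lo i + ln i) / (2 * Q') ∧ l i = -(ln i / (2 * Q')))) :
    (∀ i, |l i| = ln i / (2 * Q')) ∧ (∀ i, l i ≠ 0) ∧ (∀ i, |l i| ≤ 1) ∧
    (∀ i j, i ≠ j → ∀ v ∈ Set.Icc (0 : ℝ) 1, ∀ w ∈ Set.Ioo (0 : ℝ) 1,
      y₀ i + l i * v ≠ y₀ j + l j * w) ∧
    (∀ j, ∀ w ∈ Set.Ioo (0 : ℝ) 1, y₀ j + l j * w ≠ 0 ∧ y₀ j + l j * w ≠ 1 / 2) ∧
    (∀ F : ℝ → ℂ, Continuous F → ∫ y in (0 : ℝ)..(1 / 2), F y =
      ∑ i, ((|l i| : ℝ) : ℂ) * ∫ v in (0 : ℝ)..1, F (y₀ i + l i * v)) := by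
  classical
  have hQ : (0 : ℝ) < 2 * Q' := by positivity
  have hlnR : ∀ i, (0 : ℝ) < ln i := fun i => by exact_mod_cast hln i
  have habs : ∀ i, |l i| = ln i / (2 * Q') := fun i => by
    rcases hyl i with h | h
    · rw [h.2, abs_of_pos (div_pos (hlnR i) hQ)]
    · rw [h.2, abs_neg, abs_of_pos (div_pos (hlnR i) hQ)]
  have hinR : ∀ i, (lo i : ℝ) + ln i ≤ Q' := fun i => by exact_mod_cast hin i
  have hclosed : ∀ i, ∀ v ∈ Set.Icc (0 : ℝ) 1, (lo i : ℝ) ≤ (y₀ i + l i * v) * (2 * Q') ∧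
      (y₀ i + l i * v) * (2 * Q') ≤ lo i + ln i := by
    intro i v hv
    have := hlnR i
    rcases hyl i with h | h
    · have e1 : (y₀ i + l i * v) * (2 * Q') = lo i + ln i * v := by rw [h.1, h.2]; field_simp
      rw [e1]; constructor <;> nlinarith [hv.1, hv.2]
    · have e1 : (y₀ i + l i * v) * (2 * Q') = lo i + ln i - ln i * v := by
        rw [h.1, h.2]; field_simp; ring
      rw [e1]; constructor <;> nlinarith [hv.1, hv.2]
  have hopen : ∀ i, ∀ v ∈ Set.Ioo (0 : ℝ) 1, (lo i : ℝ) < (y₀ i + l i * v) * (2 * Q') ∧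
      (y₀ i + l i * v) * (2 * Q') < lo i + ln i := by
    intro i v hv
    have := hlnR i
    rcases hyl i with h | h
    · have e1 : (y₀ i + l i * v) * (2 * Q') = lo i + ln i * v := by rw [h.1, h.2]; field_simp
      rw [e1]; constructor <;> nlinarith [hv.1, hv.2]
    · have e1 : (y₀ i + l i * v) * (2 * Q') = lo i + ln i - ln i * v := by
        rw [h.1, h.2]; field_simp; ring
      rw [e1]; constructor <;> nlinarith [hv.1, hv.2]
  refine ⟨habs, fun i => abs_pos.1 (by rw [habs]; exact div_pos (hlnR i) hQ), fun i => ?_, ?_, ?_, ?_⟩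
  · rw [habs, div_le_one hQ]
    have := hinR i
    have : (0 : ℝ) ≤ lo i := Nat.cast_nonneg _
    linarith
  · intro i j hij v hv w hw heq
    have h1 := hclosed i v hv
    have h2 := hopen j w hw
    rw [← heq] at h2
    have h3 : lo i < lo j + ln j := by
      have : (lo i : ℝ) < lo j + ln j := by linarith [h1.1, h2.2]
      exact_mod_cast this
    have h4 : lo j < lo i + ln i := by
      have : (lo j : ℝ) < lo i + ln i := by linarith [h1.2, h2.1]
      exact_mod_cast this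
    have := hln i
    have := hln j
    have h5 := disjoint_left.1 (hdisj i j hij)
    exact h5 (a := max (lo i) (lo j)) (by rw [mem_Ico]; omega) (by rw [mem_Ico]; omega)
  · intro j w hw
    have h2 := hopen j w hw
    have := hinR j
    have : (0 : ℝ) ≤ lo j := Nat.cast_nonneg _
    constructor
    · intro h; rw [h] at h2; linarith [h2.1]
    · intro h; rw [h] at h2; linarith [h2.2]
  · intro F hF
    set a : ℕ → ℝ := fun x => x / (2 * Q') with ha
    have hint : ∀ m n : ℕ, m ≤ n → ∑ x ∈ Ico m n, ∫ y in a x..a (x + 1), F y = ∫ y in a m..a n, F y :=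
      fun m n hmn => intervalIntegral.sum_integral_adjacent_intervals_Ico hmn
        (fun k _ => hF.intervalIntegrable _ _)
    have h0 : ∫ y in (0 : ℝ)..(1 / 2), F y = ∑ x ∈ Ico 0 Q', ∫ y in a x..a (x + 1), F y := by
      rw [hint 0 Q' (Nat.zero_le _)]
      congr 1
      · simp [ha]
      · simp only [ha]; field_simp
    have hU : Ico 0 Q' = univ.biUnion fun i => Ico (lo i) (lo i + ln i) := by
      ext x
      simp only [mem_Ico, mem_biUnion, mem_univ, true_and]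
      constructor
      · intro hx
        obtain ⟨i, hi⟩ := hcover x hx.2
        exact ⟨i, mem_Ico.1 hi⟩
      · rintro ⟨i, hi⟩
        have := hin i
        omega
    rw [h0, hU, sum_biUnion (fun i _ j _ hij => hdisj i j hij)]
    refine sum_congr rfl fun i _ => ?_
    rw [hint _ _ (Nat.le_add_right _ _)]
    have hl0 : l i ≠ 0 := abs_pos.1 (by rw [habs]; exact div_pos (hlnR i) hQ)
    have hsub : ∫ v in (0 : ℝ)..1, F (y₀ i + l i * v) =
        (l i)⁻¹ • ∫ y in (y₀ i + l i * 0)..(y₀ i + l i * 1), F y :=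
      intervalIntegral.integral_comp_add_mul F hl0 (y₀ i)
    rw [hsub]
    rcases hyl i with h | h
    · have e1 : y₀ i + l i * 0 = a (lo i) := by rw [h.1]; simp [ha]
      have e2 : y₀ i + l i * 1 = a (lo i + ln i) := by
        rw [h.1, h.2]; simp only [ha]; push_cast; ring
      rw [e1, e2, abs_of_pos (by rw [h.2]; exact div_pos (hlnR i) hQ), Complex.real_smul,
        ← mul_assoc, ← Complex.ofReal_mul, mul_inv_cancel₀ hl0]
      simp
    · have e1 : y₀ i + l i * 0 = a (lo i + ln i) := by rw [h.1]; simp [ha]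
      have e2 : y₀ i + l i * 1 = a (lo i) := by
        rw [h.1, h.2]; simp only [ha]; ring
      rw [e1, e2, abs_of_neg (by rw [h.2]; exact neg_neg_of_pos (div_pos (hlnR i) hQ)),
        Complex.real_smul, ← mul_assoc, ← Complex.ofReal_mul, neg_mul, mul_inv_cancel₀ hl0,
        intervalIntegral.integral_symm]
      simp

/-- the taper -/
theorem exists_taper (m Λ η : ℝ) (hm : 0 < m) (hΛ : 0 < Λ) (hη : 0 < η) :
    ∃ (g r r₁ : ℝ → ℝ) (δ : ℝ), 0 < δ ∧ δ ≤ 1 / 4 ∧ (∀ x, HasDerivAt g (r x) x) ∧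
      (∀ x, HasDerivAt r (r₁ x) x) ∧ Continuous r₁ ∧ r 0 = 0 ∧ r 1 ≤ m * (1 + η) ∧
      (∀ x, m ≤ r₁ x) ∧ ∀ x ∈ Set.Icc (0 : ℝ) 1, x ≤ δ ∨ 1 - δ ≤ x → m * Λ ≤ r₁ x := by
  obtain ⟨n, hn⟩ := exists_nat_gt (Λ / η)
  have hn0 : (0 : ℝ) < n := lt_trans (by positivity) hn
  set r₁ : ℝ → ℝ := fun v => m * (1 + 2 * Λ * (2 * v - 1) ^ (2 * n)) with hr₁
  set r : ℝ → ℝ := fun v => m * (v + Λ * ((2 * v - 1) ^ (2 * n + 1) + 1) / (2 * n + 1)) with hr
  have hrc : Continuous r := by simp only [hr]; fun_prop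
  have h2v : ∀ v : ℝ, HasDerivAt (fun v : ℝ => 2 * v - 1) 2 v := fun v => by
    simpa using ((hasDerivAt_id v).const_mul 2).sub_const 1
  refine ⟨fun y => ∫ x in (0 : ℝ)..y, r x, r, r₁, 1 / (8 * n + 4), by positivity, ?_,
    fun y => (hrc.integral_hasStrictDerivAt 0 y).hasDerivAt, fun v => ?_, by simp only [hr₁]; fun_prop,
    ?_, ?_, fun v => ?_, fun v hv h => ?_⟩
  · rw [div_le_div_iff₀ (by positivity) (by norm_num)]; linarith
  · have := ((hasDerivAt_id v).add ((((((h2v v).pow (2 * n + 1)).add_const 1).const_mul Λ).div_const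
      (2 * n + 1)))).const_mul m
    refine this.congr_deriv ?_
    simp only [hr₁, Nat.add_sub_cancel]; push_cast; field_simp
  · simp only [hr]
    rw [show (2 * (0 : ℝ) - 1) = -1 by ring, Odd.neg_one_pow ⟨n, rfl⟩]; simp
  · simp only [hr]
    rw [show (2 * (1 : ℝ) - 1) = 1 by ring, one_pow]
    apply mul_le_mul_of_nonneg_left _ hm.le
    rw [div_lt_iff₀ hη] at hn
    have : Λ * (1 + 1) / (2 * n + 1) ≤ η := by
      rw [div_le_iff₀ (by positivity)]; nlinarith
    linarith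
  · simp only [hr₁]
    have : 0 ≤ (2 * v - 1) ^ (2 * n) := by rw [pow_mul]; positivity
    nlinarith [mul_nonneg hΛ.le this]
  · simp only [hr₁]
    apply mul_le_mul_of_nonneg_left _ hm.le
    set δ : ℝ := 1 / (8 * n + 4) with hδ
    have hδ0 : 0 < δ := by positivity
    have hδ1 : (8 * n + 4) * δ = 1 := by rw [hδ]; field_simp
    have h1 : 1 - 2 * δ ≤ |2 * v - 1| := by
      rcases h with h | h
      · rw [abs_sub_comm]; exact le_trans (by linarith) (le_abs_self _)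
      · exact le_trans (by linarith) (le_abs_self _)
    have h2 : (1 - 2 * δ) ^ (2 * n) ≤ (2 * v - 1) ^ (2 * n) := by
      rw [← (even_two_mul n).pow_abs (2 * v - 1)]
      exact pow_le_pow_left₀ (by nlinarith) h1 _
    have h3 : 1 + ((2 * n : ℕ) : ℝ) * (-(2 * δ)) ≤ (1 + -(2 * δ)) ^ (2 * n) :=
      one_add_mul_le_pow (by nlinarith) _
    push_cast at h3
    have h4 : 1 / 2 ≤ (2 * v - 1) ^ (2 * n) := by
      have : (1 + -(2 * δ)) = 1 - 2 * δ := by ring
      rw [this] at h3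
      nlinarith
    nlinarith

end Crest.Agent.UF
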